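import Vale.Agent.P321.UB.Basic

/-!
Block U6: lower bound for a polynomial with bounded coefficients on a short arc of the circle
`|w| = e^{-κ}` around the positive real axis, by multiplying over rotations and the maximum
modulus principle.
-/

namespace Vale.Agent.P321.UB.U6

open Complex

/-- The polynomial `∑_{i<d} a i w^i`. -/
noncomputable def G (a : ℕ → ℂ) (d : ℕ) (w : ℂ) : ℂ := ∑ i ∈ Finset.range d, a i * w ^ i

theorem G_zero (a : ℕ → ℂ) {d : ℕ} (hd : 0 < d) : G a d 0 = a 0 := by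
  unfold G
  rw [Finset.sum_eq_single 0]
  · simp
  · intro i _ hi
    simp [hi]
  · intro h
    exact absurd (Finset.mem_range.mpr hd) h

theorem G_differentiable (a : ℕ → ℂ) (d : ℕ) : Differentiable ℂ (G a d) := by
  unfold G
  fun_prop

theorem norm_G_le (a : ℕ → ℂ) (d : ℕ) {B r : ℝ} (hB : ∀ i < d, ‖a i‖ ≤ B) (hB0 : 0 ≤ B)
    (hr0 : 0 ≤ r) (hr1 : r < 1) {w : ℂ} (hw : ‖w‖ = r) : ‖G a d w‖ ≤ B / (1 - r) := by
  unfold G
  calc ‖∑ i ∈ Finset.range d, a i * w ^ i‖ ≤ ∑ i ∈ Finset.range d, ‖a i * w ^ i‖ :=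
        norm_sum_le _ _
    _ ≤ ∑ i ∈ Finset.range d, B * r ^ i := by
        refine Finset.sum_le_sum fun i hi => ?_
        rw [norm_mul, norm_pow, hw]
        exact mul_le_mul_of_nonneg_right (hB i (Finset.mem_range.mp hi)) (by positivity)
    _ = B * ∑ i ∈ Finset.range d, r ^ i := by rw [Finset.mul_sum]
    _ ≤ B * (1 - r)⁻¹ := by
        refine mul_le_mul_of_nonneg_left ?_ hB0
        rw [← tsum_geometric_of_lt_one hr0 hr1]
        exact (summable_geometric_of_lt_one hr0 hr1).sum_le_tsum _ (fun i _ => by positivity)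
    _ = B / (1 - r) := by rw [div_eq_mul_inv]

/-- Every real angle can be moved into `[-π/m, π/m]` by one of the `m` rotations. -/
theorem exists_rotation (m : ℕ) (hm : 0 < m) (t : ℝ) :
    ∃ k : ℕ, k < m ∧ ∃ ξ : ℝ, |ξ| ≤ Real.pi / m ∧
      Complex.exp (t * I) * Complex.exp (2 * Real.pi * k / m * I) = Complex.exp (ξ * I) := by
  have hm' : (0 : ℝ) < m := by exact_mod_cast hm
  have hpi := Real.pi_pos
  set z : ℤ := round (-(t * m / (2 * Real.pi))) with hz
  set k : ℕ := (z % (m : ℤ)).toNat with hk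
  have hmz : (m : ℤ) ≠ 0 := by exact_mod_cast hm.ne'
  have hk0 : 0 ≤ z % (m : ℤ) := Int.emod_nonneg _ hmz
  have hkm : z % (m : ℤ) < m := Int.emod_lt_of_pos _ (by exact_mod_cast hm)
  have hkc : (k : ℤ) = z % (m : ℤ) := Int.toNat_of_nonneg hk0
  refine ⟨k, by omega, t + 2 * Real.pi * z / m, ?_, ?_⟩
  · have h1 : |(-(t * m / (2 * Real.pi))) - z| ≤ 1 / 2 := abs_sub_round _
    have h2 : t + 2 * Real.pi * z / m
        = -(2 * Real.pi / m) * ((-(t * m / (2 * Real.pi))) - z) := by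
      field_simp
      ring
    rw [h2, abs_mul, abs_neg, abs_of_pos (by positivity : (0:ℝ) < 2 * Real.pi / m)]
    calc 2 * Real.pi / m * |(-(t * m / (2 * Real.pi))) - z| ≤ 2 * Real.pi / m * (1 / 2) :=
          mul_le_mul_of_nonneg_left h1 (by positivity)
      _ = Real.pi / m := by ring
  · have hzk : (z : ℤ) = k + m * (z / m) := by
      rw [hkc]; exact (Int.emod_add_mul_ediv z m).symm
    have hzk' : (z : ℂ) = k + m * ((z / (m : ℤ) : ℤ) : ℂ) := by
      exact_mod_cast congrArg (fun x : ℤ => (x : ℂ)) hzk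
    have hmc : (m : ℂ) ≠ 0 := by exact_mod_cast hm.ne'
    have : ((t + 2 * Real.pi * z / m : ℝ) : ℂ) * I
        = (t * I + 2 * Real.pi * k / m * I) + ((z / (m : ℤ) : ℤ) : ℂ) * (2 * Real.pi * I) := by
      push_cast
      rw [hzk']
      field_simp
      ring
    rw [this, Complex.exp_add _ (((z / (m : ℤ) : ℤ) : ℂ) * (2 * Real.pi * I)),
      Complex.exp_int_mul_two_pi_mul_I, mul_one, Complex.exp_add]

/-- **Base case.** A polynomial with `‖a 0‖ > 0` and coefficients bounded by `B` is not too small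
on the arc `{e^{-(κ + iξ)} : |ξ| ≤ π/m}`. -/
theorem arc_lower (a : ℕ → ℂ) {d : ℕ} (hd : 0 < d) {B κ : ℝ} (hB : ∀ i < d, ‖a i‖ ≤ B)
    (hκ : 0 < κ) (m : ℕ) (hm : 0 < m) :
    ∃ ξ : ℝ, |ξ| ≤ Real.pi / m ∧
      ‖a 0‖ ^ m * ((1 - Real.exp (-κ)) / B) ^ (m - 1)
        ≤ ‖∑ i ∈ Finset.range d, a i * Complex.exp (-((κ : ℂ) + ξ * I) * i)‖ := by
  classical
  set r : ℝ := Real.exp (-κ) with hr
  have hr0 : 0 < r := Real.exp_pos _
  have hr1 : r < 1 := by rw [hr]; exact Real.exp_lt_one_iff.mpr (by linarith)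
  have hB0 : 0 ≤ B := (norm_nonneg _).trans (hB 0 hd)
  -- rewriting the values as values of `G`
  have hval : ∀ ξ : ℝ, ∑ i ∈ Finset.range d, a i * Complex.exp (-((κ : ℂ) + ξ * I) * i)
      = G a d (r * Complex.exp ((-ξ : ℝ) * I)) := by
    intro ξ
    unfold G
    refine Finset.sum_congr rfl fun i _ => ?_
    rw [hr, Complex.ofReal_exp, ← Complex.exp_add, ← Complex.exp_nat_mul]
    congr 2
    push_cast
    ring
  by_contra hcon
  push Not at hcon
  set ε : ℝ := ‖a 0‖ ^ m * ((1 - r) / B) ^ (m - 1) with hε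
  have hsmall : ∀ ξ : ℝ, |ξ| ≤ Real.pi / m → ‖G a d (r * Complex.exp (ξ * I))‖ < ε := by
    intro ξ hξ
    have := hcon (-ξ) (by rwa [abs_neg])
    rw [hval] at this
    simpa using this
  rcases eq_or_lt_of_le (norm_nonneg (a 0)) with h0 | h0
  · -- trivial case `a 0 = 0`
    have h1 := hsmall 0 (by simp; positivity)
    rw [hε, ← h0, zero_pow hm.ne', zero_mul] at h1
    exact absurd h1 (not_lt.mpr (norm_nonneg _))
  have hBpos : 0 < B := h0.trans_le (hB 0 hd)
  -- the product over rotations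
  set P : ℂ → ℂ := fun w => ∏ k ∈ Finset.range m, G a d (w * Complex.exp (2 * Real.pi * k / m * I))
    with hP
  have hPdiff : Differentiable ℂ P := by
    rw [hP]
    refine Differentiable.fun_finsetProd fun k _ => ?_
    exact (G_differentiable a d).comp (by fun_prop)
  have hP0 : P 0 = a 0 ^ m := by
    simp only [hP, zero_mul, G_zero a hd, Finset.prod_const, Finset.card_range]
  have hnormrot : ∀ k : ℕ, ‖Complex.exp (2 * Real.pi * k / m * I)‖ = 1 := by
    intro k
    have : (2 * Real.pi * k / m * I : ℂ) = ((2 * Real.pi * k / m : ℝ) : ℂ) * I := by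
      push_cast; ring
    rw [this, Complex.norm_exp_ofReal_mul_I]
  have hbound : ∀ w : ℂ, ‖w‖ = r → ‖P w‖ < ‖a 0‖ ^ m := by
    intro w hw
    -- polar form
    set t := Complex.arg w with ht
    have hwt : w = r * Complex.exp (t * I) := by
      rw [← hw, ht]; exact (Complex.norm_mul_exp_arg_mul_I w).symm
    obtain ⟨k, hkm, ξ, hξ, hrot⟩ := exists_rotation m hm t
    have hkmem : k ∈ Finset.range m := Finset.mem_range.mpr hkm
    have hGk : ‖G a d (w * Complex.exp (2 * Real.pi * k / m * I))‖ < ε := by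
      have : w * Complex.exp (2 * Real.pi * k / m * I) = r * Complex.exp (ξ * I) := by
        rw [hwt, mul_assoc, hrot]
      rw [this]; exact hsmall ξ hξ
    have hothers : ∏ j ∈ (Finset.range m).erase k,
        ‖G a d (w * Complex.exp (2 * Real.pi * j / m * I))‖ ≤ (B / (1 - r)) ^ (m - 1) := by
      calc _ ≤ ∏ j ∈ (Finset.range m).erase k, (B / (1 - r)) := by
            refine Finset.prod_le_prod (fun _ _ => norm_nonneg _) fun j _ => ?_
            refine norm_G_le a d hB hB0 hr0.le hr1 ?_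
            rw [norm_mul, hnormrot, mul_one, hw]
        _ = (B / (1 - r)) ^ (m - 1) := by
            rw [Finset.prod_const, Finset.card_erase_of_mem hkmem, Finset.card_range]
    have h1r : 0 < 1 - r := by linarith
    calc ‖P w‖ = ‖G a d (w * Complex.exp (2 * Real.pi * k / m * I))‖ *
          ∏ j ∈ (Finset.range m).erase k, ‖G a d (w * Complex.exp (2 * Real.pi * j / m * I))‖ := by
          simp only [hP]
          rw [norm_prod, ← Finset.mul_prod_erase _ _ hkmem]
      _ ≤ ‖G a d (w * Complex.exp (2 * Real.pi * k / m * I))‖ * (B / (1 - r)) ^ (m - 1) :=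
          mul_le_mul_of_nonneg_left hothers (norm_nonneg _)
      _ < ε * (B / (1 - r)) ^ (m - 1) := by
          refine mul_lt_mul_of_pos_right hGk (by positivity)
      _ = ‖a 0‖ ^ m := by
          rw [hε, mul_assoc, ← mul_pow]
          have : (1 - r) / B * (B / (1 - r)) = 1 := by field_simp
          rw [this, one_pow, mul_one]
  -- maximum modulus
  have hmax : ‖P 0‖ ≤ ‖a 0‖ ^ m := by rw [hP0, norm_pow]
  have hcomp : IsCompact (Metric.sphere (0 : ℂ) r) := isCompact_sphere _ _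
  have hne : (Metric.sphere (0 : ℂ) r).Nonempty := NormedSpace.sphere_nonempty.mpr hr0.le
  obtain ⟨w0, hw0, hw0max⟩ := hcomp.exists_isMaxOn hne
    (hPdiff.continuous.norm.continuousOn)
  have hw0n : ‖w0‖ = r := by simpa using hw0
  have hle : ‖P 0‖ ≤ ‖P w0‖ := by
    have := Complex.norm_le_of_forall_mem_frontier_norm_le (U := Metric.ball (0 : ℂ) r)
      (f := P) (C := ‖P w0‖) Metric.isBounded_ball hPdiff.diffContOnCl
      (fun z hz => by
        rw [frontier_ball _ hr0.ne'] at hz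
        exact hw0max hz) (z := 0) (subset_closure (Metric.mem_ball_self hr0))
    exact this
  have := hbound w0 hw0n
  rw [hP0, norm_pow] at hle
  linarith

end Vale.Agent.P321.UB.U6

namespace Vale.Agent.P321.UB

open Complex Finset

/-- Rotation trick + maximum modulus. -/
theorem base_case {m : ℕ} {a : ℕ → ℂ} {κ0 π0 : ℝ} {M : ℕ} (hm : 1 ≤ m) (hκ0 : 0 < κ0)
    (hκ0' : κ0 ≤ 1 / 10) (ha : ∀ k < m, ‖a k‖ ≤ 1) (ha0 : π0 ≤ ‖a 0‖) (hπ0 : 0 < π0)
    (hπ1 : π0 ≤ 1) (hM : Real.pi / κ0 ≤ M) :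
    ∃ s : ℂ, s.re = κ0 ∧ |s.im| ≤ κ0 ∧ (π0 * (κ0 / 2)) ^ M ≤ ‖expSum m a s‖ := by
  have hM0 : 0 < M := by
    have h1 : 0 < Real.pi / κ0 := by positivity
    exact_mod_cast h1.trans_le hM
  have hM0' : (0 : ℝ) < M := by exact_mod_cast hM0
  obtain ⟨ξ, hξ, hle⟩ := U6.arc_lower a (d := m) (by omega) (B := 1) (κ := κ0) ha hκ0 M hM0
  refine ⟨(κ0 : ℂ) + ξ * I, by simp, ?_, le_trans ?_ hle⟩
  · have : ((κ0 : ℂ) + ξ * I).im = ξ := by simp
    rw [this]
    refine hξ.trans ?_
    rw [div_le_iff₀ hM0']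
    rw [div_le_iff₀ hκ0] at hM
    linarith
  · have he : κ0 / 2 ≤ 1 - Real.exp (-κ0) := by
      have h2 : Real.exp (-κ0) ≤ 1 / (1 + κ0) := by
        rw [Real.exp_neg, ← one_div]
        exact one_div_le_one_div_of_le (by linarith) (by linarith [Real.add_one_le_exp κ0])
      have h3 : 1 / (1 + κ0) ≤ 1 - κ0 / 2 := by
        rw [div_le_iff₀ (by linarith)]
        nlinarith
      linarith
    calc (π0 * (κ0 / 2)) ^ M = π0 ^ M * (κ0 / 2) ^ M := by rw [mul_pow]
      _ ≤ ‖a 0‖ ^ M * (κ0 / 2) ^ (M - 1) := by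
          refine mul_le_mul (pow_le_pow_left₀ hπ0.le ha0 M) ?_ (by positivity) (by positivity)
          exact pow_le_pow_of_le_one (by positivity) (by linarith) (Nat.sub_le M 1)
      _ ≤ ‖a 0‖ ^ M * ((1 - Real.exp (-κ0)) / 1) ^ (M - 1) := by
          refine mul_le_mul_of_nonneg_left ?_ (by positivity)
          rw [div_one]
          exact pow_le_pow_left₀ (by positivity) he _

end Vale.Agent.P321.UB
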