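import Mathlib

/-!
# P321 upper bound: basic definitions

Shared definitions for the quasi-polynomial upper bound for trace reconstruction.
-/

namespace Vale.Agent.P321.UB

open Complex Finset

/-- Expectation of `Φ` over the trace of a string with retention probability `r`
(every bit is kept with probability `r`). -/
noncomputable def FE (r : ℝ) : (List Bool → ℂ) → List Bool → ℂ
  | Φ, [] => Φ []
  | Φ, b :: y => (1 - (r : ℂ)) * FE r Φ y + (r : ℂ) * FE r (fun u => Φ (b :: u)) y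

/-- `τ` is (on strings of length `≤ n`) the expectation of a function bounded by `B` over the trace
with retention probability `r`. -/
def IsTest (n : ℕ) (r B : ℝ) (τ : List Bool → ℂ) : Prop :=
  ∃ Φ : List Bool → ℂ, (∀ u, u.length ≤ n → ‖Φ u‖ ≤ B) ∧ ∀ y, y.length ≤ n → FE r Φ y = τ y

/-- The operator `S_z` on functions of strings. -/
noncomputable def Sz (z : ℂ) (τ : List Bool → ℂ) : List Bool → ℂ
  | [] => 0
  | _ :: y => z * Sz z τ y + τ y

/-- The operator `S_z` on sequences. -/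
noncomputable def seqS (z : ℂ) (f : ℕ → ℂ) : ℕ → ℂ
  | 0 => 0
  | i + 1 => z * seqS z f i + f i

/-- `expSum m a s = ∑_{k<m} a_k e^{-s k}`. -/
noncomputable def expSum (m : ℕ) (a : ℕ → ℂ) (s : ℂ) : ℂ :=
  ∑ k ∈ range m, a k * cexp (-s * k)

/-- The difference sequence seen from the first difference `i1`. -/
def dif (i1 : ℕ) (f f' : ℕ → ℂ) : ℕ → ℂ := fun k => f (i1 + k) - f' (i1 + k)

/-- `NN n i1 f f' s = ∑_{i1 ≤ i ≤ n} (f i - f' i) e^{-s (i - i1)}`. -/
noncomputable def NN (n i1 : ℕ) (f f' : ℕ → ℂ) (s : ℂ) : ℂ :=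
  expSum (n + 1 - i1) (dif i1 f f') s

/-- The window `e^{-x²/(2θ²) - κ x}` times the frequency `e^{i ξ x}`. -/
noncomputable def wnd (θ κ ξ x : ℝ) : ℂ :=
  cexp (-(x : ℂ) ^ 2 / (2 * (θ : ℂ) ^ 2) - κ * x + I * ξ * x)

/-- Windowed sums `V = ∑_{i ≤ n} f(i) e^{-x²/2θ² - κ x + i ξ x}`, `x = i - i1`. -/
noncomputable def VV (n i1 : ℕ) (θ κ : ℝ) (f : ℕ → ℂ) (ξ : ℝ) : ℂ :=
  ∑ i ∈ range (n + 1), f i * wnd θ κ ξ ((i : ℝ) - i1)

/-- Pairs of sequences of type (f, f1): the sequence itself or `S_z` of it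
with `z = e^{-(κ + i y)}`, `|y| ≤ Y`. -/
def Derived (κ Y : ℝ) (f f' F F' : ℕ → ℂ) : Prop :=
  (F = f ∧ F' = f') ∨
    ∃ y : ℝ, |y| ≤ Y ∧ F = seqS (cexp (-((κ : ℂ) + y * I))) f ∧
      F' = seqS (cexp (-((κ : ℂ) + y * I))) f'

end Vale.Agent.P321.UB
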