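import Vale.Agent.P321.UB.Basic

/-! # Block U5: chain lemma and phases -/

namespace Vale.Agent.P321.UB

open Complex Finset

/-- Pigeonhole: if there are fewer than `L/100` bad indices, `101 ≤ L`, one can find `y < L/4` with
four prescribed injective images good. -/
theorem exists_good {bad : Finset ℕ} {L : ℕ} (hL : 101 ≤ L)
    (hbad : 100 * bad.card < L) (s : Finset (ℕ → ℕ)) (hs : s.card ≤ 4)
    (hinj : ∀ g ∈ s, Function.Injective g) :
    ∃ y < L / 4, ∀ g ∈ s, g y ∉ bad := by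
  classical
  by_contra hcon
  push Not at hcon
  have hcover : range (L / 4) ⊆ s.biUnion fun g => (range (L / 4)).filter fun y => g y ∈ bad := by
    intro y hy
    rw [mem_range] at hy
    obtain ⟨g, hg, hgy⟩ := hcon y hy
    rw [mem_biUnion]
    exact ⟨g, hg, by simp [hy, hgy]⟩
  have h1 : L / 4 ≤ ∑ g ∈ s, ((range (L / 4)).filter fun y => g y ∈ bad).card := by
    calc L / 4 = (range (L / 4)).card := by simp
      _ ≤ _ := card_le_card hcover
      _ ≤ _ := card_biUnion_le
  have h2 : ∀ g ∈ s, ((range (L / 4)).filter fun y => g y ∈ bad).card ≤ bad.card := by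
    intro g hg
    rw [← card_image_of_injective _ (hinj g hg)]
    apply card_le_card
    intro z hz
    simp only [mem_image, mem_filter] at hz
    obtain ⟨y, ⟨_, hgy⟩, rfl⟩ := hz
    exact hgy
  have h3 : L / 4 ≤ s.card * bad.card := by
    refine h1.trans ((sum_le_sum h2).trans ?_)
    simp
  have h4 : s.card * bad.card ≤ 4 * bad.card := Nat.mul_le_mul_right _ hs
  omega

/-- Chain lemma: approximately additive characters on most of `[0,L)` with adjacent values close. -/
theorem chain {L : ℕ} {bad : Finset ℕ} (hbad : 100 * bad.card < L) {u : ℕ → ℂ} {e : ℝ}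
    (he : 0 ≤ e)
    (hu : ∀ a < L, a ∉ bad → ‖u a‖ = 1)
    (hadj : ∀ a, a + 1 < L → a ∉ bad → a + 1 ∉ bad → ‖u (a + 1) - u a‖ ≤ e)
    (hmul : ∀ a b, a + b < L → a ∉ bad → b ∉ bad → a + b ∉ bad → ‖u a * u b - u (a + b)‖ ≤ e) :
    ∃ a < L, a ∉ bad ∧ ‖u a - 1‖ ≤ 4 * L * e := by
  classical
  have hL1 : (1 : ℝ) ≤ L := by
    have : 1 ≤ L := by omega
    exact_mod_cast this
  rcases Nat.lt_or_ge L 101 with hL | hL
  · -- no bad index at all
    have hb : bad = ∅ := by
      rw [← card_eq_zero]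
      omega
    subst hb
    have hg : (0 : ℕ) ∉ (∅ : Finset ℕ) := by simp
    refine ⟨0, by omega, hg, ?_⟩
    have h := hmul 0 0 (by omega) hg hg hg
    have n1 : ‖u 0‖ = 1 := hu 0 (by omega) hg
    have hid : (u 0 - 1) * u 0 = u 0 * u 0 - u (0 + 0) := by rw [add_zero]; ring
    have hn : ‖u 0 - 1‖ = ‖(u 0 - 1) * u 0‖ := by rw [norm_mul, n1, mul_one]
    rw [hn, hid]
    refine h.trans ?_
    nlinarith
  -- the main induction
  have key : ∀ k, k < L / 4 → ∀ y, y + k < L / 2 → y ∉ bad → y + k ∉ bad →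
      ‖u (y + k) - u y‖ ≤ 4 * k * e := by
    intro k
    induction k with
    | zero =>
      intro _ y _ _ _
      simp
    | succ k ih =>
      intro hk y hy hgy hgyk
      obtain ⟨z, hz, hg⟩ := exists_good hL hbad
        {fun z => z, fun z => z + k, fun z => z + (k + 1), fun z => y + (k + 1) + z}
        (card_le_four) (by
          intro g hg
          simp only [mem_insert, mem_singleton] at hg
          rcases hg with rfl | rfl | rfl | rfl <;> intro a b h <;> simp only at h <;> omega)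
      have hg1 := hg (fun z => z) (by simp)
      have hg2 := hg (fun z => z + k) (by simp)
      have hg3 := hg (fun z => z + (k + 1)) (by simp)
      have hg4 := hg (fun z => y + (k + 1) + z) (by simp)
      have e1 : ‖u (y + (k + 1)) * u z - u (y + (k + 1) + z)‖ ≤ e :=
        hmul _ _ (by omega) hgyk hg1 hg4
      have e2 : ‖u y * u (z + (k + 1)) - u (y + (k + 1) + z)‖ ≤ e := by
        have h' : y + (z + (k + 1)) = y + (k + 1) + z := by omega
        have := hmul y (z + (k + 1)) (by omega) hgy hg3 (by rw [h']; exact hg4)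
        rwa [h'] at this
      have e3 : ‖u (z + (k + 1)) - u (z + k)‖ ≤ e := hadj (z + k) (by omega) hg2 hg3
      have e4 : ‖u (z + k) - u z‖ ≤ 4 * k * e := ih (by omega) z (by omega) hg1 hg2
      have n1 : ‖u y‖ = 1 := hu y (by omega) hgy
      have n2 : ‖u z‖ = 1 := hu z (by omega) hg1
      have hid : (u (y + (k + 1)) - u y) * u z =
          (u (y + (k + 1)) * u z - u (y + (k + 1) + z))
            - (u y * u (z + (k + 1)) - u (y + (k + 1) + z))
            + u y * (u (z + (k + 1)) - u (z + k)) + u y * (u (z + k) - u z) := by ring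
      have hn : ‖u (y + (k + 1)) - u y‖ = ‖(u (y + (k + 1)) - u y) * u z‖ := by
        rw [norm_mul, n2, mul_one]
      rw [hn, hid]
      have t1 := norm_add_le ((u (y + (k + 1)) * u z - u (y + (k + 1) + z))
            - (u y * u (z + (k + 1)) - u (y + (k + 1) + z))
            + u y * (u (z + (k + 1)) - u (z + k))) (u y * (u (z + k) - u z))
      have t2 := norm_add_le ((u (y + (k + 1)) * u z - u (y + (k + 1) + z))
            - (u y * u (z + (k + 1)) - u (y + (k + 1) + z)))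
            (u y * (u (z + (k + 1)) - u (z + k)))
      have t3 := norm_sub_le (u (y + (k + 1)) * u z - u (y + (k + 1) + z))
            (u y * u (z + (k + 1)) - u (y + (k + 1) + z))
      rw [norm_mul (u y), n1, one_mul] at t1 t2
      push_cast
      nlinarith
  -- a good `a < L/4` with `2 a` good
  obtain ⟨a, ha, hg⟩ := exists_good hL hbad {fun y => y, fun y => y + y}
    (card_le_two.trans (by norm_num)) (by
      intro g hg
      simp only [mem_insert, mem_singleton] at hg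
      rcases hg with rfl | rfl
      · exact fun a b h => h
      · intro a b h
        simp only at h
        omega)
  have hga := hg (fun y => y) (by simp)
  have hgb := hg (fun y => y + y) (by simp)
  refine ⟨a, by omega, hga, ?_⟩
  have e1 := hmul a a (by omega) hga hga hgb
  have e2 := key a ha a (by omega) hga hgb
  have n1 : ‖u a‖ = 1 := hu a (by omega) hga
  have hid : (u a - 1) * u a = (u a * u a - u (a + a)) + (u (a + a) - u a) := by ring
  have hn : ‖u a - 1‖ = ‖(u a - 1) * u a‖ := by rw [norm_mul, n1, mul_one]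
  rw [hn, hid]
  refine (norm_add_le _ _).trans ((add_le_add e1 e2).trans ?_)
  have h4 : (4 * a : ℝ) ≤ L := by
    have : 4 * a ≤ L := by omega
    exact_mod_cast this
  nlinarith [mul_le_mul_of_nonneg_right h4 he]

/-- The phase of a nonzero number depends on it in a Lipschitz way. -/
theorem norm_phase_sub_le {z w : ℂ} (hz : z ≠ 0) (hw : w ≠ 0) :
    ‖z / ‖z‖ - w / ‖w‖‖ ≤ 2 * ‖z - w‖ / ‖z‖ := by
  have hz' : (0 : ℝ) < ‖z‖ := norm_pos_iff.2 hz
  have hw' : (0 : ℝ) < ‖w‖ := norm_pos_iff.2 hw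
  have hzc : ((‖z‖ : ℝ) : ℂ) ≠ 0 := by exact_mod_cast hz'.ne'
  have hwc : ((‖w‖ : ℝ) : ℂ) ≠ 0 := by exact_mod_cast hw'.ne'
  have hid : z / ‖z‖ - w / ‖w‖ = ((z - w) + (w / ‖w‖) * ((‖w‖ : ℂ) - ‖z‖)) / ‖z‖ := by
    field_simp
    ring
  rw [hid, norm_div, Complex.norm_real, norm_norm]
  gcongr
  refine (norm_add_le _ _).trans ?_
  have h1 : ‖w / (‖w‖ : ℂ)‖ = 1 := by
    rw [norm_div, Complex.norm_real, norm_norm, div_self hw'.ne']
  have h2 : ‖(‖w‖ : ℂ) - ‖z‖‖ ≤ ‖z - w‖ := by
    rw [← Complex.ofReal_sub, Complex.norm_real, Real.norm_eq_abs]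
    rw [norm_sub_rev]
    exact abs_norm_sub_norm_le w z
  rw [norm_mul, h1, one_mul]
  linarith

/-- Two families of amplitudes whose products of two (`V a * conj (V b)`, `|a - b| ≤ 1`) and three
(`V a * V b * conj (V (a + b))`) agree up to `D` cannot differ by `m` on `99%` of `[0, L)`. -/
theorem no_phase {L : ℕ} {bad : Finset ℕ} (hbad : 100 * bad.card < L)
    (V V' : ℕ → ℂ) {m D S : ℝ} (hm : 0 < m) (hm1 : m ≤ 1)
    (hD : 0 ≤ D) (hS : ∀ a < L, a ∉ bad → ‖V a‖ ≤ S)
    (h0 : ∀ a < L, a ∉ bad → m ≤ ‖V a - V' a‖)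
    (hsq : ∀ a < L, a ∉ bad → ‖V a * starRingEnd ℂ (V a) - V' a * starRingEnd ℂ (V' a)‖ ≤ D)
    (h1 : ∀ a, a + 1 < L → a ∉ bad → a + 1 ∉ bad →
      ‖V (a + 1) * starRingEnd ℂ (V a) - V' (a + 1) * starRingEnd ℂ (V' a)‖ ≤ D)
    (h2 : ∀ a b, a + b < L → a ∉ bad → b ∉ bad → a + b ∉ bad →
      ‖V a * V b * starRingEnd ℂ (V (a + b)) - V' a * V' b * starRingEnd ℂ (V' (a + b))‖ ≤ D)
    (hsmall : 600 * D * (1 + L * S) < m ^ 4) : False := by
  classical
  have hS0 : 0 ≤ S := by
    have hne : (range L \ bad).Nonempty := by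
      rw [← card_pos]
      have := le_card_sdiff bad (range L)
      rw [card_range] at this
      omega
    obtain ⟨a, ha⟩ := hne
    rw [mem_sdiff, mem_range] at ha
    exact (norm_nonneg _).trans (hS a ha.1 ha.2)
  have hL0 : (0 : ℝ) ≤ L := Nat.cast_nonneg _
  have hLS : 0 ≤ (L : ℝ) * S := by positivity
  have hD200 : 200 * D < m ^ 4 := by nlinarith [mul_nonneg hD hLS]
  have hm4 : m ^ 4 ≤ m ^ 2 := by
    have : m ^ 2 ≤ 1 := by nlinarith
    nlinarith [sq_nonneg m]
  have hm3 : 0 < m ^ 3 := by positivity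
  have hm2 : 0 < m ^ 2 := by positivity
  -- difference of squares
  have hsq' : ∀ a < L, a ∉ bad → |‖V a‖ ^ 2 - ‖V' a‖ ^ 2| ≤ D := by
    intro a ha hg
    have := hsq a ha hg
    rw [Complex.mul_conj, Complex.mul_conj, ← Complex.ofReal_sub, Complex.norm_real,
      Complex.normSq_eq_norm_sq, Complex.normSq_eq_norm_sq, Real.norm_eq_abs] at this
    exact this
  -- lower bounds
  have hlow : ∀ a < L, a ∉ bad → m / 4 ≤ ‖V a‖ ∧ m / 4 ≤ ‖V' a‖ := by
    intro a ha hg
    have e1 := h0 a ha hg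
    have e2 := abs_le.1 (hsq' a ha hg)
    have e3 := norm_sub_le (V a) (V' a)
    have n1 := norm_nonneg (V a)
    have n2 := norm_nonneg (V' a)
    constructor
    · by_contra hc
      push Not at hc
      have : 3 * m / 4 ≤ ‖V' a‖ := by linarith
      nlinarith [e2.1, e2.2]
    · by_contra hc
      push Not at hc
      have : 3 * m / 4 ≤ ‖V a‖ := by linarith
      nlinarith [e2.1, e2.2]
  have hne : ∀ a < L, a ∉ bad → V a ≠ 0 ∧ V' a ≠ 0 := by
    intro a ha hg
    obtain ⟨e1, e2⟩ := hlow a ha hg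
    exact ⟨norm_pos_iff.1 (by linarith), norm_pos_iff.1 (by linarith)⟩
  -- the phases
  set ph : ℂ → ℂ := fun z => z / ‖z‖ with hph
  have ph_norm : ∀ z : ℂ, z ≠ 0 → ‖ph z‖ = 1 := by
    intro z hz
    simp only [hph]
    rw [norm_div, Complex.norm_real, norm_norm, div_self (norm_ne_zero_iff.2 hz)]
  have ph_mul : ∀ z w : ℂ, ph (z * w) = ph z * ph w := by
    intro z w
    simp only [hph, norm_mul, Complex.ofReal_mul]
    rw [mul_div_mul_comm]
  have ph_conj : ∀ z : ℂ, ph (starRingEnd ℂ z) = starRingEnd ℂ (ph z) := by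
    intro z
    simp only [hph, map_div₀, Complex.conj_ofReal, RCLike.norm_conj]
  have unit_conj : ∀ z : ℂ, ‖z‖ = 1 → z * starRingEnd ℂ z = 1 := by
    intro z hz
    rw [Complex.mul_conj, Complex.normSq_eq_norm_sq, hz]
    simp
  set u : ℕ → ℂ := fun a => ph (V' a) * starRingEnd ℂ (ph (V a)) with hu
  have u_norm : ∀ a < L, a ∉ bad → ‖u a‖ = 1 := by
    intro a ha hg
    obtain ⟨e1, e2⟩ := hne a ha hg
    simp only [hu, norm_mul, RCLike.norm_conj, ph_norm _ e1, ph_norm _ e2, mul_one]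
  set δ : ℝ := 128 * D / m ^ 3 with hδ
  have hδ0 : 0 ≤ δ := by positivity
  -- continuity of the phases
  have c1 : ∀ a, a + 1 < L → a ∉ bad → a + 1 ∉ bad → ‖u (a + 1) - u a‖ ≤ δ := by
    intro a ha hg hg'
    obtain ⟨e1, e2⟩ := hne a (by omega) hg
    obtain ⟨e3, e4⟩ := hne (a + 1) ha hg'
    obtain ⟨l1, l2⟩ := hlow a (by omega) hg
    obtain ⟨l3, l4⟩ := hlow (a + 1) ha hg'
    have k1 := norm_phase_sub_le (z := V (a + 1) * starRingEnd ℂ (V a))
      (w := V' (a + 1) * starRingEnd ℂ (V' a))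
      (mul_ne_zero e3 ((map_ne_zero _).2 e1)) (mul_ne_zero e4 ((map_ne_zero _).2 e2))
    have k2 : ‖ph (V (a + 1)) * starRingEnd ℂ (ph (V a)) -
        ph (V' (a + 1)) * starRingEnd ℂ (ph (V' a))‖ ≤ 2 * D / (m / 4 * (m / 4)) := by
      have : ph (V (a + 1)) * starRingEnd ℂ (ph (V a)) -
        ph (V' (a + 1)) * starRingEnd ℂ (ph (V' a)) =
          ph (V (a + 1) * starRingEnd ℂ (V a)) - ph (V' (a + 1) * starRingEnd ℂ (V' a)) := by
        rw [ph_mul, ph_mul, ph_conj, ph_conj]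
      rw [this]
      refine k1.trans ?_
      rw [norm_mul, RCLike.norm_conj]
      gcongr
      exact h1 a ha hg hg'
    have k3 : u (a + 1) - u a = -(starRingEnd ℂ (ph (V (a + 1))) * ph (V' a)) *
        (ph (V (a + 1)) * starRingEnd ℂ (ph (V a)) -
          ph (V' (a + 1)) * starRingEnd ℂ (ph (V' a))) := by
      have j1 := unit_conj _ (ph_norm _ e3)
      have j2 := unit_conj _ (ph_norm _ e2)
      simp only [hu]
      linear_combination (ph (V' a) * starRingEnd ℂ (ph (V a))) * j1 -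
        (ph (V' (a + 1)) * starRingEnd ℂ (ph (V (a + 1)))) * j2
    rw [k3, norm_mul, norm_neg, norm_mul, RCLike.norm_conj, ph_norm _ e3, ph_norm _ e2, mul_one,
      one_mul]
    refine k2.trans ?_
    rw [hδ, div_le_div_iff₀ (by positivity) (by positivity)]
    nlinarith [mul_nonneg hD hm2.le, mul_nonneg hD hm3.le,
      mul_nonneg (mul_nonneg hD hm2.le) (sub_nonneg.2 hm1)]
  -- additivity of the phases
  have c2 : ∀ a b, a + b < L → a ∉ bad → b ∉ bad → a + b ∉ bad →
      ‖u a * u b - u (a + b)‖ ≤ δ := by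
    intro a b hab hga hgb hgab
    obtain ⟨e1, e2⟩ := hne a (by omega) hga
    obtain ⟨e3, e4⟩ := hne b (by omega) hgb
    obtain ⟨e5, e6⟩ := hne (a + b) hab hgab
    obtain ⟨l1, l2⟩ := hlow a (by omega) hga
    obtain ⟨l3, l4⟩ := hlow b (by omega) hgb
    obtain ⟨l5, l6⟩ := hlow (a + b) hab hgab
    have k1 := norm_phase_sub_le (z := V a * V b * starRingEnd ℂ (V (a + b)))
      (w := V' a * V' b * starRingEnd ℂ (V' (a + b)))
      (mul_ne_zero (mul_ne_zero e1 e3) ((map_ne_zero _).2 e5))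
      (mul_ne_zero (mul_ne_zero e2 e4) ((map_ne_zero _).2 e6))
    have k2 : ‖ph (V a) * ph (V b) * starRingEnd ℂ (ph (V (a + b))) -
        ph (V' a) * ph (V' b) * starRingEnd ℂ (ph (V' (a + b)))‖ ≤
          2 * D / (m / 4 * (m / 4) * (m / 4)) := by
      have : ph (V a) * ph (V b) * starRingEnd ℂ (ph (V (a + b))) -
        ph (V' a) * ph (V' b) * starRingEnd ℂ (ph (V' (a + b))) =
          ph (V a * V b * starRingEnd ℂ (V (a + b))) -
            ph (V' a * V' b * starRingEnd ℂ (V' (a + b))) := by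
        rw [ph_mul, ph_mul, ph_conj, ph_mul, ph_mul, ph_conj]
      rw [this]
      refine k1.trans ?_
      rw [norm_mul, norm_mul, RCLike.norm_conj]
      gcongr
      exact h2 a b hab hga hgb hgab
    have j1 := unit_conj _ (ph_norm _ e1)
    have j3 := unit_conj _ (ph_norm _ e3)
    have j5 := unit_conj _ (ph_norm _ e5)
    have j6 := unit_conj _ (ph_norm _ e6)
    have k3 : u a * u b - u (a + b) =
        -(starRingEnd ℂ (ph (V a)) * starRingEnd ℂ (ph (V b)) * ph (V' (a + b))) *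
        (ph (V a) * ph (V b) * starRingEnd ℂ (ph (V (a + b))) -
          ph (V' a) * ph (V' b) * starRingEnd ℂ (ph (V' (a + b)))) := by
      simp only [hu]
      linear_combination (ph (V' (a + b)) * starRingEnd ℂ (ph (V (a + b)))) * j1 +
        (ph (V' (a + b)) * starRingEnd ℂ (ph (V (a + b))) * (ph (V a) * starRingEnd ℂ (ph (V a)))) * j3
        - (ph (V' a) * starRingEnd ℂ (ph (V a)) * (ph (V' b) * starRingEnd ℂ (ph (V b)))) * j6
    rw [k3, norm_mul, norm_neg, norm_mul, norm_mul, RCLike.norm_conj, RCLike.norm_conj,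
      ph_norm _ e1, ph_norm _ e3, ph_norm _ e6, mul_one, mul_one, one_mul]
    refine k2.trans (le_of_eq ?_)
    rw [hδ]
    field_simp
    ring
  obtain ⟨a, ha, hga, hclose⟩ := chain hbad hδ0 u_norm c1 c2
  obtain ⟨e1, e2⟩ := hne a ha hga
  obtain ⟨l1, l2⟩ := hlow a ha hga
  have j1 := unit_conj _ (ph_norm _ e1)
  have f1 : ph (V a) * ‖V a‖ = V a := by
    simp only [hph]
    rw [div_mul_cancel₀]
    exact_mod_cast (norm_ne_zero_iff.2 e1)
  have f2 : ph (V' a) * ‖V' a‖ = V' a := by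
    simp only [hph]
    rw [div_mul_cancel₀]
    exact_mod_cast (norm_ne_zero_iff.2 e2)
  have f3 : V a - V' a = -(ph (V a) * (u a - 1)) * ‖V a‖ + ph (V' a) * ((‖V a‖ : ℂ) - ‖V' a‖) := by
    calc V a - V' a = ph (V a) * ‖V a‖ - ph (V' a) * ‖V' a‖ := by rw [f1, f2]
      _ = _ := by
        simp only [hu]
        linear_combination (ph (V' a) * (‖V a‖ : ℂ)) * j1
  have f4 : |‖V a‖ - ‖V' a‖| ≤ 2 * D / m := by
    have e := hsq' a (by omega) hga
    have : ‖V a‖ ^ 2 - ‖V' a‖ ^ 2 = (‖V a‖ - ‖V' a‖) * (‖V a‖ + ‖V' a‖) := by ring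
    rw [this, abs_mul, abs_of_nonneg (by positivity : (0 : ℝ) ≤ ‖V a‖ + ‖V' a‖)] at e
    rw [le_div_iff₀ hm]
    have hsum : m / 2 ≤ ‖V a‖ + ‖V' a‖ := by linarith
    nlinarith [abs_nonneg (‖V a‖ - ‖V' a‖)]
  have f5 : ‖V a - V' a‖ ≤ (4 * L * δ) * S + 2 * D / m := by
    rw [f3]
    refine (norm_add_le _ _).trans ?_
    rw [norm_mul, norm_neg, norm_mul, ph_norm _ e1, one_mul, norm_mul, ph_norm _ e2, one_mul,
      ← Complex.ofReal_sub, Complex.norm_real, Complex.norm_real, norm_norm, Real.norm_eq_abs]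
    have : ‖u a - 1‖ * ‖V a‖ ≤ (4 * L * δ) * S := by
      apply mul_le_mul hclose (hS a ha hga) (norm_nonneg _) (by positivity)
    linarith
  have f6 := h0 a (by omega) hga
  have f7 : (4 * L * δ) * S + 2 * D / m < m := by
    have e : (4 * L * δ) * S + 2 * D / m = (512 * D * (L * S) + 2 * D * m ^ 2) / m ^ 3 := by
      rw [hδ]
      field_simp
      ring
    rw [e, div_lt_iff₀ hm3]
    have : 2 * D * m ^ 2 ≤ 2 * D := by nlinarith
    nlinarith [mul_nonneg hD hLS]
  linarith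

/-- Phases: contradiction from the product relations. `V a`, `V' a` for good `a`. -/
theorem phase_contradiction {L : ℕ} {bad : Finset ℕ} (hbad : 100 * bad.card < L) {V V' : ℕ → ℂ}
    {c Δ : ℝ} (hc : 10 ≤ c) (hΔ0 : 0 ≤ Δ) (hΔ : Δ ≤ Real.exp (-10 * c)) (hLc : (L : ℝ) ≤ Real.exp c)
    (hV : ∀ a < L, a ∉ bad → ‖V a‖ ≤ Real.exp c)
    (hD : ∀ a < L, a ∉ bad → Real.exp (-c) ≤ ‖V a - V' a‖)
    (h2 : ∀ a b, a < L → b < L → a ∉ bad → b ∉ bad → (b = a ∨ b = a + 1) →
      ‖V b * (starRingEnd ℂ) (V a) - V' b * (starRingEnd ℂ) (V' a)‖ ≤ Δ)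
    (h3 : ∀ a b, a + b < L → a ∉ bad → b ∉ bad → a + b ∉ bad →
      ‖V a * V b * (starRingEnd ℂ) (V (a + b)) -
        V' a * V' b * (starRingEnd ℂ) (V' (a + b))‖ ≤ Δ) : False := by
  refine no_phase hbad V V' (m := Real.exp (-c)) (D := Δ) (S := Real.exp c) (Real.exp_pos _)
    (Real.exp_le_one_iff.2 (by linarith)) hΔ0 hV hD
    (fun a ha hg => h2 a a ha ha hg hg (Or.inl rfl))
    (fun a ha hg hg' => h2 a (a + 1) (by omega) ha hg hg' (Or.inr rfl)) h3 ?_
  have e1 : Real.exp (-c) ^ 4 = Real.exp (-4 * c) := by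
    rw [← Real.exp_nat_mul]
    congr 1
    push_cast
    ring
  have e2 : 1 + (L : ℝ) * Real.exp c ≤ 2 * Real.exp (2 * c) := by
    have h1 : (L : ℝ) * Real.exp c ≤ Real.exp c * Real.exp c :=
      mul_le_mul_of_nonneg_right hLc (Real.exp_pos _).le
    have h2 : Real.exp c * Real.exp c = Real.exp (2 * c) := by
      rw [← Real.exp_add]
      ring_nf
    have h3 : (1 : ℝ) ≤ Real.exp (2 * c) := Real.one_le_exp (by linarith)
    linarith
  have e3 : (1200 : ℝ) < Real.exp (4 * c) := by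
    have h1 : (11 : ℝ) ≤ Real.exp c := by
      have := Real.add_one_le_exp c
      linarith
    have h2 : Real.exp (4 * c) = Real.exp c ^ 4 := by
      rw [← Real.exp_nat_mul]
      norm_num
    rw [h2]
    calc (1200 : ℝ) < 11 ^ 4 := by norm_num
      _ ≤ Real.exp c ^ 4 := by gcongr
  have e4 : Real.exp (-10 * c) * Real.exp (2 * c) * Real.exp (4 * c) = Real.exp (-4 * c) := by
    rw [← Real.exp_add, ← Real.exp_add]
    congr 1
    ring
  have e5 : 0 < Real.exp (-10 * c) * Real.exp (2 * c) := by positivity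
  rw [e1, ← e4]
  calc 600 * Δ * (1 + (L : ℝ) * Real.exp c)
      ≤ 600 * Real.exp (-10 * c) * (2 * Real.exp (2 * c)) := by gcongr
    _ = (Real.exp (-10 * c) * Real.exp (2 * c)) * 1200 := by ring
    _ < _ := mul_lt_mul_of_pos_left e3 e5

end Vale.Agent.P321.UB
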