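import Vale.Agent.P321.UB.Tests

/-! # Block Dict: from strings to sequences -/

namespace Vale.Agent.P321.UB

open Complex Finset

/-- The sequence of values of `τ` along the suffixes of `x`: `sq x τ i = τ (suffix of length i)`. -/
noncomputable def sq (x : List Bool) (τ : List Bool → ℂ) : ℕ → ℂ :=
  fun i => τ (x.drop (x.length - i))

/-- `NN` only depends on the values at indices `i1 ≤ i ≤ n`. -/
theorem NN_congr {n i1 : ℕ} {f f' g g' : ℕ → ℂ} (h : ∀ i ≤ n, f i = g i)
    (h' : ∀ i ≤ n, f' i = g' i) (s : ℂ) : NN n i1 f f' s = NN n i1 g g' s := by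
  unfold NN expSum
  refine Finset.sum_congr rfl fun k hk => ?_
  have hk' : k < n + 1 - i1 := Finset.mem_range.1 hk
  have hle : i1 + k ≤ n := by omega
  simp only [dif]
  rw [h _ hle, h' _ hle]

theorem seqS_congr_le {n : ℕ} {z : ℂ} {f g : ℕ → ℂ} (h : ∀ i ≤ n, f i = g i) :
    ∀ i ≤ n + 1, seqS z f i = seqS z g i := by
  intro i
  induction i with
  | zero => intro _; rfl
  | succ i ih =>
    intro hi
    simp only [seqS]
    rw [ih (by omega), h i (by omega)]

theorem sq_cons {b : Bool} {y : List Bool} (τ : List Bool → ℂ) {i : ℕ} (hi : i ≤ y.length) :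
    sq (b :: y) τ i = sq y τ i := by
  unfold sq
  have e : (b :: y).length - i = (y.length - i) + 1 := by
    rw [List.length_cons]; omega
  rw [e, List.drop_succ_cons]

theorem sq_length (x : List Bool) (τ : List Bool → ℂ) : sq x τ x.length = τ x := by
  simp [sq]

theorem sq_zero (x : List Bool) (τ : List Bool → ℂ) : sq x τ 0 = τ [] := by
  simp [sq]

theorem sq_Sz (x : List Bool) (z : ℂ) (τ : List Bool → ℂ) :
    ∀ i ≤ x.length, sq x (Sz z τ) i = seqS z (sq x τ) i := by
  induction x with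
  | nil =>
    intro i hi
    have : i = 0 := by simpa using hi
    subst this
    rw [sq_zero]
    rfl
  | cons b y ih =>
    intro i hi
    rw [List.length_cons] at hi
    rcases Nat.lt_or_ge y.length i with h | h
    · have hi' : i = y.length + 1 := by omega
      subst hi'
      have e1 : sq (b :: y) (Sz z τ) (y.length + 1) = Sz z τ (b :: y) :=
        sq_length (b :: y) (Sz z τ)
      rw [e1]
      simp only [seqS]
      have e2 : seqS z (sq (b :: y) τ) y.length = seqS z (sq y τ) y.length := by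
        cases hl : y.length with
        | zero => rfl
        | succ m =>
          refine seqS_congr_le (n := m) (fun j hj => sq_cons τ (by omega)) (m + 1) le_rfl
      rw [e2, ← ih y.length le_rfl, sq_length, sq_cons τ le_rfl, sq_length]
      rfl
    · rw [sq_cons (Sz z τ) h, ih i h]
      cases i with
      | zero => rfl
      | succ m =>
        exact seqS_congr_le (n := m) (fun j hj => (sq_cons τ (by omega)).symm) (m + 1) le_rfl

/-- The first difference (seen from the right) of two different strings of the same length. -/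
theorem exists_first_diff {x x' : List Bool} (hl : x.length = x'.length) (hne : x ≠ x') :
    ∃ i1, 1 ≤ i1 ∧ i1 ≤ x.length ∧ (∀ τ, ∀ i < i1, sq x τ i = sq x' τ i) ∧
      ∀ r : ℝ, 0 ≤ r → ‖sq x (tau0 r) i1 - sq x' (tau0 r) i1‖ = r := by
  induction x generalizing x' with
  | nil =>
    exact absurd (List.length_eq_zero_iff.1 hl.symm).symm hne
  | cons b y ih =>
    cases x' with
    | nil => simp at hl
    | cons b' y' =>
      have hl' : y.length = y'.length := by simpa using hl
      by_cases hy : y = y'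
      · subst hy
        have hb : b ≠ b' := fun h => hne (by rw [h])
        refine ⟨y.length + 1, by omega, by simp, ?_, ?_⟩
        · intro τ i hi
          rw [sq_cons τ (by omega), sq_cons τ (by omega)]
        · intro r hr
          have e1 : sq (b :: y) (tau0 r) (y.length + 1) = tau0 r (b :: y) :=
            sq_length (b :: y) (tau0 r)
          have e2 : sq (b' :: y) (tau0 r) (y.length + 1) = tau0 r (b' :: y) :=
            sq_length (b' :: y) (tau0 r)
          rw [e1, e2]
          simp only [tau0]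
          have hn : ‖(r : ℂ)‖ = r := by rw [Complex.norm_real, Real.norm_of_nonneg hr]
          cases b <;> cases b'
          · exact absurd rfl hb
          · simp [hr]
          · simp [hr]
          · exact absurd rfl hb
      · obtain ⟨i1, h1, h2, h3, h4⟩ := ih hl' hy
        refine ⟨i1, h1, by simp; omega, ?_, ?_⟩
        · intro τ i hi
          rw [sq_cons τ (by omega), sq_cons τ (by omega)]
          exact h3 τ i hi
        · intro r hr
          rw [sq_cons _ (by omega), sq_cons _ (by omega)]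
          exact h4 r hr

theorem norm_tau0_le {r : ℝ} (hr : 0 ≤ r) (hr1 : r ≤ 1) (y : List Bool) :
    0 ≤ (tau0 r y).re ∧ (tau0 r y).re ≤ 1 ∧ (tau0 r y).im = 0 := by
  induction y with
  | nil => simp [tau0]
  | cons b y ih =>
    obtain ⟨h1, h2, h3⟩ := ih
    have hq : 0 ≤ 1 - r := by linarith
    have e1 : (tau0 r (b :: y)).re = (1 - r) * (tau0 r y).re + r * (if b then 1 else 0) := by
      cases b <;> simp [tau0, h3]
    have e2 : (tau0 r (b :: y)).im = 0 := by
      cases b <;> simp [tau0, h3]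
    rw [e1]
    refine ⟨?_, ?_, e2⟩
    · have : (0 : ℝ) ≤ (if b then 1 else 0) := by split_ifs <;> norm_num
      positivity
    · have h5 : (if b then (1 : ℝ) else 0) ≤ 1 := by split_ifs <;> norm_num
      nlinarith [mul_le_mul_of_nonneg_left h2 hq, mul_le_mul_of_nonneg_left h5 hr]

theorem norm_tau0_sub_le {r : ℝ} (hr : 0 ≤ r) (hr1 : r ≤ 1) (y y' : List Bool) :
    ‖tau0 r y - tau0 r y'‖ ≤ 1 := by
  obtain ⟨a1, a2, a3⟩ := norm_tau0_le hr hr1 y
  obtain ⟨b1, b2, b3⟩ := norm_tau0_le hr hr1 y'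
  have e : tau0 r y - tau0 r y' = (((tau0 r y).re - (tau0 r y').re : ℝ) : ℂ) := by
    apply Complex.ext
    · simp
    · simp [a3, b3]
  rw [e, Complex.norm_real, Real.norm_eq_abs, abs_le]
  constructor <;> linarith

/-- The condition of A4 for `z = e^{-(κ+iy)}`. -/
theorem disc_condition {κ κ0 r y : ℝ} (hκ : 0 < κ) (hκ1 : κ ≤ 1) (hy : |y| ≤ 2 * κ0)
    (hκκ : κ ≤ κ0) (h : 9 * κ0 ^ 2 ≤ r * κ) (hr : 0 < r) :
    ‖1 - cexp (-((κ : ℂ) + y * I))‖ ^ 2 ≤ 2 * r * (1 - (cexp (-((κ : ℂ) + y * I))).re) := by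
  have hre : (cexp (-((κ : ℂ) + y * I))).re = Real.exp (-κ) * Real.cos y := by
    rw [Complex.exp_re]; simp
  have him : (cexp (-((κ : ℂ) + y * I))).im = -(Real.exp (-κ) * Real.sin y) := by
    rw [Complex.exp_im]; simp
  have hsq : ‖1 - cexp (-((κ : ℂ) + y * I))‖ ^ 2 =
      (1 - Real.exp (-κ)) ^ 2 + 2 * Real.exp (-κ) * (1 - Real.cos y) := by
    rw [← Complex.normSq_eq_norm_sq, Complex.normSq_apply, Complex.sub_re, Complex.sub_im, hre, him]
    simp only [Complex.one_re, Complex.one_im]
    linear_combination (Real.exp (-κ)) ^ 2 * Real.sin_sq_add_cos_sq y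
  have hE0 : 0 < Real.exp (-κ) := Real.exp_pos _
  have hE1 : Real.exp (-κ) ≤ 1 := Real.exp_le_one_iff.2 (by linarith)
  have hE2 : 1 - κ ≤ Real.exp (-κ) := by
    have := Real.add_one_le_exp (-κ); linarith
  have hE3 : Real.exp (-κ) ≤ 1 - κ / 2 := by
    have h1 : κ + 1 ≤ Real.exp κ := Real.add_one_le_exp κ
    have h2 : Real.exp (-κ) * Real.exp κ = 1 := by
      rw [← Real.exp_add]; simp
    have h3 : Real.exp (-κ) * (κ + 1) ≤ 1 := by
      calc Real.exp (-κ) * (κ + 1) ≤ Real.exp (-κ) * Real.exp κ :=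
            mul_le_mul_of_nonneg_left h1 hE0.le
        _ = 1 := h2
    have h4 : (1 : ℝ) ≤ (1 - κ / 2) * (κ + 1) := by nlinarith
    have h5 : 0 < κ + 1 := by linarith
    exact le_of_mul_le_mul_right (h3.trans h4) h5
  have hc : 1 - Real.cos y ≤ y ^ 2 / 2 := by
    have := Real.one_sub_sq_div_two_le_cos (x := y); linarith
  have hc0 : 0 ≤ 1 - Real.cos y := by linarith [Real.cos_le_one y]
  have hy2 : y ^ 2 ≤ 4 * κ0 ^ 2 := by
    have h1 : |y| ^ 2 ≤ (2 * κ0) ^ 2 := by
      exact pow_le_pow_left₀ (abs_nonneg y) hy 2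
    rw [sq_abs] at h1
    nlinarith
  have hκ2 : κ ^ 2 ≤ κ0 ^ 2 := pow_le_pow_left₀ hκ.le hκκ 2
  have hL : ‖1 - cexp (-((κ : ℂ) + y * I))‖ ^ 2 ≤ 5 * κ0 ^ 2 := by
    rw [hsq]
    have h1 : (1 - Real.exp (-κ)) ^ 2 ≤ κ ^ 2 := by
      apply pow_le_pow_left₀ <;> linarith
    have h2 : 2 * Real.exp (-κ) * (1 - Real.cos y) ≤ y ^ 2 := by
      have : Real.exp (-κ) * (1 - Real.cos y) ≤ 1 * (1 - Real.cos y) :=
        mul_le_mul_of_nonneg_right hE1 hc0
      nlinarith
    linarith
  have hR : r * κ ≤ 2 * r * (1 - (cexp (-((κ : ℂ) + y * I))).re) := by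
    rw [hre]
    have h1 : Real.exp (-κ) * Real.cos y ≤ Real.exp (-κ) := by
      nlinarith [Real.cos_le_one y]
    have h2 : κ / 2 ≤ 1 - Real.exp (-κ) * Real.cos y := by linarith
    nlinarith [mul_le_mul_of_nonneg_left h2 (by linarith : 0 ≤ 2 * r)]
  have : 0 ≤ κ0 ^ 2 := sq_nonneg _
  linarith

end Vale.Agent.P321.UB
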