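import Mathlib

/-! # Block U8b: scales, iteration and polylogarithmic bookkeeping -/

namespace Vale.Agent.P321.UB

/-- `u_j = 3 * 3000^(-2^j)`. -/
noncomputable def uu (j : ℕ) : ℝ := 3 * (1 / 3000) ^ (2 ^ j)

theorem uu_pos (j : ℕ) : 0 < uu j := by unfold uu; positivity

theorem uu_succ (j : ℕ) : uu (j + 1) = uu j ^ 2 / 3 := by
  unfold uu
  rw [pow_succ, pow_mul]
  ring

theorem uu_anti {j k : ℕ} (h : j ≤ k) : uu k ≤ uu j := by
  unfold uu
  have h1 : (1 / 3000 : ℝ) ^ (2 ^ k) ≤ (1 / 3000 : ℝ) ^ (2 ^ j) :=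
    pow_le_pow_of_le_one (by norm_num) (by norm_num) (Nat.pow_le_pow_right (by norm_num) h)
  linarith

theorem uu_le (j : ℕ) : uu j ≤ 1 / 1000 := by
  refine (uu_anti (Nat.zero_le j)).trans ?_
  unfold uu
  norm_num

theorem iterate_core (n : ℕ) (p : ℝ) (hp : 0 < p) (hp1 : p ≤ 1) (K : ℕ)
    (P : ℝ → ℝ → ℝ → Prop)
    (hbase : ∀ r l : ℝ, 0 < r → r ≤ 1 → 1 ≤ l → Real.log (n + 1) ≤ l →
      (10 ^ 6 / r) * Real.log (10 ^ 6 / r) ≤ l → P r (r / 9000) l)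
    (hstep : ∀ r κ l : ℝ, 0 < r → 3 * r ≤ 1 → 0 < κ → 9000 * κ ≤ r → 1 ≤ l →
      (n : ℝ) + 1 ≤ Real.exp l → 1 / r ≤ Real.exp l → Real.exp (-l) ≤ 9 * κ ^ 2 / r → P r κ l →
      P (3 * r) (9 * κ ^ 2 / r) (10 ^ 12 * l))
    (l₀ : ℝ) (h1l : 1 ≤ l₀) (hnl : (n : ℝ) + 1 ≤ Real.exp l₀)
    (hbl : (10 ^ 6 / (p / 3 ^ K)) * Real.log (10 ^ 6 / (p / 3 ^ K)) ≤ l₀)
    (hrl : 1 / (p / 3 ^ K) ≤ Real.exp l₀)
    (hkl : Real.exp (-l₀) ≤ p / 3 ^ K * uu K / 9) :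
    ∀ j : ℕ, j ≤ K → P (p / 3 ^ (K - j)) (p / 3 ^ (K - j) * uu j / 9) ((10 ^ 12) ^ j * l₀) := by
  have hr₀pos : 0 < p / 3 ^ K := by positivity
  have h3K : (1 : ℝ) ≤ 3 ^ K := one_le_pow₀ (by norm_num)
  have hr₀le : p / 3 ^ K ≤ p := div_le_self hp.le h3K
  intro j
  induction j with
  | zero =>
    intro _
    have h := hbase (p / 3 ^ K) l₀ hr₀pos (hr₀le.trans hp1) h1l
      ((Real.log_le_iff_le_exp (by positivity)).mpr hnl) hbl
    have hk : p / 3 ^ (K - 0) * uu 0 / 9 = p / 3 ^ K / 9000 := by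
      simp only [Nat.sub_zero, uu, pow_zero, pow_one]
      ring
    rw [hk, Nat.sub_zero, pow_zero, one_mul]
    exact h
  | succ j ih =>
    intro hj
    have hP := ih (by omega)
    obtain ⟨m, hm⟩ : ∃ m, K = j + 1 + m := ⟨K - (j + 1), by omega⟩
    have e1 : K - j = m + 1 := by omega
    have e2 : K - (j + 1) = m := by omega
    rw [e2]
    rw [e1] at hP
    have hrpos : 0 < p / 3 ^ (m + 1) := by positivity
    have h3r : 3 * (p / 3 ^ (m + 1)) = p / 3 ^ m := by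
      rw [pow_succ]; field_simp
    have h3m : (1 : ℝ) ≤ 3 ^ m := one_le_pow₀ (by norm_num)
    have h3rle : 3 * (p / 3 ^ (m + 1)) ≤ 1 := by
      rw [h3r]; exact (div_le_self hp.le h3m).trans hp1
    have hrr : p / 3 ^ K ≤ p / 3 ^ (m + 1) := by
      apply div_le_div_of_nonneg_left hp.le (by positivity)
      exact pow_le_pow_right₀ (by norm_num) (by omega)
    have hur := uu_pos j
    have hul := uu_le j
    have hκ0 : 0 < p / 3 ^ (m + 1) * uu j / 9 := by positivity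
    have hκle : 9000 * (p / 3 ^ (m + 1) * uu j / 9) ≤ p / 3 ^ (m + 1) := by
      have h1 : p / 3 ^ (m + 1) * uu j ≤ p / 3 ^ (m + 1) * (1 / 1000) :=
        mul_le_mul_of_nonneg_left hul hrpos.le
      linarith
    have hk' : 9 * (p / 3 ^ (m + 1) * uu j / 9) ^ 2 / (p / 3 ^ (m + 1)) =
        p / 3 ^ m * uu (j + 1) / 9 := by
      rw [uu_succ, ← h3r]; field_simp
    have hll : l₀ ≤ (10 ^ 12) ^ j * l₀ := by
      have h1 : (1 : ℝ) ≤ (10 ^ 12) ^ j := one_le_pow₀ (by norm_num)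
      exact le_mul_of_one_le_left (by linarith) h1
    have hexp : Real.exp l₀ ≤ Real.exp ((10 ^ 12) ^ j * l₀) := Real.exp_le_exp.mpr hll
    have h := hstep (p / 3 ^ (m + 1)) (p / 3 ^ (m + 1) * uu j / 9) ((10 ^ 12) ^ j * l₀)
      hrpos h3rle hκ0 hκle (h1l.trans hll) (hnl.trans hexp) ?_ ?_ hP
    · rw [hk', h3r] at h
      rw [pow_succ, mul_comm ((10 ^ 12 : ℝ) ^ j), mul_assoc]
      exact h
    · refine le_trans ?_ (hrl.trans hexp)
      exact one_div_le_one_div_of_le hr₀pos hrr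
    · rw [hk']
      have h1 : Real.exp (-((10 ^ 12) ^ j * l₀)) ≤ Real.exp (-l₀) :=
        Real.exp_le_exp.mpr (by linarith)
      refine h1.trans (hkl.trans ?_)
      have h2 : uu K ≤ uu (j + 1) := uu_anti hj
      have h4 : p / 3 ^ K ≤ p / 3 ^ m := by
        rw [← h3r]; linarith
      have h5 : p / 3 ^ K * uu K ≤ p / 3 ^ m * uu (j + 1) :=
        mul_le_mul h4 h2 (uu_pos K).le (by positivity)
      linarith

/-- Abstract iteration. `P r κ l`: there is a test of retention `r` and size `e^l` with a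
non-vanishing value `≥ e^{-l}` at scale `κ`. -/
theorem iterate_step :
    ∃ C : ℝ, 0 < C ∧ ∀ p : ℝ, 0 < p → p ≤ 1 → ∃ n₀ : ℕ, ∀ n : ℕ, n₀ ≤ n →
      ∀ P : ℝ → ℝ → ℝ → Prop,
      (∀ r l : ℝ, 0 < r → r ≤ 1 → 1 ≤ l → Real.log (n + 1) ≤ l → (10 ^ 6 / r) * Real.log (10 ^ 6 / r) ≤ l →
        P r (r / 9000) l) →
      (∀ r κ l : ℝ, 0 < r → 3 * r ≤ 1 → 0 < κ → 9000 * κ ≤ r → 1 ≤ l → (n : ℝ) + 1 ≤ Real.exp l →
        1 / r ≤ Real.exp l → Real.exp (-l) ≤ 9 * κ ^ 2 / r → P r κ l →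
        P (3 * r) (9 * κ ^ 2 / r) (10 ^ 12 * l)) →
      ∃ κ l : ℝ, 0 < κ ∧ κ ≤ p / (100 * n) ∧ 1 ≤ l ∧ (n : ℝ) + 1 ≤ Real.exp l ∧
        1 / p ≤ Real.exp l ∧ l ≤ (Real.log n) ^ C ∧ P p κ l := by
  refine ⟨45, by norm_num, fun p hp hp1 => ?_⟩
  refine ⟨⌈Real.exp (10 ^ 12 * 6 ^ 44 / p ^ 2)⌉₊ + 4, fun n hn P hbase hstep => ?_⟩
  -- the logarithm of `n`
  have hn4 : 4 ≤ n := by omega
  have hnR : (4 : ℝ) ≤ n := by exact_mod_cast hn4
  have hlogn : 10 ^ 12 * 6 ^ 44 / p ^ 2 ≤ Real.log n := by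
    rw [Real.le_log_iff_exp_le (by linarith)]
    refine (Nat.le_ceil _).trans ?_
    exact_mod_cast (by omega : ⌈Real.exp (10 ^ 12 * 6 ^ 44 / p ^ 2)⌉₊ ≤ n)
  have hlogn1 : 1 ≤ Real.log n := by
    refine le_trans ?_ hlogn
    rw [le_div_iff₀ (by positivity)]
    have : p ^ 2 ≤ 1 := pow_le_one₀ hp.le hp1
    norm_num
    linarith
  -- the number of steps
  set ℓ : ℕ := Nat.log 2 n + 1 with hℓ
  set K : ℕ := Nat.clog 2 ℓ with hK
  have hnℓ : n < 2 ^ ℓ := Nat.lt_pow_succ_log_self (by norm_num) n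
  have hℓK : ℓ ≤ 2 ^ K := Nat.le_pow_clog (by norm_num) ℓ
  have hℓ2 : 2 ≤ ℓ := by
    have : 1 ≤ Nat.log 2 n := Nat.log_pos (by norm_num) (by omega)
    omega
  have hKℓ : 2 ^ K < 2 * ℓ := by
    have h1 : 2 ^ (K - 1) < ℓ := by
      rw [hK]
      exact Nat.pow_pred_clog_lt_self (by norm_num) (by omega)
    have h2 : 1 ≤ K := Nat.clog_pos (by norm_num) hℓ2
    have h3 : 2 ^ K = 2 ^ (K - 1) * 2 := by
      rw [← pow_succ]; congr 1; omega
    omega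
  set Y : ℝ := 2 ^ K with hY
  have hY1 : 1 ≤ Y := one_le_pow₀ (by norm_num)
  have hYℓ : (ℓ : ℝ) ≤ Y := by rw [hY]; exact_mod_cast hℓK
  have hY2 : 2 ≤ Y := by
    have : (2 : ℝ) ≤ ℓ := by exact_mod_cast hℓ2
    linarith
  have hYlog : Y ≤ 6 * Real.log n := by
    have h1 : Y ≤ 2 * ℓ := by rw [hY]; exact_mod_cast hKℓ.le
    have h2 : ((2 : ℝ)) ^ (Nat.log 2 n) ≤ n := by exact_mod_cast Nat.pow_log_le_self 2 (by omega)
    have h3 : (Nat.log 2 n : ℝ) * Real.log 2 ≤ Real.log n := by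
      rw [← Real.log_pow]
      exact Real.log_le_log (by positivity) h2
    have h4 : (0.69 : ℝ) ≤ Real.log 2 := by linarith [Real.log_two_gt_d9]
    have h5 : (ℓ : ℝ) = Nat.log 2 n + 1 := by rw [hℓ]; push_cast; ring
    have h6 : (0 : ℝ) ≤ (Nat.log 2 n : ℝ) := Nat.cast_nonneg _
    have h7 : (Nat.log 2 n : ℝ) * 0.69 ≤ Real.log n :=
      (mul_le_mul_of_nonneg_left h4 h6).trans h3
    rw [h5] at h1
    linarith
  have hYpos : 0 < Y := by linarith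
  have h3Y : (3 : ℝ) ^ K ≤ Y ^ 2 := by
    rw [hY, ← pow_mul, mul_comm, pow_mul]
    exact pow_le_pow_left₀ (by norm_num) (by norm_num) K
  have hinv : 1 / (p / 3 ^ K) ≤ Y ^ 2 / p := by
    rw [one_div_div]
    exact div_le_div_of_nonneg_right h3Y hp.le
  set Z : ℝ := Y ^ 2 / p with hZ
  have hZY : Y ^ 2 ≤ Z := by
    rw [hZ, le_div_iff₀ hp]
    exact mul_le_of_le_one_right (by positivity) hp1
  have hYY : 2 * Y ≤ Y ^ 2 := by nlinarith
  have hZ4 : 4 ≤ Z := by nlinarith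
  have hr₀pos : 0 < p / 3 ^ K := by positivity
  have h3K : (1 : ℝ) ≤ 3 ^ K := one_le_pow₀ (by norm_num)
  have hr₀le : p / 3 ^ K ≤ 1 := (div_le_self hp.le h3K).trans hp1
  set l₀ : ℝ := 10 ^ 12 * Z ^ 2 with hl₀
  have hl₀Z : 100 * Z ≤ l₀ := by
    rw [hl₀]; nlinarith
  have h1l : 1 ≤ l₀ := by linarith
  have hnl : (n : ℝ) + 1 ≤ Real.exp l₀ := by
    have h1 : (n : ℝ) + 1 ≤ 2 ^ ℓ := by exact_mod_cast hnℓ
    have h2 : (2 : ℝ) ^ ℓ ≤ (Real.exp 1) ^ ℓ :=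
      pow_le_pow_left₀ (by norm_num) (by linarith [Real.exp_one_gt_d9]) ℓ
    have h3 : (Real.exp 1) ^ ℓ = Real.exp ℓ := by
      rw [← Real.exp_nat_mul, mul_one]
    rw [h3] at h2
    refine h1.trans (h2.trans (Real.exp_le_exp.mpr ?_))
    linarith
  have hbl : (10 ^ 6 / (p / 3 ^ K)) * Real.log (10 ^ 6 / (p / 3 ^ K)) ≤ l₀ := by
    have h1 : 10 ^ 6 / (p / 3 ^ K) ≤ 10 ^ 6 * Z := by
      have : 10 ^ 6 / (p / 3 ^ K) = 10 ^ 6 * (1 / (p / 3 ^ K)) := by ring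
      rw [this]
      exact mul_le_mul_of_nonneg_left hinv (by norm_num)
    have h2 : 0 < 10 ^ 6 / (p / 3 ^ K) := by positivity
    have h3 : Real.log (10 ^ 6 / (p / 3 ^ K)) ≤ 10 ^ 6 * Z := by
      refine (Real.log_le_sub_one_of_pos h2).trans ?_
      linarith
    have h4 : (0 : ℝ) ≤ 10 ^ 6 * Z := by positivity
    calc (10 ^ 6 / (p / 3 ^ K)) * Real.log (10 ^ 6 / (p / 3 ^ K))
        ≤ (10 ^ 6 / (p / 3 ^ K)) * (10 ^ 6 * Z) := mul_le_mul_of_nonneg_left h3 h2.le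
      _ ≤ (10 ^ 6 * Z) * (10 ^ 6 * Z) := mul_le_mul_of_nonneg_right h1 h4
      _ = l₀ := by rw [hl₀]; ring
  have hZexp : Z ≤ Real.exp l₀ := by
    have := Real.add_one_le_exp l₀
    linarith
  have hrl : 1 / (p / 3 ^ K) ≤ Real.exp l₀ := hinv.trans hZexp
  have hkl : Real.exp (-l₀) ≤ p / 3 ^ K * uu K / 9 := by
    have h1 : (3000 : ℝ) ≤ Real.exp 9 := by
      have h2 : Real.exp 9 = (Real.exp 1) ^ 9 := by
        rw [← Real.exp_nat_mul]; norm_num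
      rw [h2]
      have h3 : (2.7 : ℝ) ^ 9 ≤ (Real.exp 1) ^ 9 :=
        pow_le_pow_left₀ (by norm_num) (by linarith [Real.exp_one_gt_d9]) 9
      refine le_trans ?_ h3
      norm_num
    have h4 : (3000 : ℝ) ^ (2 ^ K) ≤ Real.exp (9 * Y) := by
      have h5 : Real.exp (9 * Y) = (Real.exp 9) ^ (2 ^ K) := by
        rw [← Real.exp_nat_mul]; congr 1; rw [hY]; push_cast; ring
      rw [h5]
      exact pow_le_pow_left₀ (by norm_num) h1 _
    have h6 : 1 / (p / 3 ^ K * uu K / 9) = 3 * (1 / (p / 3 ^ K)) * 3000 ^ (2 ^ K) := by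
      unfold uu
      rw [one_div_pow]
      field_simp
      norm_num
    have h7 : 3 * (1 / (p / 3 ^ K)) ≤ Real.exp (3 * Z) := by
      have := Real.add_one_le_exp (3 * Z)
      linarith
    have h8 : 1 / (p / 3 ^ K * uu K / 9) ≤ Real.exp l₀ := by
      rw [h6]
      calc 3 * (1 / (p / 3 ^ K)) * 3000 ^ (2 ^ K) ≤ Real.exp (3 * Z) * Real.exp (9 * Y) := by
            apply mul_le_mul h7 h4 (by positivity) (Real.exp_pos _).le
        _ = Real.exp (3 * Z + 9 * Y) := (Real.exp_add _ _).symm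
        _ ≤ Real.exp l₀ := Real.exp_le_exp.mpr (by linarith)
    have h9 : 0 < p / 3 ^ K * uu K / 9 := by
      have := uu_pos K
      positivity
    rw [Real.exp_neg]
    rw [one_div] at h8
    rw [inv_le_comm₀ (Real.exp_pos _) h9]
    exact h8
  have hmain := iterate_core n p hp hp1 K P hbase hstep l₀ h1l hnl hbl hrl hkl K le_rfl
  rw [Nat.sub_self, pow_zero, div_one] at hmain
  have hll : l₀ ≤ (10 ^ 12) ^ K * l₀ := by
    have h1 : (1 : ℝ) ≤ (10 ^ 12) ^ K := one_le_pow₀ (by norm_num)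
    exact le_mul_of_one_le_left (by linarith) h1
  have hexp : Real.exp l₀ ≤ Real.exp ((10 ^ 12) ^ K * l₀) := Real.exp_le_exp.mpr hll
  refine ⟨p * uu K / 9, (10 ^ 12) ^ K * l₀, ?_, ?_, h1l.trans hll, hnl.trans hexp, ?_, ?_, hmain⟩
  · have := uu_pos K
    positivity
  · -- `κ ≤ p / (100 n)`
    have h2 : (3000 : ℝ) ^ ℓ ≤ (3000 : ℝ) ^ (2 ^ K) := pow_le_pow_right₀ (by norm_num) hℓK
    have h3 : (n : ℝ) ≤ (2 : ℝ) ^ ℓ := by exact_mod_cast hnℓ.le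
    have h4 : (3000 : ℝ) ^ ℓ = (2 : ℝ) ^ ℓ * (1500 : ℝ) ^ ℓ := by
      rw [← mul_pow]; norm_num
    have h5 : (1500 : ℝ) ≤ (1500 : ℝ) ^ ℓ :=
      le_self_pow₀ (by norm_num) (by omega)
    have h6 : (n : ℝ) * 1500 ≤ (2 : ℝ) ^ ℓ * (1500 : ℝ) ^ ℓ :=
      mul_le_mul h3 h5 (by norm_num) (by positivity)
    have h1 : (100 : ℝ) * n ≤ 3 * (3000 : ℝ) ^ (2 ^ K) := by
      rw [h4] at h2
      linarith
    have h7 : uu K / 9 = 1 / (3 * 3000 ^ (2 ^ K)) := by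
      unfold uu
      rw [one_div_pow]
      field_simp
      norm_num
    rw [mul_div_assoc, h7, div_eq_mul_one_div p]
    apply mul_le_mul_of_nonneg_left _ hp.le
    exact one_div_le_one_div_of_le (by positivity) h1
  · refine le_trans ?_ (hrl.trans hexp)
    exact one_div_le_one_div_of_le hr₀pos (div_le_self hp.le h3K)
  · -- `l ≤ (log n)^45`
    have h1 : ((10 : ℝ) ^ 12) ^ K ≤ Y ^ 40 := by
      have h0 : ((2 : ℝ) ^ 40) ^ K = Y ^ 40 := by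
        rw [hY, ← pow_mul, ← pow_mul, mul_comm]
      rw [← h0]
      exact pow_le_pow_left₀ (by norm_num) (by norm_num) K
    have h2 : l₀ = 10 ^ 12 / p ^ 2 * Y ^ 4 := by
      rw [hl₀, hZ]; field_simp
    have h3 : (10 ^ 12) ^ K * l₀ ≤ 10 ^ 12 / p ^ 2 * Y ^ 44 := by
      calc (10 ^ 12) ^ K * l₀ ≤ Y ^ 40 * l₀ := mul_le_mul_of_nonneg_right h1 (by linarith)
        _ = 10 ^ 12 / p ^ 2 * Y ^ 44 := by rw [h2]; ring
    have h4 : Y ^ 44 ≤ (6 * Real.log n) ^ 44 := pow_le_pow_left₀ hYpos.le hYlog 44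
    have h5 : (10 : ℝ) ^ 12 / p ^ 2 * Y ^ 44 ≤ 10 ^ 12 * 6 ^ 44 / p ^ 2 * Real.log n ^ 44 := by
      calc (10 : ℝ) ^ 12 / p ^ 2 * Y ^ 44 ≤ 10 ^ 12 / p ^ 2 * (6 * Real.log n) ^ 44 :=
            mul_le_mul_of_nonneg_left h4 (by positivity)
        _ = 10 ^ 12 * 6 ^ 44 / p ^ 2 * Real.log n ^ 44 := by rw [mul_pow]; ring
    have h6 : 10 ^ 12 * 6 ^ 44 / p ^ 2 * Real.log n ^ 44 ≤ Real.log n * Real.log n ^ 44 :=
      mul_le_mul_of_nonneg_right hlogn (by positivity)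
    have h7 : Real.log n ^ (45 : ℝ) = Real.log n * Real.log n ^ 44 := by
      rw [show (45 : ℝ) = ((45 : ℕ) : ℝ) by norm_num, Real.rpow_natCast, pow_succ, mul_comm]
    rw [h7]
    exact h3.trans (h5.trans h6)

/-- Final numerics: from the gap `e^{-6l}`, `l ≤ (log n)^C`, to the sample complexity. -/
theorem final_numerics (C : ℝ) (hC : 0 < C) :
    ∃ n₀ : ℕ, ∀ n : ℕ, n₀ ≤ n → ∀ l : ℝ, 1 ≤ l → l ≤ (Real.log n) ^ C →
      (⌈(16 / (Real.exp (-6 * l)) ^ 2) * (n + 2)⌉₊ : ℕ) ≤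
        ⌊Real.exp ((Real.log n) ^ (C + 2))⌋₊ := by
  refine ⟨⌈Real.exp 20⌉₊ + 4, fun n hn l hl1 hl => ?_⟩
  have hn4 : 4 ≤ n := by omega
  have hnR : (4 : ℝ) ≤ n := by exact_mod_cast hn4
  have hlogn : 20 ≤ Real.log n := by
    rw [Real.le_log_iff_exp_le (by linarith)]
    refine (Nat.le_ceil _).trans ?_
    exact_mod_cast (by omega : ⌈Real.exp 20⌉₊ ≤ n)
  have hpow0 : 1 ≤ Real.log n ^ C := Real.one_le_rpow (by linarith) hC.le
  have h1 : (16 / (Real.exp (-6 * l)) ^ 2) * ((n : ℝ) + 2) + 1 ≤ Real.exp ((Real.log n) ^ (C + 2)) := by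
    have h2 : 16 / (Real.exp (-6 * l)) ^ 2 = 16 * Real.exp (12 * l) := by
      rw [← Real.exp_nat_mul, div_eq_mul_inv, ← Real.exp_neg]
      congr 2; push_cast; ring
    rw [h2]
    have h3 : (1 : ℝ) ≤ 16 * Real.exp (12 * l) := by
      have := Real.add_one_le_exp (12 * l)
      linarith
    have h4 : 16 * Real.exp (12 * l) * ((n : ℝ) + 2) + 1 ≤ 16 * Real.exp (12 * l) * (n + 3) := by
      linarith
    have h5 : (n : ℝ) + 3 ≤ Real.exp (2 * Real.log n) := by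
      have h6 : Real.exp (2 * Real.log n) = n ^ 2 := by
        rw [mul_comm, Real.exp_mul, Real.exp_log (by linarith)]
        norm_num
      rw [h6]; nlinarith
    have h7 : (16 : ℝ) ≤ Real.exp 4 := by
      have h8 : Real.exp 4 = (Real.exp 1) ^ 4 := by
        rw [← Real.exp_nat_mul]; norm_num
      rw [h8]
      have h9 : (2 : ℝ) ^ 4 ≤ (Real.exp 1) ^ 4 :=
        pow_le_pow_left₀ (by norm_num) (by linarith [Real.exp_one_gt_d9]) 4
      refine le_trans ?_ h9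
      norm_num
    have h10 : 16 * Real.exp (12 * l) * ((n : ℝ) + 3) ≤
        Real.exp 4 * Real.exp (12 * l) * Real.exp (2 * Real.log n) := by
      apply mul_le_mul _ h5 (by positivity) (by positivity)
      exact mul_le_mul_of_nonneg_right h7 (Real.exp_pos _).le
    refine h4.trans (h10.trans ?_)
    rw [← Real.exp_add, ← Real.exp_add]
    apply Real.exp_le_exp.mpr
    have h11 : Real.log n ^ (C + 2) = Real.log n ^ C * Real.log n ^ 2 := by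
      rw [Real.rpow_add (by linarith)]
      norm_num
    rw [h11]
    have h12 : (20 : ℝ) * Real.log n ≤ Real.log n ^ 2 := by nlinarith
    have h13 : Real.log n ^ C * (20 * Real.log n) ≤ Real.log n ^ C * Real.log n ^ 2 :=
      mul_le_mul_of_nonneg_left h12 (by linarith)
    have h14 : Real.log n ^ C * 20 ≤ Real.log n ^ C * Real.log n :=
      mul_le_mul_of_nonneg_left hlogn (by linarith)
    have h15 : 1 * Real.log n ≤ Real.log n ^ C * Real.log n :=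
      mul_le_mul_of_nonneg_right hpow0 (by linarith)
    nlinarith
  apply Nat.le_floor
  have h2 := (Nat.ceil_lt_add_one (show 0 ≤ (16 / (Real.exp (-6 * l)) ^ 2) * ((n : ℝ) + 2) by positivity)).le
  exact h2.trans h1

end Vale.Agent.P321.UB
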