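import Vale.Agent.P321.UB.Basic
import Vale.Agent.P321.Defs

/-! # Block U7: from a gap in expectations to the sample complexity -/

namespace Vale.Agent.P321.UB

open Complex Finset
open scoped unitInterval ENNReal

/-! ## The trace law and `FE` -/

theorem traceLaw_cons_apply' (q : I) (b : Bool) (x w : List Bool) :
    traceLaw q (b :: x) w = ENNReal.ofReal q * traceLaw q x w
      + ENNReal.ofReal (1 - q) * ∑' t, if w = b :: t then traceLaw q x t else 0 := by
  have h0 : traceLaw q (b :: x) = (coin q).bind fun deleted =>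
      (traceLaw q x).map fun t => if deleted then t else b :: t := rfl
  have h1 : coin q true = ENNReal.ofReal q := rfl
  have h2 : coin q false = ENNReal.ofReal (1 - q) := rfl
  rw [h0, PMF.bind_apply, tsum_bool, h1, h2, add_comm]
  congr 2
  · simp only [if_true]
    have : (fun t : List Bool => t) = id := rfl
    rw [this, PMF.map_id]
  · simp only [Bool.false_eq_true, if_false]
    rw [PMF.map_apply]
    refine tsum_congr fun t => ?_
    by_cases h : w = b :: t
    · rw [if_pos h, if_pos h]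
    · rw [if_neg h, if_neg h]

theorem traceLaw_cons_toReal (q : I) (b : Bool) (x w : List Bool) :
    (traceLaw q (b :: x) w).toReal = q * (traceLaw q x w).toReal
      + (1 - q) * (if w.head? = some b then (traceLaw q x w.tail).toReal else 0) := by
  have hq : (0 : ℝ) ≤ 1 - q := by linarith [q.2.2]
  have hf : ∀ v, traceLaw q x v ≠ ⊤ := fun v => (traceLaw q x).apply_ne_top v
  rw [traceLaw_cons_apply']
  have h1 : (∑' t, if w = b :: t then traceLaw q x t else 0)
      = if w.head? = some b then traceLaw q x w.tail else 0 := by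
    cases w with
    | nil => simp
    | cons c w =>
      by_cases h : c = b
      · subst h
        rw [tsum_eq_single w]
        · simp
        · intro t ht
          rw [if_neg]
          intro e
          exact ht (List.cons.inj e).2.symm
      · have h' : ¬ ((c :: w).head? = some b) := by simpa using h
        rw [if_neg h']
        refine ENNReal.tsum_eq_zero.mpr fun t => ?_
        rw [if_neg]
        intro e
        exact h (List.cons.inj e).1
  rw [h1, ENNReal.toReal_add, ENNReal.toReal_mul, ENNReal.toReal_mul, ENNReal.toReal_ofReal q.2.1,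
    ENNReal.toReal_ofReal hq]
  · by_cases h : w.head? = some b
    · rw [if_pos h, if_pos h]
    · rw [if_neg h, if_neg h, ENNReal.toReal_zero]
  · exact ENNReal.mul_ne_top ENNReal.ofReal_ne_top (hf _)
  · refine ENNReal.mul_ne_top ENNReal.ofReal_ne_top ?_
    by_cases h : w.head? = some b
    · rw [if_pos h]; exact hf _
    · rw [if_neg h]; exact ENNReal.zero_ne_top

theorem traceLaw_eq_zero_of_length (q : I) (x w : List Bool) (h : x.length < w.length) :
    traceLaw q x w = 0 := by
  induction x generalizing w with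
  | nil =>
    have h0 : traceLaw q [] = PMF.pure [] := rfl
    rw [h0, PMF.pure_apply, if_neg]
    rintro rfl
    simp at h
  | cons b x ih =>
    rw [List.length_cons] at h
    rw [traceLaw_cons_apply', ih w (by omega), mul_zero, zero_add]
    have e0 : (∑' t, if w = b :: t then traceLaw q x t else 0) = 0 := by
      refine ENNReal.tsum_eq_zero.mpr fun t => ?_
      by_cases e : w = b :: t
      · rw [if_pos e]
        subst e
        rw [List.length_cons] at h
        exact ih t (by omega)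
      · rw [if_neg e]
    rw [e0, mul_zero]

theorem hasSum_FE (q : I) (Φ : List Bool → ℂ) (x : List Bool) :
    HasSum (fun u => (((traceLaw q x u).toReal : ℝ) : ℂ) * Φ u) (FE (1 - q) Φ x) := by
  induction x generalizing Φ with
  | nil =>
    have h0 : traceLaw q [] = PMF.pure [] := rfl
    have h1 : (fun u => (((traceLaw q [] u).toReal : ℝ) : ℂ) * Φ u) =
        fun u => if u = [] then Φ [] else 0 := by
      funext u
      rw [h0, PMF.pure_apply]
      by_cases h : u = []
      · subst h; simp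
      · simp [h]
    rw [h1, FE]
    exact hasSum_ite_eq [] (Φ [])
  | cons b x ih =>
    have h1 : (fun u => (((traceLaw q (b :: x) u).toReal : ℝ) : ℂ) * Φ u) =
        fun u => (q : ℂ) * ((((traceLaw q x u).toReal : ℝ) : ℂ) * Φ u) +
          (1 - (q : ℂ)) * ((if u.head? = some b then
            (((traceLaw q x u.tail).toReal : ℝ) : ℂ) else 0) * Φ u) := by
      funext u
      rw [traceLaw_cons_toReal]
      by_cases h : u.head? = some b
      · rw [if_pos h, if_pos h]
        push_cast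
        ring
      · rw [if_neg h, if_neg h]
        push_cast
        ring
    have h2 : HasSum (fun u : List Bool => (if u.head? = some b then
            (((traceLaw q x u.tail).toReal : ℝ) : ℂ) else 0) * Φ u)
          (FE (1 - q) (fun u => Φ (b :: u)) x) := by
      have hinj : Function.Injective (fun t : List Bool => b :: t) := fun t t' e =>
        (List.cons.inj e).2
      rw [← hinj.hasSum_iff]
      · convert ih (fun u => Φ (b :: u)) using 1
        funext t
        simp
      · intro u hu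
        have : ¬ (u.head? = some b) := by
          intro e
          apply hu
          cases u with
          | nil => simp at e
          | cons c u =>
            simp at e
            subst e
            exact ⟨u, rfl⟩
        rw [if_neg this, zero_mul]
    rw [h1, FE]
    have h3 := ((ih Φ).mul_left (q : ℂ)).add (h2.mul_left (1 - (q : ℂ)))
    have e1 : (1 - ((1 - (q : ℝ) : ℝ) : ℂ)) = (q : ℂ) := by push_cast; ring
    have e2 : (((1 - (q : ℝ) : ℝ) : ℂ)) = 1 - (q : ℂ) := by push_cast; ring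
    rw [e1, e2]
    exact h3

/-- The operator `FE` is the expectation over the trace. -/
theorem FE_eq_tsum (q : I) (Φ : List Bool → ℂ) (x : List Bool) :
    FE (1 - q) Φ x = ∑' u, (((traceLaw q x u).toReal : ℝ) : ℂ) * Φ u :=
  (hasSum_FE q Φ x).tsum_eq.symm

/-- The finite set of words of length at most `n`. -/
noncomputable def words (n : ℕ) : Finset (List Bool) := (List.finite_length_le Bool n).toFinset

theorem mem_words {n : ℕ} {u : List Bool} : u ∈ words n ↔ u.length ≤ n := by
  simp [words]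

theorem sum_words_traceLaw (q : I) (n : ℕ) (x : List Bool) (hx : x.length ≤ n) :
    ∑ u ∈ words n, (traceLaw q x u).toReal = 1 := by
  have h1 := hasSum_FE q (fun _ => 1) x
  have h2 : ∀ y : List Bool, FE (1 - q) (fun _ => 1) y = 1 := by
    intro y
    induction y with
    | nil => rw [FE]
    | cons b y ih => rw [FE, ih]; ring
  rw [h2] at h1
  have h3 : HasSum (fun u => (((traceLaw q x u).toReal : ℝ) : ℂ) * (1 : ℂ))
      (∑ u ∈ words n, (((traceLaw q x u).toReal : ℝ) : ℂ) * (1 : ℂ)) := by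
    apply hasSum_sum_of_ne_finset_zero
    intro u hu
    rw [mem_words, not_le] at hu
    rw [traceLaw_eq_zero_of_length q x u (by omega)]
    simp
  have h4 := h3.unique h1
  have h5 : ((∑ u ∈ words n, (traceLaw q x u).toReal : ℝ) : ℂ) = ((1 : ℝ) : ℂ) := by
    push_cast
    rw [← h4]
    simp
  exact_mod_cast h5

/-- Bhattacharyya coefficient bound. -/
theorem bc_le {ι : Type*} (S : Finset ι) (P P' : ι → ℝ) (hP : ∀ u, 0 ≤ P u) (hP' : ∀ u, 0 ≤ P' u)
    (h1 : ∑ u ∈ S, P u = 1) (h1' : ∑ u ∈ S, P' u = 1) {η : ℝ} (hη : 0 ≤ η)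
    (h : η ≤ ∑ u ∈ S, |P u - P' u|) :
    ∑ u ∈ S, Real.sqrt (P u) * Real.sqrt (P' u) ≤ 1 - η ^ 2 / 8 := by
  set B := ∑ u ∈ S, Real.sqrt (P u) * Real.sqrt (P' u) with hB
  have hB0 : 0 ≤ B := Finset.sum_nonneg fun u _ => mul_nonneg (Real.sqrt_nonneg _) (Real.sqrt_nonneg _)
  have hs : ∀ u, Real.sqrt (P u) ^ 2 = P u := fun u => Real.sq_sqrt (hP u)
  have hs' : ∀ u, Real.sqrt (P' u) ^ 2 = P' u := fun u => Real.sq_sqrt (hP' u)
  have e1 : ∑ u ∈ S, |Real.sqrt (P u) - Real.sqrt (P' u)| ^ 2 = 2 - 2 * B := by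
    have : ∀ u, |Real.sqrt (P u) - Real.sqrt (P' u)| ^ 2 =
        P u + P' u - 2 * (Real.sqrt (P u) * Real.sqrt (P' u)) := by
      intro u
      rw [sq_abs, sub_sq, hs, hs']
      ring
    rw [Finset.sum_congr rfl fun u _ => this u, Finset.sum_sub_distrib, Finset.sum_add_distrib,
      h1, h1', ← Finset.mul_sum]
    ring
  have e2 : ∑ u ∈ S, (Real.sqrt (P u) + Real.sqrt (P' u)) ^ 2 = 2 + 2 * B := by
    have : ∀ u, (Real.sqrt (P u) + Real.sqrt (P' u)) ^ 2 =
        P u + P' u + 2 * (Real.sqrt (P u) * Real.sqrt (P' u)) := by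
      intro u
      rw [add_sq, hs, hs']
      ring
    rw [Finset.sum_congr rfl fun u _ => this u, Finset.sum_add_distrib, Finset.sum_add_distrib,
      h1, h1', ← Finset.mul_sum]
    ring
  have e3 : ∀ u, |P u - P' u| =
      |Real.sqrt (P u) - Real.sqrt (P' u)| * (Real.sqrt (P u) + Real.sqrt (P' u)) := by
    intro u
    have h0 : 0 ≤ Real.sqrt (P u) + Real.sqrt (P' u) :=
      add_nonneg (Real.sqrt_nonneg _) (Real.sqrt_nonneg _)
    have h4 : P u - P' u = (Real.sqrt (P u) - Real.sqrt (P' u)) *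
        (Real.sqrt (P u) + Real.sqrt (P' u)) := by
      nlinarith [hs u, hs' u]
    rw [h4, abs_mul, abs_of_nonneg h0]
  have cs := Finset.sum_mul_sq_le_sq_mul_sq S
    (fun u => |Real.sqrt (P u) - Real.sqrt (P' u)|) (fun u => Real.sqrt (P u) + Real.sqrt (P' u))
  rw [← Finset.sum_congr rfl fun u _ => e3 u, e1, e2] at cs
  have h2 : η ^ 2 ≤ (∑ u ∈ S, |P u - P' u|) ^ 2 := by
    apply pow_le_pow_left₀ hη h
  have h3 : B ^ 2 ≤ 1 - η ^ 2 / 4 := by nlinarith
  nlinarith [sq_nonneg (B - 1)]

theorem rpow_half_eq (a : ℝ≥0∞) (ha : a ≠ ⊤) :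
    a ^ (1 / 2 : ℝ) = ENNReal.ofReal (Real.sqrt a.toReal) := by
  conv_lhs => rw [← ENNReal.ofReal_toReal ha]
  rw [ENNReal.ofReal_rpow_of_nonneg ENNReal.toReal_nonneg (by norm_num), Real.sqrt_eq_rpow]

theorem rpow_half_mul_self (a : ℝ≥0∞) : a ^ (1 / 2 : ℝ) * a ^ (1 / 2 : ℝ) = a := by
  rw [← ENNReal.rpow_add_of_nonneg _ _ (by norm_num) (by norm_num)]
  norm_num

/-- Bhattacharyya coefficient of one trace. -/
theorem tsum_bc_le (q : I) (n : ℕ) {η : ℝ} (hη : 0 ≤ η) (x x' : List Bool) (hx : x.length ≤ n)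
    (hx' : x'.length ≤ n) (Φ : List Bool → ℂ) (hΦ : ∀ u, u.length ≤ n → ‖Φ u‖ ≤ 1)
    (hgap : η ≤ ‖FE (1 - q) Φ x - FE (1 - q) Φ x'‖) :
    ∑' u, (traceLaw q x u) ^ (1 / 2 : ℝ) * (traceLaw q x' u) ^ (1 / 2 : ℝ) ≤
      ENNReal.ofReal (1 - η ^ 2 / 8) := by
  have hf : ∀ y v, traceLaw q y v ≠ ⊤ := fun y v => (traceLaw q y).apply_ne_top v
  have hz : ∀ u ∉ words n, traceLaw q x u = 0 := fun u hu =>
    traceLaw_eq_zero_of_length q x u (by rw [mem_words, not_le] at hu; omega)
  have hFE : ∀ y : List Bool, y.length ≤ n →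
      FE (1 - q) Φ y = ∑ u ∈ words n, (((traceLaw q y u).toReal : ℝ) : ℂ) * Φ u := by
    intro y hy
    rw [FE_eq_tsum]
    apply tsum_eq_sum
    intro u hu
    rw [mem_words, not_le] at hu
    rw [traceLaw_eq_zero_of_length q y u (by omega)]
    simp
  have h1 : η ≤ ∑ u ∈ words n, |(traceLaw q x u).toReal - (traceLaw q x' u).toReal| := by
    refine hgap.trans ?_
    rw [hFE x hx, hFE x' hx', ← Finset.sum_sub_distrib]
    refine (norm_sum_le _ _).trans (Finset.sum_le_sum fun u hu => ?_)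
    rw [← sub_mul, norm_mul, ← Complex.ofReal_sub, Complex.norm_real, Real.norm_eq_abs]
    exact mul_le_of_le_one_right (abs_nonneg _) (hΦ u (mem_words.mp hu))
  rw [tsum_eq_sum (s := words n)]
  · have h2 : ∀ u ∈ words n, (traceLaw q x u) ^ (1 / 2 : ℝ) * (traceLaw q x' u) ^ (1 / 2 : ℝ) =
        ENNReal.ofReal (Real.sqrt (traceLaw q x u).toReal * Real.sqrt (traceLaw q x' u).toReal) := by
      intro u _
      rw [rpow_half_eq _ (hf _ _), rpow_half_eq _ (hf _ _), ENNReal.ofReal_mul (Real.sqrt_nonneg _)]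
    rw [Finset.sum_congr rfl h2, ← ENNReal.ofReal_sum_of_nonneg]
    · apply ENNReal.ofReal_le_ofReal
      exact bc_le (words n) _ _ (fun _ => ENNReal.toReal_nonneg) (fun _ => ENNReal.toReal_nonneg)
        (sum_words_traceLaw q n x hx) (sum_words_traceLaw q n x' hx') hη h1
    · intro u _
      exact mul_nonneg (Real.sqrt_nonneg _) (Real.sqrt_nonneg _)
  · intro u hu
    rw [hz u hu, ENNReal.zero_rpow_of_pos (by norm_num), zero_mul]

theorem tracesLaw_succ_nil (q : I) (x : List Bool) (m : ℕ) : tracesLaw q x (m + 1) [] = 0 := by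
  have h0 : tracesLaw q x (m + 1) =
      (traceLaw q x).bind fun t => (tracesLaw q x m).map fun ts => t :: ts := rfl
  rw [h0, PMF.bind_apply]
  refine ENNReal.tsum_eq_zero.mpr fun t => ?_
  rw [PMF.map_apply]
  refine mul_eq_zero_of_right _ (ENNReal.tsum_eq_zero.mpr fun a => ?_)
  rw [if_neg]
  simp

theorem tracesLaw_succ_cons (q : I) (x : List Bool) (m : ℕ) (t : List Bool)
    (us : List (List Bool)) :
    tracesLaw q x (m + 1) (t :: us) = traceLaw q x t * tracesLaw q x m us := by
  have h0 : tracesLaw q x (m + 1) =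
      (traceLaw q x).bind fun t => (tracesLaw q x m).map fun ts => t :: ts := rfl
  rw [h0, PMF.bind_apply, tsum_eq_single t]
  · rw [PMF.map_apply, tsum_eq_single us]
    · simp
    · intro v hv
      rw [if_neg]
      intro e
      exact hv (List.cons.inj e).2.symm
  · intro a ha
    rw [PMF.map_apply]
    refine mul_eq_zero_of_right _ (ENNReal.tsum_eq_zero.mpr fun v => ?_)
    rw [if_neg]
    intro e
    exact ha (List.cons.inj e).1.symm

/-- Tensorization of the Bhattacharyya coefficient. -/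
theorem tsum_bc_traces (q : I) (x x' : List Bool) (m : ℕ) :
    ∑' ts, (tracesLaw q x m ts) ^ (1 / 2 : ℝ) * (tracesLaw q x' m ts) ^ (1 / 2 : ℝ) =
      (∑' u, (traceLaw q x u) ^ (1 / 2 : ℝ) * (traceLaw q x' u) ^ (1 / 2 : ℝ)) ^ m := by
  induction m with
  | zero =>
    have h0 : ∀ y, tracesLaw q y 0 = PMF.pure [] := fun y => rfl
    rw [h0, h0, pow_zero, tsum_eq_single []]
    · simp
    · intro ts hts
      rw [PMF.pure_apply, if_neg hts, ENNReal.zero_rpow_of_pos (by norm_num), zero_mul]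
  | succ m ih =>
    have hinj : Function.Injective
        (fun p : List Bool × List (List Bool) => p.1 :: p.2) := by
      rintro ⟨a, b⟩ ⟨c, d⟩ e
      exact Prod.ext (List.cons.inj e).1 (List.cons.inj e).2
    rw [← hinj.tsum_eq]
    · rw [ENNReal.tsum_prod']
      have h1 : ∀ a : List Bool, ∀ b : List (List Bool),
          tracesLaw q x (m + 1) (a :: b) ^ (1 / 2 : ℝ) * tracesLaw q x' (m + 1) (a :: b) ^ (1 / 2 : ℝ)
            = (traceLaw q x a ^ (1 / 2 : ℝ) * traceLaw q x' a ^ (1 / 2 : ℝ)) *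
              (tracesLaw q x m b ^ (1 / 2 : ℝ) * tracesLaw q x' m b ^ (1 / 2 : ℝ)) := by
        intro a b
        rw [tracesLaw_succ_cons, tracesLaw_succ_cons, ENNReal.mul_rpow_of_nonneg _ _ (by norm_num),
          ENNReal.mul_rpow_of_nonneg _ _ (by norm_num)]
        ring
      simp only [h1, ENNReal.tsum_mul_left, ENNReal.tsum_mul_right]
      rw [ih, pow_succ']
    · intro ts hts
      cases ts with
      | nil =>
        exfalso
        apply hts
        show tracesLaw q x (m + 1) [] ^ (1 / 2 : ℝ) * tracesLaw q x' (m + 1) [] ^ (1 / 2 : ℝ) = 0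
        rw [tracesLaw_succ_nil, ENNReal.zero_rpow_of_pos (by norm_num), zero_mul]
      | cons a b => exact ⟨(a, b), rfl⟩

/-- If any two strings are separated by `η` by a test bounded by `1`, then maximum likelihood
reconstructs from `O(n/η²)` traces. -/
theorem T_le_of_gap (q : I) (n : ℕ) {η : ℝ} (hη : 0 < η) (hη1 : η ≤ 1)
    (hgap : ∀ x x' : Fin n → Bool, x ≠ x' → ∃ Φ : List Bool → ℂ,
      (∀ u, u.length ≤ n → ‖Φ u‖ ≤ 1) ∧
        η ≤ ‖FE (1 - q) Φ (List.ofFn x) - FE (1 - q) Φ (List.ofFn x')‖) :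
    T q n ≤ (⌈(16 / η ^ 2) * (n + 2)⌉₊ : ℕ) := by
  classical
  set m : ℕ := ⌈(16 / η ^ 2) * (n + 2)⌉₊ with hm
  have hmax : ∀ ts : List (List Bool), ∃ x₀ : Fin n → Bool, ∀ x : Fin n → Bool,
      tracesLaw q (List.ofFn x) m ts ≤ tracesLaw q (List.ofFn x₀) m ts := fun ts =>
    Finite.exists_max (fun x : Fin n → Bool => tracesLaw q (List.ofFn x) m ts)
  choose mle hmle using hmax
  refine iInf₂_le m ⟨fun ts => PMF.pure (mle ts), ?_⟩
  intro x
  rw [PMF.bind_apply]
  set G := ∑' ts, tracesLaw q (List.ofFn x) m ts * (PMF.pure (mle ts)) x with hG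
  -- the total mass
  have h1 : ∑' ts, tracesLaw q (List.ofFn x) m ts = 1 := PMF.tsum_coe _
  have h2 : ∀ ts, tracesLaw q (List.ofFn x) m ts ≤
      tracesLaw q (List.ofFn x) m ts * (PMF.pure (mle ts)) x +
        ∑ x' ∈ univ.erase x, (tracesLaw q (List.ofFn x) m ts) ^ (1 / 2 : ℝ) *
          (tracesLaw q (List.ofFn x') m ts) ^ (1 / 2 : ℝ) := by
    intro ts
    by_cases h : x = mle ts
    · rw [PMF.pure_apply, if_pos h, mul_one]
      exact le_self_add
    · have hmem : mle ts ∈ univ.erase x := Finset.mem_erase.mpr ⟨fun e => h e.symm, mem_univ _⟩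
      have h3 : tracesLaw q (List.ofFn x) m ts ≤
          (tracesLaw q (List.ofFn x) m ts) ^ (1 / 2 : ℝ) *
            (tracesLaw q (List.ofFn (mle ts)) m ts) ^ (1 / 2 : ℝ) := by
        conv_lhs => rw [← rpow_half_mul_self (tracesLaw q (List.ofFn x) m ts)]
        exact mul_le_mul_right (ENNReal.rpow_le_rpow (hmle ts x) (by norm_num)) _
      refine h3.trans (le_trans ?_ le_add_self)
      exact Finset.single_le_sum (f := fun x' : Fin n → Bool =>
        (tracesLaw q (List.ofFn x) m ts) ^ (1 / 2 : ℝ) *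
          (tracesLaw q (List.ofFn x') m ts) ^ (1 / 2 : ℝ)) (fun _ _ => zero_le) hmem
  have h3 : (1 : ℝ≥0∞) ≤ G + ∑ x' ∈ univ.erase x, ∑' ts,
      (tracesLaw q (List.ofFn x) m ts) ^ (1 / 2 : ℝ) *
          (tracesLaw q (List.ofFn x') m ts) ^ (1 / 2 : ℝ) := by
    rw [← h1, hG]
    rw [← Summable.tsum_finsetSum (fun _ _ => ENNReal.summable), ← ENNReal.tsum_add]
    exact ENNReal.tsum_le_tsum h2
  have hη2 : 0 ≤ 1 - η ^ 2 / 8 := by nlinarith
  have h4 : ∀ x' ∈ univ.erase x, ∑' ts,
      (tracesLaw q (List.ofFn x) m ts) ^ (1 / 2 : ℝ) *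
          (tracesLaw q (List.ofFn x') m ts) ^ (1 / 2 : ℝ) ≤
        ENNReal.ofReal ((1 - η ^ 2 / 8) ^ m) := by
    intro x' hx'
    have hne : x ≠ x' := fun e => (Finset.mem_erase.mp hx').1 e.symm
    obtain ⟨Φ, hΦ, hg⟩ := hgap x x' hne
    rw [tsum_bc_traces, ENNReal.ofReal_pow hη2]
    exact pow_le_pow_left' (tsum_bc_le q n hη.le _ _ (by simp) (by simp) Φ hΦ hg) m
  have hcard : ((univ.erase x : Finset (Fin n → Bool)).card : ℝ) ≤ 2 ^ n := by
    have : (univ.erase x : Finset (Fin n → Bool)).card ≤ 2 ^ n := by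
      calc (univ.erase x : Finset (Fin n → Bool)).card ≤ (univ : Finset (Fin n → Bool)).card :=
            Finset.card_le_card (Finset.erase_subset _ _)
        _ = 2 ^ n := by simp
    exact_mod_cast this
  have hreal : (2 : ℝ) ^ n * (1 - η ^ 2 / 8) ^ m ≤ 1 / 3 := by
    have a1 : (1 - η ^ 2 / 8) ^ m ≤ Real.exp (-(η ^ 2 / 8) * m) := by
      have : 1 - η ^ 2 / 8 ≤ Real.exp (-(η ^ 2 / 8)) := by
        have := Real.add_one_le_exp (-(η ^ 2 / 8))
        linarith
      calc (1 - η ^ 2 / 8) ^ m ≤ (Real.exp (-(η ^ 2 / 8))) ^ m := pow_le_pow_left₀ hη2 this m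
        _ = Real.exp (-(η ^ 2 / 8) * m) := by rw [← Real.exp_nat_mul]; ring_nf
    have a2 : (16 / η ^ 2) * (n + 2) ≤ (m : ℝ) := Nat.le_ceil _
    have a3 : 2 * ((n : ℝ) + 2) ≤ η ^ 2 / 8 * m := by
      have hη3 : 0 < η ^ 2 := by positivity
      calc 2 * ((n : ℝ) + 2) = η ^ 2 / 8 * ((16 / η ^ 2) * (n + 2)) := by field_simp; ring
        _ ≤ η ^ 2 / 8 * m := by gcongr
    have a4 : (2 : ℝ) ^ n ≤ Real.exp n := by
      have : (2 : ℝ) ≤ Real.exp 1 := by
        have := Real.add_one_le_exp (1 : ℝ)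
        linarith
      calc (2 : ℝ) ^ n ≤ (Real.exp 1) ^ n := pow_le_pow_left₀ (by norm_num) this n
        _ = Real.exp n := by rw [← Real.exp_nat_mul, mul_one]
    have a5 : Real.exp (-(η ^ 2 / 8) * m) ≤ Real.exp (-(2 * ((n : ℝ) + 2))) := by
      apply Real.exp_le_exp.mpr
      linarith
    calc (2 : ℝ) ^ n * (1 - η ^ 2 / 8) ^ m
        ≤ Real.exp n * Real.exp (-(2 * ((n : ℝ) + 2))) := by
          apply mul_le_mul a4 (a1.trans a5) (pow_nonneg hη2 m) (Real.exp_nonneg _)
      _ = Real.exp (-(n : ℝ) - 4) := by rw [← Real.exp_add]; ring_nf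
      _ ≤ Real.exp (-2) := by
          apply Real.exp_le_exp.mpr
          have : (0 : ℝ) ≤ n := Nat.cast_nonneg n
          linarith
      _ ≤ 1 / 3 := by
          rw [Real.exp_neg, ← one_div]
          apply one_div_le_one_div_of_le (by norm_num)
          have := Real.add_one_le_exp (2 : ℝ)
          linarith
  have h5 : ∑ x' ∈ univ.erase x, ∑' ts,
      (tracesLaw q (List.ofFn x) m ts) ^ (1 / 2 : ℝ) *
          (tracesLaw q (List.ofFn x') m ts) ^ (1 / 2 : ℝ) ≤ 1 / 3 := by
    calc _ ≤ ∑ x' ∈ univ.erase x, ENNReal.ofReal ((1 - η ^ 2 / 8) ^ m) := Finset.sum_le_sum h4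
      _ = ENNReal.ofReal ((univ.erase x : Finset (Fin n → Bool)).card * (1 - η ^ 2 / 8) ^ m) := by
          rw [Finset.sum_const, nsmul_eq_mul, ENNReal.ofReal_mul (Nat.cast_nonneg _),
            ENNReal.ofReal_natCast]
      _ ≤ ENNReal.ofReal (1 / 3) := by
          apply ENNReal.ofReal_le_ofReal
          refine le_trans ?_ hreal
          exact mul_le_mul_of_nonneg_right hcard (pow_nonneg hη2 m)
      _ = 1 / 3 := by
          rw [ENNReal.ofReal_div_of_pos (by norm_num)]
          norm_num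
  have h6 : (1 : ℝ≥0∞) ≤ G + 1 / 3 := h3.trans (by gcongr)
  have h7 : (2 / 3 : ℝ≥0∞) + 1 / 3 = 1 := by
    rw [ENNReal.div_add_div_same]
    norm_num
    exact ENNReal.div_self (by norm_num) (by norm_num)
  have h8 : (2 / 3 : ℝ≥0∞) + 1 / 3 ≤ G + 1 / 3 := h7.trans_le h6
  have h9 : (1 / 3 : ℝ≥0∞) ≠ ⊤ := by
    rw [one_div]
    exact ENNReal.inv_ne_top.mpr (by norm_num)
  exact (ENNReal.add_le_add_iff_right h9).mp h8

end Vale.Agent.P321.UB
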