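import Vale.Agent.P321.UB.FinalGood
import Vale.Agent.P321.UB.Stat
import Vale.Agent.P321.UB.Iterate

/-! # Block U9: the end of the proof -/

namespace Vale.Agent.P321.UB

open Complex Finset
open scoped unitInterval ENNReal

theorem seqS_eq_sum (z : ℂ) (f : ℕ → ℂ) (i : ℕ) :
    seqS z f (i + 1) = ∑ j ∈ range (i + 1), z ^ (i - j) * f j := by
  induction i with
  | zero => simp [seqS]
  | succ i ih =>
    have h : seqS z f (i + 1 + 1) = z * seqS z f (i + 1) + f (i + 1) := rfl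
    rw [h, ih, Finset.sum_range_succ _ (i + 1), Finset.mul_sum]
    congr 1
    · refine Finset.sum_congr rfl fun j hj => ?_
      have hj' : j ≤ i := by
        have := Finset.mem_range.1 hj
        omega
      rw [show i + 1 - j = (i - j) + 1 by omega, pow_succ]
      ring
    · simp

/-- The closing sum: with `z = e^s` the difference of the two values is `e^{s (n - i1)}` times
`NN`. -/
theorem seqS_sub_eq {n i1 : ℕ} (hi : i1 ≤ n) (s : ℂ) {f f' : ℕ → ℂ}
    (heq : ∀ i < i1, f i = f' i) :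
    seqS (cexp s) f (n + 1) - seqS (cexp s) f' (n + 1) =
      cexp (s * ((n : ℂ) - i1)) * NN n i1 f f' s := by
  rw [seqS_eq_sum, seqS_eq_sum, ← Finset.sum_sub_distrib]
  have hn : n + 1 = i1 + (n + 1 - i1) := by omega
  unfold NN expSum dif
  conv_lhs => rw [hn]
  rw [Finset.sum_range_add, Finset.mul_sum]
  have h0 : ∑ x ∈ range i1, (cexp s ^ (n - x) * f x - cexp s ^ (n - x) * f' x) = 0 := by
    refine Finset.sum_eq_zero fun j hj => ?_
    rw [heq j (Finset.mem_range.1 hj), sub_self]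
  rw [h0, zero_add]
  refine Finset.sum_congr rfl fun k hk => ?_
  have hk' : i1 + k ≤ n := by
    have := Finset.mem_range.1 hk
    omega
  have h1 : cexp s ^ (n - (i1 + k)) = cexp (s * ((n : ℂ) - i1)) * cexp (-s * k) := by
    rw [← Complex.exp_nat_mul, ← Complex.exp_add]
    congr 1
    rw [Nat.cast_sub hk']
    push_cast
    ring
  rw [h1]
  ring

theorem sq_full (x : List Bool) (τ : List Bool → ℂ) : sq x τ x.length = τ x := by
  simp [sq]

theorem gap_of_good {x x' : List Bool} {i1 : ℕ} (hl : x.length = x'.length)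
    (hi : i1 ≤ x.length) (hi1 : 1 ≤ i1) (heq : ∀ τ, ∀ i < i1, sq x τ i = sq x' τ i)
    {p κ l : ℝ} (hp : 0 < p) (hp1 : p ≤ 1) (hκ : 0 < κ) (hκn : κ ≤ p / (100 * x.length))
    (hl1 : 1 ≤ l) (hn : (x.length : ℝ) + 1 ≤ Real.exp l) (hpl : 1 / p ≤ Real.exp l)
    (h : Good x x' i1 p κ l) :
    ∃ Φ : List Bool → ℂ, (∀ u, u.length ≤ x.length → ‖Φ u‖ ≤ 1) ∧
      Real.exp (-6 * l) ≤ ‖FE p Φ x - FE p Φ x'‖ := by
  obtain ⟨τ, hτ, s, hsre, hsim, hNN⟩ := h
  set n := x.length with hndef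
  have hn1 : 1 ≤ n := hi1.trans hi
  have hnR : (1 : ℝ) ≤ n := by exact_mod_cast hn1
  have hnpos : (0 : ℝ) < n := by linarith
  set z : ℂ := cexp s with hz
  -- size of `s` and `z - 1`
  have hκn' : κ * n ≤ p / 100 := by
    have h2 : κ * (100 * n) ≤ p := by
      rwa [le_div_iff₀ (by positivity)] at hκn
    linarith
  have hκ1 : κ ≤ 1 / 100 := by nlinarith
  have hs : ‖s‖ ≤ 51 * κ := by
    have h1 := Complex.norm_le_abs_re_add_abs_im s
    rw [hsre, abs_of_pos hκ] at h1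
    linarith
  have hs1 : ‖s‖ ≤ 1 := by linarith
  have hz1 : ‖z - 1‖ ≤ 102 * κ := by
    have h1 := Complex.norm_exp_sub_one_le hs1
    linarith
  have hznorm : ‖z‖ ≤ 1.1 := by
    rw [hz, Complex.norm_exp, hsre]
    have h1 := Real.exp_bound_div_one_sub_of_interval (x := κ) hκ.le (by linarith)
    refine h1.trans ?_
    rw [div_le_iff₀ (by linarith)]
    linarith
  have hpn : ‖(p : ℂ)‖ = p := norm_ofReal_nonneg hp.le
  have hq : ‖(z - 1 + p) / p‖ ≤ 1 + 102 * κ / p := by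
    rw [norm_div, hpn, div_le_iff₀ hp]
    calc ‖z - 1 + p‖ ≤ ‖z - 1‖ + ‖(p : ℂ)‖ := norm_add_le _ _
      _ ≤ 102 * κ + p := by rw [hpn]; linarith
      _ = (1 + 102 * κ / p) * p := by field_simp; ring
  have hqn : ‖(z - 1 + p) / p‖ ^ n ≤ 3 := by
    have h1 : (102 * κ / p) * n ≤ 1.02 := by
      rw [div_mul_eq_mul_div, div_le_iff₀ hp]
      nlinarith
    calc ‖(z - 1 + p) / p‖ ^ n ≤ (1 + 102 * κ / p) ^ n :=
          pow_le_pow_left₀ (norm_nonneg _) hq n
      _ ≤ (Real.exp (102 * κ / p)) ^ n := by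
          refine pow_le_pow_left₀ (by positivity) ?_ n
          have := Real.add_one_le_exp (102 * κ / p)
          linarith
      _ = Real.exp ((102 * κ / p) * n) := by
          rw [← Real.exp_nat_mul]; congr 1; ring
      _ ≤ Real.exp 1.02 := Real.exp_le_exp.2 h1
      _ ≤ 3 := by
          have e1 : Real.exp 1.02 = Real.exp 1 * Real.exp 0.02 := by
            rw [← Real.exp_add]; norm_num
          have e2 := Real.exp_one_lt_d9
          have e3 : Real.exp 0.02 ≤ 1.03 := by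
            have h3 := Real.exp_bound_div_one_sub_of_interval (x := 0.02) (by norm_num) (by norm_num)
            refine h3.trans (by norm_num)
          rw [e1]
          have e4 : (0 : ℝ) < Real.exp 0.02 := Real.exp_pos _
          nlinarith
  -- the two tests
  obtain ⟨Φ0, hΦ0, hF0⟩ := hτ
  have hτ' : IsTest n p (Real.exp l) τ := ⟨Φ0, hΦ0, hF0⟩
  obtain ⟨Φ1, hΦ1, hF1⟩ := IsTest.sz_near (z := z) hp (Real.exp_pos l).le (by norm_num : (1 : ℝ) ≤ 3)
    hqn hτ'
  set B : ℝ := Real.exp l with hB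
  have hBpos : 0 < B := Real.exp_pos l
  have hB1 : 1 ≤ B := by
    rw [hB]
    have := Real.add_one_le_exp l
    linarith
  set B' : ℝ := 1.1 * (3 * (n * B / p)) + B with hB'
  have hB'pos : 0 < B' := by positivity
  refine ⟨fun u => ((1 / B' : ℝ) : ℂ) * z * Φ1 u + ((1 / B' : ℝ) : ℂ) * Φ0 u, fun u hu => ?_, ?_⟩
  · have h1 := hΦ1 u hu
    have h0 := hΦ0 u hu
    have hc : ‖((1 / B' : ℝ) : ℂ)‖ = 1 / B' := norm_ofReal_nonneg (by positivity)
    calc ‖((1 / B' : ℝ) : ℂ) * z * Φ1 u + ((1 / B' : ℝ) : ℂ) * Φ0 u‖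
        ≤ ‖((1 / B' : ℝ) : ℂ) * z * Φ1 u‖ + ‖((1 / B' : ℝ) : ℂ) * Φ0 u‖ := norm_add_le _ _
      _ = (1 / B') * (‖z‖ * ‖Φ1 u‖ + ‖Φ0 u‖) := by
          rw [norm_mul, norm_mul, norm_mul, hc]; ring
      _ ≤ (1 / B') * (1.1 * (3 * (n * B / p)) + B) := by
          have hpos : (0 : ℝ) ≤ 1 / B' := by positivity
          gcongr
      _ = 1 := by rw [← hB']; field_simp
  · have hx' : x'.length ≤ n := by rw [← hl]
    have e1 : FE p (fun u => ((1 / B' : ℝ) : ℂ) * z * Φ1 u + ((1 / B' : ℝ) : ℂ) * Φ0 u) x =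
        ((1 / B' : ℝ) : ℂ) * (z * Sz z τ x + τ x) := by
      rw [FE_lin, hF1 x le_rfl, hF0 x le_rfl]; ring
    have e2 : FE p (fun u => ((1 / B' : ℝ) : ℂ) * z * Φ1 u + ((1 / B' : ℝ) : ℂ) * Φ0 u) x' =
        ((1 / B' : ℝ) : ℂ) * (z * Sz z τ x' + τ x') := by
      rw [FE_lin, hF1 x' hx', hF0 x' hx']; ring
    have f1 : z * Sz z τ x + τ x = seqS z (sq x τ) (n + 1) := by
      have g1 : Sz z τ x = seqS z (sq x τ) n := by
        rw [← sq_full x (Sz z τ)]
        exact sq_Sz x z τ n le_rfl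
      change _ = z * seqS z (sq x τ) n + sq x τ n
      rw [g1, ← sq_full x τ]
    have f2 : z * Sz z τ x' + τ x' = seqS z (sq x' τ) (n + 1) := by
      have g1 : Sz z τ x' = seqS z (sq x' τ) n := by
        rw [← sq_full x' (Sz z τ), hl]
        exact sq_Sz x' z τ x'.length le_rfl
      change _ = z * seqS z (sq x' τ) n + sq x' τ n
      rw [g1]
      congr 1
      rw [hl]
      exact (sq_full x' τ).symm
    have hdiff : FE p (fun u => ((1 / B' : ℝ) : ℂ) * z * Φ1 u + ((1 / B' : ℝ) : ℂ) * Φ0 u) x -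
        FE p (fun u => ((1 / B' : ℝ) : ℂ) * z * Φ1 u + ((1 / B' : ℝ) : ℂ) * Φ0 u) x' =
        ((1 / B' : ℝ) : ℂ) * (cexp (s * ((n : ℂ) - i1)) * NN n i1 (sq x τ) (sq x' τ) s) := by
      rw [e1, e2, f1, f2, ← mul_sub, seqS_sub_eq hi s (heq τ)]
    rw [hdiff, norm_mul, norm_mul, norm_ofReal_nonneg (by positivity : (0 : ℝ) ≤ 1 / B')]
    have hexp : 1 ≤ ‖cexp (s * ((n : ℂ) - i1))‖ := by
      rw [Complex.norm_exp]
      have hre : (s * ((n : ℂ) - i1)).re = κ * ((n : ℝ) - i1) := by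
        rw [Complex.mul_re]
        simp [hsre]
      rw [hre]
      have hi' : (i1 : ℝ) ≤ n := by exact_mod_cast hi
      exact Real.one_le_exp (mul_nonneg hκ.le (by linarith))
    have hB'le : B' ≤ 7 * B ^ 3 := by
      have g1 : (n : ℝ) * B / p ≤ B ^ 3 := by
        have : (n : ℝ) ≤ B := by linarith
        calc (n : ℝ) * B / p = n * B * (1 / p) := by ring
          _ ≤ B * B * B := by gcongr
          _ = B ^ 3 := by ring
      have g2 : B ≤ B ^ 3 := by nlinarith [mul_pos hBpos hBpos]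
      rw [hB']
      linarith
    have hB3 : B ^ 3 = Real.exp (3 * l) := by
      rw [hB, ← Real.exp_nat_mul]; norm_num
    have h7 : (7 : ℝ) ≤ Real.exp (2 * l) := by
      have g1 : Real.exp 2 ≤ Real.exp (2 * l) := Real.exp_le_exp.2 (by linarith)
      have g2 : Real.exp 2 = Real.exp 1 * Real.exp 1 := by
        rw [← Real.exp_add]; norm_num
      have g3 := Real.exp_one_gt_d9
      nlinarith
    have h10 : Real.exp (-6 * l) * B' ≤ Real.exp (-l) := by
      have g1 : Real.exp (-l) = Real.exp (-6 * l) * (Real.exp (2 * l) * Real.exp (3 * l)) := by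
        rw [← Real.exp_add, ← Real.exp_add]; congr 1; ring
      rw [g1]
      refine mul_le_mul_of_nonneg_left ?_ (Real.exp_pos _).le
      calc B' ≤ 7 * B ^ 3 := hB'le
        _ ≤ Real.exp (2 * l) * Real.exp (3 * l) := by
            rw [hB3]
            exact mul_le_mul_of_nonneg_right h7 (Real.exp_pos _).le
    calc Real.exp (-6 * l) ≤ (1 / B') * Real.exp (-l) := by
          rw [one_div, ← div_eq_inv_mul, le_div_iff₀ hB'pos]
          exact h10
      _ ≤ (1 / B') * (‖cexp (s * ((n : ℂ) - i1))‖ *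
            ‖NN n i1 (sq x τ) (sq x' τ) s‖) := by
          refine mul_le_mul_of_nonneg_left ?_ (by positivity)
          calc Real.exp (-l) = 1 * Real.exp (-l) := (one_mul _).symm
            _ ≤ _ := mul_le_mul hexp hNN (Real.exp_pos _).le (norm_nonneg _)

/-- The quasi-polynomial upper bound. -/
theorem quasi_poly : ∃ C : ℝ, 0 < C ∧ ∀ q : I, (q : ℝ) < 1 →
    ∃ n₀ : ℕ, ∀ n : ℕ, n₀ ≤ n →
      T q n ≤ (⌊Real.exp ((Real.log n) ^ C)⌋₊ : ℕ∞) := by
  obtain ⟨C, hC, hiter⟩ := iterate_step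
  refine ⟨C + 2, by linarith, fun q hq => ?_⟩
  have hp : 0 < 1 - (q : ℝ) := by linarith
  have hp1 : 1 - (q : ℝ) ≤ 1 := by linarith [q.2.1]
  obtain ⟨n₁, hn₁⟩ := hiter (1 - (q : ℝ)) hp hp1
  obtain ⟨n₂, hn₂⟩ := final_numerics C hC
  refine ⟨n₁ + n₂ + 3, fun n hn => ?_⟩
  have hn3 : 3 ≤ n := by omega
  have hlog : 1 ≤ Real.log n := by
    rw [Real.le_log_iff_exp_le (by positivity)]
    have h1 := Real.exp_one_lt_d9
    have h2 : (3 : ℝ) ≤ n := by exact_mod_cast hn3
    linarith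
  set L : ℝ := (Real.log n) ^ C with hL
  have hL1 : 1 ≤ L := Real.one_le_rpow hlog hC.le
  have key : T q n ≤ (⌈(16 / (Real.exp (-6 * L)) ^ 2) * (n + 2)⌉₊ : ℕ) := by
    refine T_le_of_gap q n (Real.exp_pos _) (Real.exp_le_one_iff.2 (by linarith)) ?_
    intro x x' hxx
    have hlx : (List.ofFn x).length = n := List.length_ofFn
    have hlx' : (List.ofFn x').length = n := List.length_ofFn
    have hll : (List.ofFn x).length = (List.ofFn x').length := by rw [hlx, hlx']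
    have hne : List.ofFn x ≠ List.ofFn x' := fun h => hxx (List.ofFn_injective h)
    obtain ⟨i1, h1, h2, h3, h4⟩ := exists_first_diff hll hne
    obtain ⟨κ, l, hκ, hκn, hl1, hnl, hpl, hlC, hG⟩ :=
      hn₁ n (by omega) (fun r κ l => Good (List.ofFn x) (List.ofFn x') i1 r κ l)
        (fun r l hr hr1 hl1 _ hl2 => good_base hll h1 h2 h4 hr hr1 hl1 hl2)
        (fun r κ l hr hr3 hκ hκr hl1 hnl hrl hκl hG =>
          good_step hll h2 h3 hr hr3 hκ hκr hl1 (by rw [hlx]; exact hnl) hrl hκl hG)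
    obtain ⟨Φ, hΦ, hgap⟩ := gap_of_good hll h2 h1 h3 hp hp1 hκ (by rw [hlx]; exact hκn) hl1
      (by rw [hlx]; exact hnl) hpl hG
    refine ⟨Φ, fun u hu => hΦ u (by rw [hlx]; exact hu), ?_⟩
    refine le_trans (Real.exp_le_exp.2 (by linarith)) hgap
  refine key.trans ?_
  exact_mod_cast hn₂ n (by omega) L hL1 le_rfl

end Vale.Agent.P321.UB
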