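import Vale.Agent.P321.UB.Transfer

/-! # Block U4: the product relation -/

namespace Vale.Agent.P321.UB

open Complex Finset MeasureTheory

/-! ### Facts on the kernel -/

theorem norm_gK {θ a β : ℝ} (ha : 0 < a) (hθ : 0 < θ) (η : ℝ) :
    ‖gK θ a β η‖ = (θ / Real.sqrt (2 * Real.pi * a)) *
      (Real.exp (β ^ 2 * θ ^ 2 / (2 * a)) * Real.exp (-(θ ^ 2 / (2 * a)) * η ^ 2)) := by
  unfold gK
  rw [norm_mul, Complex.norm_real, Complex.norm_exp, ← Real.exp_add, Real.norm_eq_abs,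
    abs_of_nonneg (by positivity)]
  congr 2
  have h1 : -((η : ℂ) - β * I) ^ 2 * θ ^ 2 / (2 * a) =
      (((β ^ 2 - η ^ 2) * θ ^ 2 / (2 * a) : ℝ) : ℂ) + ((2 * η * β * θ ^ 2 / (2 * a) : ℝ) : ℂ) * I := by
    have ha' : (a : ℂ) ≠ 0 := by exact_mod_cast ha.ne'
    push_cast
    field_simp
    ring_nf
    rw [Complex.I_sq]
    ring
  rw [h1, add_re, re_ofReal_mul, I_re, ofReal_re, mul_zero, add_zero]
  ring

theorem gK_mul_exp {θ a β : ℝ} (ha : 0 < a) (η x : ℝ) :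
    gK θ a β η * cexp (((β : ℂ) + η * I) * x) =
    ((θ / Real.sqrt (2 * Real.pi * a) : ℝ) : ℂ) *
      cexp ((-((θ ^ 2 / (2 * a) : ℝ) : ℂ)) * (η : ℂ) ^ 2 +
        (I * ((β * θ ^ 2 / a + x : ℝ) : ℂ)) * η +
        ((β ^ 2 * θ ^ 2 / (2 * a) + β * x : ℝ) : ℂ)) := by
  unfold gK
  rw [mul_assoc, ← Complex.exp_add]
  congr 2
  have ha' : (a : ℂ) ≠ 0 := by exact_mod_cast ha.ne'
  push_cast
  field_simp
  ring_nf
  rw [Complex.I_sq]
  ring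

theorem gK_re_lt {θ a : ℝ} (ha : 0 < a) (hθ : 0 < θ) : (-((θ ^ 2 / (2 * a) : ℝ) : ℂ)).re < 0 := by
  rw [Complex.neg_re, Complex.ofReal_re]
  have : 0 < θ ^ 2 / (2 * a) := by positivity
  linarith

theorem integrable_gK_mul_exp {θ a β : ℝ} (hθ : 0 < θ) (ha : 0 < a) (x : ℝ) :
    Integrable (fun η : ℝ => gK θ a β η * cexp (((β : ℂ) + η * I) * x)) := by
  simp_rw [gK_mul_exp ha _ x]
  exact (integrable_cexp_quadratic' (gK_re_lt ha hθ) _ _).const_mul _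

/-! ### Rewriting `NN` -/

theorem NN_eq_sum {n i1 : ℕ} (hi : i1 ≤ n) {F F' : ℕ → ℂ} (heq : ∀ i < i1, F i = F' i) (s : ℂ) :
    NN n i1 F F' s =
      ∑ i ∈ range (n + 1), (F i - F' i) * cexp (-s * (((i : ℝ) - i1 : ℝ) : ℂ)) := by
  unfold NN expSum dif
  have h1 : n + 1 = i1 + (n + 1 - i1) := by omega
  conv_rhs => rw [h1]
  rw [Finset.sum_range_add]
  have h2 : ∑ x ∈ range i1, (F x - F' x) * cexp (-s * (((x : ℝ) - i1 : ℝ) : ℂ)) = 0 := by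
    apply Finset.sum_eq_zero
    intro i hi
    rw [heq i (Finset.mem_range.mp hi), sub_self, zero_mul]
  rw [h2, zero_add]
  apply Finset.sum_congr rfl
  intro k _
  congr 3
  push_cast
  ring

theorem seqS_congr {z : ℂ} {f f' : ℕ → ℂ} {i : ℕ} (h : ∀ j < i, f j = f' j) :
    seqS z f i = seqS z f' i := by
  induction i with
  | zero => rfl
  | succ i ih =>
    show z * seqS z f i + f i = z * seqS z f' i + f' i
    rw [ih (fun j hj => h j (by omega)), h i (by omega)]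

/-- Partial sums with exponential weights, in terms of `seqS`. -/
theorem sum_exp_eq_seqS (f : ℕ → ℂ) (w : ℂ) (i1 i : ℕ) :
    ∑ j ∈ range i, f j * cexp (w * (((j : ℝ) - i1 : ℝ) : ℂ)) =
      cexp (-w) * (cexp (w * (((i : ℝ) - i1 : ℝ) : ℂ)) * seqS (cexp (-w)) f i) := by
  induction i with
  | zero => simp [seqS]
  | succ i ih =>
    rw [Finset.sum_range_succ, ih]
    have h1 : seqS (cexp (-w)) f (i + 1) = cexp (-w) * seqS (cexp (-w)) f i + f i := rfl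
    rw [h1]
    have h2 : cexp (w * ((((i + 1 : ℕ) : ℝ) - i1 : ℝ) : ℂ)) =
        cexp w * cexp (w * (((i : ℝ) - i1 : ℝ) : ℂ)) := by
      rw [← Complex.exp_add]
      congr 1
      push_cast
      ring
    rw [h2]
    have h3 : cexp (-w) * cexp w = 1 := by
      rw [← Complex.exp_add, neg_add_cancel, Complex.exp_zero]
    calc _ = (cexp (-w) * cexp w) * (cexp (-w) * (cexp (w * (((i : ℝ) - i1 : ℝ) : ℂ)) * seqS (cexp (-w)) f i) +
        f i * cexp (w * (((i : ℝ) - i1 : ℝ) : ℂ))) := by rw [h3, one_mul]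
      _ = _ := by ring

/-! ### Window as a superposition -/

theorem wnd_eq (θ κ ξ x : ℝ) :
    wnd θ κ ξ x = cexp (-((1 : ℝ) : ℂ) * (x : ℂ) ^ 2 / (2 * (θ : ℂ) ^ 2)) *
      cexp ((-(κ : ℂ) + ξ * I) * x) := by
  unfold wnd
  rw [← Complex.exp_add]
  congr 1
  push_cast
  ring

/-- The kernel integrand of the inner superposition. -/
theorem inner_integrable {θ κ ξ : ℝ} (hθ : 0 < θ) (x : ℝ) :
    Integrable (fun η : ℝ => gK θ 1 (2 * κ) η * cexp (((κ : ℂ) + (η + ξ : ℝ) * I) * x)) := by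
  have h := (integrable_gK_mul_exp (θ := θ) (a := 1) (β := 2 * κ) hθ one_pos x).mul_const
    (cexp ((-(κ : ℂ) + ξ * I) * x))
  refine h.congr (Filter.Eventually.of_forall fun η => ?_)
  simp only
  rw [mul_assoc, ← Complex.exp_add]
  congr 2
  push_cast
  ring

theorem inner_integral {θ κ ξ : ℝ} (hθ : 0 < θ) (x : ℝ) :
    ∫ η : ℝ, gK θ 1 (2 * κ) η * cexp (((κ : ℂ) + (η + ξ : ℝ) * I) * x) = wnd θ κ ξ x := by
  rw [wnd_eq, ← integral_gK (θ := θ) (a := 1) (β := 2 * κ) (x := x) hθ one_pos,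
    ← integral_mul_const]
  congr 1
  ext η
  rw [mul_assoc, ← Complex.exp_add]
  congr 2
  push_cast
  ring

/-- Partial sums of the windowed sequence. -/
noncomputable def Gs (i1 : ℕ) (θ κ ξ : ℝ) (f : ℕ → ℂ) (i : ℕ) : ℂ :=
  ∑ j ∈ range i, f j * wnd θ κ ξ ((j : ℝ) - i1)

/-- Partial sums of the exponentially weighted sequence. -/
noncomputable def Es (i1 : ℕ) (κ ξ : ℝ) (f : ℕ → ℂ) (η : ℝ) (i : ℕ) : ℂ :=
  ∑ j ∈ range i, f j * cexp (((κ : ℂ) + (η + ξ : ℝ) * I) * (((j : ℝ) - i1 : ℝ) : ℂ))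

theorem Es_integrable {θ κ ξ : ℝ} (hθ : 0 < θ) (i1 : ℕ) (f : ℕ → ℂ) (i : ℕ) :
    Integrable (fun η : ℝ => gK θ 1 (2 * κ) η * Es i1 κ ξ f η i) := by
  unfold Es
  simp_rw [Finset.mul_sum]
  apply integrable_finsetSum
  intro j _
  refine ((inner_integrable (κ := κ) (ξ := ξ) hθ ((j : ℝ) - i1)).const_mul (f j)).congr
    (Filter.Eventually.of_forall fun η => ?_)
  simp only
  ring

theorem Gs_eq {θ κ ξ : ℝ} (hθ : 0 < θ) (i1 : ℕ) (f : ℕ → ℂ) (i : ℕ) :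
    Gs i1 θ κ ξ f i = ∫ η : ℝ, gK θ 1 (2 * κ) η * Es i1 κ ξ f η i := by
  unfold Es Gs
  simp_rw [Finset.mul_sum]
  rw [integral_finsetSum]
  · apply Finset.sum_congr rfl
    intro j _
    rw [← inner_integral hθ, ← integral_const_mul]
    congr 1
    ext η
    ring
  · intro j _
    refine ((inner_integrable (κ := κ) (ξ := ξ) hθ ((j : ℝ) - i1)).const_mul (f j)).congr
      (Filter.Eventually.of_forall fun η => ?_)
    simp only
    ring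

/-- Peeling one inner variable. -/
theorem peel_inner {θ κ ξ : ℝ} (hθ : 0 < θ) (i1 N : ℕ) (f f' c c' : ℕ → ℂ) :
    ∑ i ∈ range N, (c i * Gs i1 θ κ ξ f i - c' i * Gs i1 θ κ ξ f' i) =
      ∫ η : ℝ, gK θ 1 (2 * κ) η *
        ∑ i ∈ range N, (c i * Es i1 κ ξ f η i - c' i * Es i1 κ ξ f' η i) := by
  simp_rw [Finset.mul_sum]
  have hint : ∀ i ∈ range N, Integrable (fun η : ℝ => gK θ 1 (2 * κ) η *
      (c i * Es i1 κ ξ f η i - c' i * Es i1 κ ξ f' η i)) := by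
    intro i _
    refine (((Es_integrable (κ := κ) (ξ := ξ) hθ i1 f i).const_mul (c i)).sub
      ((Es_integrable (κ := κ) (ξ := ξ) hθ i1 f' i).const_mul (c' i))).congr
      (Filter.Eventually.of_forall fun η => ?_)
    simp only [Pi.sub_apply]
    ring
  rw [integral_finsetSum _ hint]
  apply Finset.sum_congr rfl
  intro i _
  rw [Gs_eq hθ, Gs_eq hθ, ← integral_const_mul, ← integral_const_mul, ← integral_sub
    ((Es_integrable (κ := κ) (ξ := ξ) hθ i1 f i).const_mul (c i))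
    ((Es_integrable (κ := κ) (ξ := ξ) hθ i1 f' i).const_mul (c' i))]
  congr 1
  ext η
  ring

/-- Peeling the outer variable. -/
theorem peel_outer {θ a β : ℝ} (hθ : 0 < θ) (ha : 0 < a) (N : ℕ) (c : ℕ → ℂ) (x : ℕ → ℝ) :
    ∑ i ∈ range N, c i * cexp (-(a : ℂ) * (x i : ℂ) ^ 2 / (2 * θ ^ 2)) =
      ∫ η : ℝ, gK θ a β η * ∑ i ∈ range N, c i * cexp (((β : ℂ) + η * I) * x i) := by
  simp_rw [Finset.mul_sum]
  have hint : ∀ i ∈ range N, Integrable (fun η : ℝ => gK θ a β η *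
      (c i * cexp (((β : ℂ) + η * I) * x i))) := by
    intro i _
    refine ((integrable_gK_mul_exp (β := β) hθ ha (x i)).const_mul (c i)).congr
      (Filter.Eventually.of_forall fun η => ?_)
    simp only
    ring
  rw [integral_finsetSum _ hint]
  apply Finset.sum_congr rfl
  intro i _
  rw [← integral_gK (β := β) hθ ha, ← integral_const_mul]
  congr 1
  ext η
  ring

/-- Outer average bound. -/
theorem outer_bound {n i1 : ℕ} {κ θ a b X Y R Ξ : ℝ} (hi : i1 ≤ n) (hθ : 0 < θ) (ha : 0 < a)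
    (hb : 0 ≤ b) (hX : 0 ≤ X) (hY : 0 ≤ Y) {F F' : ℕ → ℂ} (heq : ∀ i < i1, F i = F' i)
    (hY1 : ∀ s : ℂ, s.re = κ → ‖NN n i1 F F' s‖ ≤ Y)
    (hΞ : |Ξ| + b ≤ R * κ)
    (hX1 : ∀ s : ℂ, s.re = κ → |s.im| ≤ R * κ → ‖NN n i1 F F' s‖ ≤ X) :
    ‖∑ i ∈ range (n + 1), (F i - F' i) *
      cexp ((((3 - 2 * a) * κ : ℝ) + Ξ * I) * (((i : ℝ) - i1 : ℝ) : ℂ)) *
      cexp (-(a : ℂ) * (((i : ℝ) - i1 : ℝ) : ℂ) ^ 2 / (2 * θ ^ 2))‖ ≤
      Real.exp (((2 * a - 4) * κ) ^ 2 * θ ^ 2 / (2 * a)) *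
        (X + Real.sqrt 2 * Real.exp (-(b ^ 2 * θ ^ 2) / (4 * a)) * Y) := by
  rw [peel_outer (β := (2 * a - 4) * κ) hθ ha]
  have hker : ∀ η : ℝ, ∑ i ∈ range (n + 1), ((F i - F' i) *
      cexp ((((3 - 2 * a) * κ : ℝ) + Ξ * I) * (((i : ℝ) - i1 : ℝ) : ℂ))) *
      cexp (((((2 * a - 4) * κ : ℝ) : ℂ) + η * I) * (((i : ℝ) - i1 : ℝ) : ℂ)) =
      NN n i1 F F' ((κ : ℂ) - ((Ξ + η : ℝ) : ℂ) * I) := by
    intro η
    rw [NN_eq_sum hi heq]
    apply Finset.sum_congr rfl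
    intro i _
    rw [mul_assoc, ← Complex.exp_add]
    congr 2
    push_cast
    ring
  simp_rw [hker]
  apply norm_integral_gK_mul_le hθ ha hb hX hY
  · intro η hη
    apply hX1
    · simp
    · simp only [sub_im, ofReal_im, mul_im, ofReal_re, I_im, mul_one, I_re, mul_zero, add_zero,
        zero_sub, abs_neg]
      exact (abs_add_le _ _).trans (by linarith)
  · intro η
    apply hY1
    simp

/-- The trivial averaging bound. -/
theorem norm_integral_gK_mul_le_triv {θ a β Y : ℝ} (hθ : 0 < θ) (ha : 0 < a)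
    {F : ℝ → ℂ} (hF' : ∀ η, ‖F η‖ ≤ Y) :
    ‖∫ η : ℝ, gK θ a β η * F η‖ ≤ Real.exp (β ^ 2 * θ ^ 2 / (2 * a)) * Y := by
  have hI1 : Integrable (fun η : ℝ => Real.exp (-(θ ^ 2 / (2 * a)) * η ^ 2)) :=
    integrable_exp_neg_mul_sq (by positivity)
  have hbound : ∀ η : ℝ, ‖gK θ a β η * F η‖ ≤ (θ / Real.sqrt (2 * Real.pi * a)) *
      Real.exp (β ^ 2 * θ ^ 2 / (2 * a)) * Y * Real.exp (-(θ ^ 2 / (2 * a)) * η ^ 2) := by
    intro η
    rw [norm_mul, norm_gK ha hθ η]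
    have h6 := mul_le_mul_of_nonneg_left (hF' η)
      (show 0 ≤ (θ / Real.sqrt (2 * Real.pi * a)) *
        (Real.exp (β ^ 2 * θ ^ 2 / (2 * a)) * Real.exp (-(θ ^ 2 / (2 * a)) * η ^ 2)) by positivity)
    refine h6.trans (le_of_eq ?_)
    ring
  refine (norm_integral_le_of_norm_le (hI1.const_mul _)
    (Filter.Eventually.of_forall hbound)).trans (le_of_eq ?_)
  rw [integral_const_mul, integral_gaussian]
  have h7 : θ / Real.sqrt (2 * Real.pi * a) * Real.sqrt (Real.pi / (θ ^ 2 / (2 * a))) = 1 := by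
    have h3 : Real.pi / (θ ^ 2 / (2 * a)) = (2 * Real.pi * a) / θ ^ 2 := by
      field_simp
    rw [h3, Real.sqrt_div (by positivity), Real.sqrt_sq hθ.le]
    have h4 : Real.sqrt (2 * Real.pi * a) ≠ 0 := by positivity
    field_simp
  calc _ = (θ / Real.sqrt (2 * Real.pi * a) * Real.sqrt (Real.pi / (θ ^ 2 / (2 * a)))) *
      (Real.exp (β ^ 2 * θ ^ 2 / (2 * a)) * Y) := by ring
    _ = _ := by rw [h7, one_mul]

/-- Outer average, trivial bound. -/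
theorem outer_bound_triv {n i1 : ℕ} {κ θ a Y Ξ : ℝ} (hi : i1 ≤ n) (hθ : 0 < θ) (ha : 0 < a)
    {F F' : ℕ → ℂ} (heq : ∀ i < i1, F i = F' i)
    (hY1 : ∀ s : ℂ, s.re = κ → ‖NN n i1 F F' s‖ ≤ Y) :
    ‖∑ i ∈ range (n + 1), (F i - F' i) *
      cexp ((((3 - 2 * a) * κ : ℝ) + Ξ * I) * (((i : ℝ) - i1 : ℝ) : ℂ)) *
      cexp (-(a : ℂ) * (((i : ℝ) - i1 : ℝ) : ℂ) ^ 2 / (2 * θ ^ 2))‖ ≤
      Real.exp (((2 * a - 4) * κ) ^ 2 * θ ^ 2 / (2 * a)) * Y := by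
  rw [peel_outer (β := (2 * a - 4) * κ) hθ ha]
  have hker : ∀ η : ℝ, ∑ i ∈ range (n + 1), ((F i - F' i) *
      cexp ((((3 - 2 * a) * κ : ℝ) + Ξ * I) * (((i : ℝ) - i1 : ℝ) : ℂ))) *
      cexp (((((2 * a - 4) * κ : ℝ) : ℂ) + η * I) * (((i : ℝ) - i1 : ℝ) : ℂ)) =
      NN n i1 F F' ((κ : ℂ) - ((Ξ + η : ℝ) : ℂ) * I) := by
    intro η
    rw [NN_eq_sum hi heq]
    apply Finset.sum_congr rfl
    intro i _
    rw [mul_assoc, ← Complex.exp_add]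
    congr 2
    push_cast
    ring
  simp_rw [hker]
  apply norm_integral_gK_mul_le_triv hθ ha
  intro η
  apply hY1
  simp

/-- The common error factor. -/
theorem tail_le {b θ a : ℝ} (ha : 0 < a) (ha3 : a ≤ 3) :
    Real.sqrt 2 * Real.exp (-(b ^ 2 * θ ^ 2) / (4 * a)) ≤
      Real.sqrt 2 * Real.exp (-(b ^ 2 * θ ^ 2) / 12) := by
  apply mul_le_mul_of_nonneg_left _ (Real.sqrt_nonneg 2)
  apply Real.exp_le_exp.mpr
  rw [div_le_div_iff₀ (by positivity) (by norm_num)]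
  have : 0 ≤ b ^ 2 * θ ^ 2 := by positivity
  nlinarith

/-- Term with three outer factors. -/
theorem term3 {n i1 : ℕ} (hi : i1 ≤ n) {κ θ b X Y R : ℝ} (hθ : 0 < θ)
    (hb : 0 ≤ b) (hX : 0 ≤ X) (hY : 0 ≤ Y)
    {p p' q q' r r' : ℕ → ℂ} (hp : ∀ i < i1, p i = p' i) (hq : ∀ i < i1, q i = q' i)
    (hr : ∀ i < i1, r i = r' i) {ξp ξq ξr : ℝ} (hR : |ξp + ξq + ξr| + 3 * b ≤ R * κ)
    (hY1 : ∀ s : ℂ, s.re = κ →
      ‖NN n i1 (fun i => p i * q i * r i) (fun i => p' i * q' i * r' i) s‖ ≤ Y)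
    (hX1 : ∀ s : ℂ, s.re = κ → |s.im| ≤ R * κ →
      ‖NN n i1 (fun i => p i * q i * r i) (fun i => p' i * q' i * r' i) s‖ ≤ X) :
    ‖∑ i ∈ range (n + 1), ((p i * wnd θ κ ξp ((i : ℝ) - i1)) * (q i * wnd θ κ ξq ((i : ℝ) - i1)) *
        (r i * wnd θ κ ξr ((i : ℝ) - i1)) -
      (p' i * wnd θ κ ξp ((i : ℝ) - i1)) * (q' i * wnd θ κ ξq ((i : ℝ) - i1)) *
        (r' i * wnd θ κ ξr ((i : ℝ) - i1)))‖ ≤
      Real.exp (2 * κ ^ 2 * θ ^ 2) *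
        (X + (Real.sqrt 2 * Real.exp (-(b ^ 2 * θ ^ 2) / 12)) * Y) := by
  have h := outer_bound (a := 3) (Ξ := ξp + ξq + ξr) (κ := κ) (R := R) (θ := θ) (b := b) hi hθ
    (by norm_num) hb hX hY
    (F := fun i => p i * q i * r i) (F' := fun i => p' i * q' i * r' i)
    (fun i hi => by simp only [hp i hi, hq i hi, hr i hi]) hY1 (by linarith) hX1
  have hE : ∑ i ∈ range (n + 1), ((p i * wnd θ κ ξp ((i : ℝ) - i1)) *
      (q i * wnd θ κ ξq ((i : ℝ) - i1)) * (r i * wnd θ κ ξr ((i : ℝ) - i1)) -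
      (p' i * wnd θ κ ξp ((i : ℝ) - i1)) * (q' i * wnd θ κ ξq ((i : ℝ) - i1)) *
        (r' i * wnd θ κ ξr ((i : ℝ) - i1))) =
      ∑ i ∈ range (n + 1), (p i * q i * r i - p' i * q' i * r' i) *
      cexp ((((3 - 2 * 3) * κ : ℝ) + (ξp + ξq + ξr : ℝ) * I) * (((i : ℝ) - i1 : ℝ) : ℂ)) *
      cexp (-((3 : ℝ) : ℂ) * (((i : ℝ) - i1 : ℝ) : ℂ) ^ 2 / (2 * θ ^ 2)) := by
    apply Finset.sum_congr rfl
    intro i _
    have h1 : wnd θ κ ξp ((i : ℝ) - i1) * wnd θ κ ξq ((i : ℝ) - i1) * wnd θ κ ξr ((i : ℝ) - i1) =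
        cexp ((((3 - 2 * 3) * κ : ℝ) + (ξp + ξq + ξr : ℝ) * I) * (((i : ℝ) - i1 : ℝ) : ℂ)) *
        cexp (-((3 : ℝ) : ℂ) * (((i : ℝ) - i1 : ℝ) : ℂ) ^ 2 / (2 * θ ^ 2)) := by
      unfold wnd
      rw [← Complex.exp_add, ← Complex.exp_add, ← Complex.exp_add]
      congr 1
      push_cast
      ring
    rw [mul_assoc (_ - _), ← h1]
    ring
  rw [hE]
  refine h.trans ?_
  have h2 : Real.exp (((2 * 3 - 4) * κ) ^ 2 * θ ^ 2 / (2 * 3)) ≤ Real.exp (2 * κ ^ 2 * θ ^ 2) := by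
    apply Real.exp_le_exp.mpr
    have : 0 ≤ κ ^ 2 * θ ^ 2 := by positivity
    nlinarith
  apply mul_le_mul h2 _ (by positivity) (by positivity)
  have := mul_le_mul_of_nonneg_right (tail_le (b := b) (θ := θ) (a := 3) (by norm_num) le_rfl) hY
  linarith

/-- Term with two outer factors and one inner. -/
theorem term2 {n i1 : ℕ} (hi : i1 ≤ n) {κ θ b X Y R : ℝ} (hκ : 0 < κ) (hθ : 0 < θ)
    (hb : 0 ≤ b) (hX : 0 ≤ X) (hY : 0 ≤ Y)
    {p p' q q' r r' : ℕ → ℂ} (hp : ∀ i < i1, p i = p' i) (hq : ∀ i < i1, q i = q' i)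
    (hr : ∀ i < i1, r i = r' i) {ξp ξq ξr : ℝ} (hR : |ξp + ξq + ξr| + 3 * b ≤ R * κ)
    (hY1 : ∀ y : ℝ, ∀ s : ℂ, s.re = κ →
      ‖NN n i1 (fun i => p i * q i * seqS (cexp (-((κ : ℂ) + y * I))) r i)
        (fun i => p' i * q' i * seqS (cexp (-((κ : ℂ) + y * I))) r' i) s‖ ≤ Y)
    (hX1 : ∀ y : ℝ, |y| ≤ |ξr| + b → ∀ s : ℂ, s.re = κ → |s.im| ≤ R * κ →
      ‖NN n i1 (fun i => p i * q i * seqS (cexp (-((κ : ℂ) + y * I))) r i)
        (fun i => p' i * q' i * seqS (cexp (-((κ : ℂ) + y * I))) r' i) s‖ ≤ X) :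
    ‖∑ i ∈ range (n + 1), ((p i * wnd θ κ ξp ((i : ℝ) - i1)) * (q i * wnd θ κ ξq ((i : ℝ) - i1)) *
        Gs i1 θ κ ξr r i -
      (p' i * wnd θ κ ξp ((i : ℝ) - i1)) * (q' i * wnd θ κ ξq ((i : ℝ) - i1)) *
        Gs i1 θ κ ξr r' i)‖ ≤
      Real.exp (2 * κ ^ 2 * θ ^ 2) *
        (X + 2 * (Real.sqrt 2 * Real.exp (-(b ^ 2 * θ ^ 2) / 12)) * Y) := by
  set t : ℝ := Real.sqrt 2 * Real.exp (-(b ^ 2 * θ ^ 2) / 12) with ht
  have ht0 : 0 ≤ t := by positivity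
  rw [peel_inner hθ]
  -- the inner sum for fixed η
  have hin : ∀ η : ℝ, ∑ i ∈ range (n + 1), ((p i * wnd θ κ ξp ((i : ℝ) - i1)) *
      (q i * wnd θ κ ξq ((i : ℝ) - i1)) * Es i1 κ ξr r η i -
      (p' i * wnd θ κ ξp ((i : ℝ) - i1)) * (q' i * wnd θ κ ξq ((i : ℝ) - i1)) *
        Es i1 κ ξr r' η i) =
      cexp (-((κ : ℂ) + (η + ξr : ℝ) * I)) *
      ∑ i ∈ range (n + 1), (p i * q i * seqS (cexp (-((κ : ℂ) + (η + ξr : ℝ) * I))) r i -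
        p' i * q' i * seqS (cexp (-((κ : ℂ) + (η + ξr : ℝ) * I))) r' i) *
      cexp ((((3 - 2 * 2) * κ : ℝ) + (ξp + ξq + ξr + η : ℝ) * I) * (((i : ℝ) - i1 : ℝ) : ℂ)) *
      cexp (-((2 : ℝ) : ℂ) * (((i : ℝ) - i1 : ℝ) : ℂ) ^ 2 / (2 * θ ^ 2)) := by
    intro η
    rw [Finset.mul_sum]
    apply Finset.sum_congr rfl
    intro i _
    have h1 : wnd θ κ ξp ((i : ℝ) - i1) * wnd θ κ ξq ((i : ℝ) - i1) *
        cexp (((κ : ℂ) + (η + ξr : ℝ) * I) * (((i : ℝ) - i1 : ℝ) : ℂ)) =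
        cexp ((((3 - 2 * 2) * κ : ℝ) + (ξp + ξq + ξr + η : ℝ) * I) * (((i : ℝ) - i1 : ℝ) : ℂ)) *
        cexp (-((2 : ℝ) : ℂ) * (((i : ℝ) - i1 : ℝ) : ℂ) ^ 2 / (2 * θ ^ 2)) := by
      unfold wnd
      rw [← Complex.exp_add, ← Complex.exp_add, ← Complex.exp_add]
      congr 1
      push_cast
      ring
    unfold Es
    rw [sum_exp_eq_seqS, sum_exp_eq_seqS, mul_assoc (_ - _), ← h1]
    ring
  simp_rw [hin]
  have hW : ∀ η : ℝ, ‖cexp (-((κ : ℂ) + (η + ξr : ℝ) * I))‖ ≤ 1 := by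
    intro η
    rw [Complex.norm_exp]
    apply Real.exp_le_one_iff.mpr
    simp
    exact hκ.le
  have hexp : Real.exp (((2 * 2 - 4) * κ) ^ 2 * θ ^ 2 / (2 * 2)) = 1 := by
    norm_num
  have htl : Real.sqrt 2 * Real.exp (-(b ^ 2 * θ ^ 2) / (4 * 2)) ≤ t :=
    tail_le (by norm_num) (by norm_num)
  have hseq : ∀ y : ℝ, ∀ i < i1, (fun i => p i * q i * seqS (cexp (-((κ : ℂ) + y * I))) r i) i =
      (fun i => p' i * q' i * seqS (cexp (-((κ : ℂ) + y * I))) r' i) i := by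
    intro y i hi
    simp only
    rw [hp i hi, hq i hi, seqS_congr (fun j hj => hr j (by omega))]
  have hmain := norm_integral_gK_mul_le (θ := θ) (a := 1) (β := 2 * κ) (b := b)
    (X := X + t * Y) (Y := Y) hθ one_pos hb (by positivity) hY
    (F := fun η : ℝ => cexp (-((κ : ℂ) + (η + ξr : ℝ) * I)) *
      ∑ i ∈ range (n + 1), (p i * q i * seqS (cexp (-((κ : ℂ) + (η + ξr : ℝ) * I))) r i -
        p' i * q' i * seqS (cexp (-((κ : ℂ) + (η + ξr : ℝ) * I))) r' i) *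
      cexp ((((3 - 2 * 2) * κ : ℝ) + (ξp + ξq + ξr + η : ℝ) * I) * (((i : ℝ) - i1 : ℝ) : ℂ)) *
      cexp (-((2 : ℝ) : ℂ) * (((i : ℝ) - i1 : ℝ) : ℂ) ^ 2 / (2 * θ ^ 2))) ?_ ?_
  · refine hmain.trans ?_
    have h5 : Real.exp ((2 * κ) ^ 2 * θ ^ 2 / (2 * 1)) = Real.exp (2 * κ ^ 2 * θ ^ 2) := by
      congr 1
      ring
    rw [h5]
    apply mul_le_mul_of_nonneg_left _ (Real.exp_nonneg _)
    have h6 := mul_le_mul_of_nonneg_right (tail_le (b := b) (θ := θ) (a := 1) (by norm_num)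
      (by norm_num)) hY
    linarith
  · intro η hη
    rw [norm_mul]
    have h7 := outer_bound (a := 2) (Ξ := ξp + ξq + ξr + η) (κ := κ) (R := R) (θ := θ) (b := b)
      (X := X) (Y := Y) hi hθ (by norm_num) hb hX hY (hseq (η + ξr)) (hY1 (η + ξr))
      (by have := abs_add_le (ξp + ξq + ξr) η; linarith)
      (hX1 (η + ξr) (by have := abs_add_le η ξr; linarith))
    rw [hexp, one_mul] at h7
    calc _ ≤ 1 * (X + Real.sqrt 2 * Real.exp (-(b ^ 2 * θ ^ 2) / (4 * 2)) * Y) :=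
          mul_le_mul (hW η) h7 (norm_nonneg _) zero_le_one
      _ ≤ X + t * Y := by
          rw [one_mul]
          have := mul_le_mul_of_nonneg_right htl hY
          linarith
  · intro η
    rw [norm_mul]
    have h7 := outer_bound_triv (a := 2) (Ξ := ξp + ξq + ξr + η) (κ := κ) (θ := θ)
      (Y := Y) hi hθ (by norm_num) (hseq (η + ξr)) (hY1 (η + ξr))
    rw [hexp, one_mul] at h7
    calc _ ≤ 1 * Y :=
          mul_le_mul (hW η) h7 (norm_nonneg _) zero_le_one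
      _ = Y := one_mul Y

/-- Term with one outer factor and two inner ones. -/
theorem term1 {n i1 : ℕ} (hi : i1 ≤ n) {κ θ b X Y R : ℝ} (hκ : 0 < κ) (hθ : 0 < θ)
    (hb : 0 ≤ b) (hX : 0 ≤ X) (hY : 0 ≤ Y)
    {p p' q q' r r' : ℕ → ℂ} (hp : ∀ i < i1, p i = p' i) (hq : ∀ i < i1, q i = q' i)
    (hr : ∀ i < i1, r i = r' i) {ξp ξq ξr : ℝ} (hR : |ξp + ξq + ξr| + 3 * b ≤ R * κ)
    (hY1 : ∀ y y' : ℝ, ∀ s : ℂ, s.re = κ →
      ‖NN n i1 (fun i => p i * seqS (cexp (-((κ : ℂ) + y * I))) q i *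
          seqS (cexp (-((κ : ℂ) + y' * I))) r i)
        (fun i => p' i * seqS (cexp (-((κ : ℂ) + y * I))) q' i *
          seqS (cexp (-((κ : ℂ) + y' * I))) r' i) s‖ ≤ Y)
    (hX1 : ∀ y y' : ℝ, |y| ≤ |ξq| + b → |y'| ≤ |ξr| + b → ∀ s : ℂ, s.re = κ → |s.im| ≤ R * κ →
      ‖NN n i1 (fun i => p i * seqS (cexp (-((κ : ℂ) + y * I))) q i *
          seqS (cexp (-((κ : ℂ) + y' * I))) r i)
        (fun i => p' i * seqS (cexp (-((κ : ℂ) + y * I))) q' i *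
          seqS (cexp (-((κ : ℂ) + y' * I))) r' i) s‖ ≤ X) :
    ‖∑ i ∈ range (n + 1), ((p i * wnd θ κ ξp ((i : ℝ) - i1)) * Gs i1 θ κ ξq q i *
        Gs i1 θ κ ξr r i -
      (p' i * wnd θ κ ξp ((i : ℝ) - i1)) * Gs i1 θ κ ξq q' i *
        Gs i1 θ κ ξr r' i)‖ ≤
      Real.exp (2 * κ ^ 2 * θ ^ 2) ^ 3 *
        (X + 3 * (Real.sqrt 2 * Real.exp (-(b ^ 2 * θ ^ 2) / 12)) * Y) := by
  set t : ℝ := Real.sqrt 2 * Real.exp (-(b ^ 2 * θ ^ 2) / 12) with ht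
  have ht0 : 0 ≤ t := by positivity
  set E : ℝ := Real.exp (2 * κ ^ 2 * θ ^ 2) with hE
  have hE0 : 0 ≤ E := Real.exp_nonneg _
  rw [peel_inner hθ]
  have hEexp : Real.exp ((2 * κ) ^ 2 * θ ^ 2 / (2 * 1)) = E := by
    rw [hE]
    congr 1
    ring
  have hEexp' : Real.exp (((2 * 1 - 4) * κ) ^ 2 * θ ^ 2 / (2 * 1)) = E := by
    rw [hE]
    congr 1
    ring
  have htl : Real.sqrt 2 * Real.exp (-(b ^ 2 * θ ^ 2) / (4 * 1)) ≤ t :=
    tail_le (by norm_num) (by norm_num)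
  have hW : ∀ y : ℝ, ‖cexp (-((κ : ℂ) + y * I))‖ ≤ 1 := by
    intro y
    rw [Complex.norm_exp]
    apply Real.exp_le_one_iff.mpr
    simp
    exact hκ.le
  have hseq : ∀ y y' : ℝ, ∀ i < i1, (fun i => p i * seqS (cexp (-((κ : ℂ) + y * I))) q i *
        seqS (cexp (-((κ : ℂ) + y' * I))) r i) i =
      (fun i => p' i * seqS (cexp (-((κ : ℂ) + y * I))) q' i *
        seqS (cexp (-((κ : ℂ) + y' * I))) r' i) i := by
    intro y y' i hi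
    simp only
    rw [hp i hi, seqS_congr (fun j hj => hq j (by omega)),
      seqS_congr (f := r) (f' := r') (fun j hj => hr j (by omega))]
  -- second peeling
  have hpeel : ∀ η : ℝ, ∑ i ∈ range (n + 1), ((p i * wnd θ κ ξp ((i : ℝ) - i1)) *
      Gs i1 θ κ ξq q i * Es i1 κ ξr r η i -
      (p' i * wnd θ κ ξp ((i : ℝ) - i1)) * Gs i1 θ κ ξq q' i * Es i1 κ ξr r' η i) =
      ∫ ζ : ℝ, gK θ 1 (2 * κ) ζ *
      ((cexp (-((κ : ℂ) + (ζ + ξq : ℝ) * I)) * cexp (-((κ : ℂ) + (η + ξr : ℝ) * I))) *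
      ∑ i ∈ range (n + 1), (p i * seqS (cexp (-((κ : ℂ) + (ζ + ξq : ℝ) * I))) q i *
          seqS (cexp (-((κ : ℂ) + (η + ξr : ℝ) * I))) r i -
        p' i * seqS (cexp (-((κ : ℂ) + (ζ + ξq : ℝ) * I))) q' i *
          seqS (cexp (-((κ : ℂ) + (η + ξr : ℝ) * I))) r' i) *
      cexp ((((3 - 2 * 1) * κ : ℝ) + (ξp + ξq + ξr + ζ + η : ℝ) * I) *
        (((i : ℝ) - i1 : ℝ) : ℂ)) *
      cexp (-((1 : ℝ) : ℂ) * (((i : ℝ) - i1 : ℝ) : ℂ) ^ 2 / (2 * θ ^ 2))) := by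
    intro η
    have h0 : ∑ i ∈ range (n + 1), ((p i * wnd θ κ ξp ((i : ℝ) - i1)) *
      Gs i1 θ κ ξq q i * Es i1 κ ξr r η i -
      (p' i * wnd θ κ ξp ((i : ℝ) - i1)) * Gs i1 θ κ ξq q' i * Es i1 κ ξr r' η i) =
      ∑ i ∈ range (n + 1), (((p i * wnd θ κ ξp ((i : ℝ) - i1)) * Es i1 κ ξr r η i) *
      Gs i1 θ κ ξq q i -
      ((p' i * wnd θ κ ξp ((i : ℝ) - i1)) * Es i1 κ ξr r' η i) * Gs i1 θ κ ξq q' i) := by
      apply Finset.sum_congr rfl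
      intro i _
      ring
    rw [h0, peel_inner (κ := κ) (ξ := ξq) hθ i1 (n + 1) q q'
      (fun i => (p i * wnd θ κ ξp ((i : ℝ) - i1)) * Es i1 κ ξr r η i)
      (fun i => (p' i * wnd θ κ ξp ((i : ℝ) - i1)) * Es i1 κ ξr r' η i)]
    congr 1
    ext ζ
    congr 1
    rw [Finset.mul_sum]
    apply Finset.sum_congr rfl
    intro i _
    have h1 : wnd θ κ ξp ((i : ℝ) - i1) *
        (cexp (((κ : ℂ) + (ζ + ξq : ℝ) * I) * (((i : ℝ) - i1 : ℝ) : ℂ)) *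
        cexp (((κ : ℂ) + (η + ξr : ℝ) * I) * (((i : ℝ) - i1 : ℝ) : ℂ))) =
        cexp ((((3 - 2 * 1) * κ : ℝ) + (ξp + ξq + ξr + ζ + η : ℝ) * I) *
          (((i : ℝ) - i1 : ℝ) : ℂ)) *
        cexp (-((1 : ℝ) : ℂ) * (((i : ℝ) - i1 : ℝ) : ℂ) ^ 2 / (2 * θ ^ 2)) := by
      unfold wnd
      rw [← Complex.exp_add, ← Complex.exp_add, ← Complex.exp_add]
      congr 1
      push_cast
      ring
    unfold Es
    rw [sum_exp_eq_seqS, sum_exp_eq_seqS, sum_exp_eq_seqS, sum_exp_eq_seqS, mul_assoc (_ - _),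
      ← h1]
    ring
  simp_rw [hpeel]
  -- bounds of the innermost sums
  have hin_triv : ∀ η ζ : ℝ, ‖(cexp (-((κ : ℂ) + (ζ + ξq : ℝ) * I)) *
      cexp (-((κ : ℂ) + (η + ξr : ℝ) * I))) *
      ∑ i ∈ range (n + 1), (p i * seqS (cexp (-((κ : ℂ) + (ζ + ξq : ℝ) * I))) q i *
          seqS (cexp (-((κ : ℂ) + (η + ξr : ℝ) * I))) r i -
        p' i * seqS (cexp (-((κ : ℂ) + (ζ + ξq : ℝ) * I))) q' i *
          seqS (cexp (-((κ : ℂ) + (η + ξr : ℝ) * I))) r' i) *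
      cexp ((((3 - 2 * 1) * κ : ℝ) + (ξp + ξq + ξr + ζ + η : ℝ) * I) *
        (((i : ℝ) - i1 : ℝ) : ℂ)) *
      cexp (-((1 : ℝ) : ℂ) * (((i : ℝ) - i1 : ℝ) : ℂ) ^ 2 / (2 * θ ^ 2))‖ ≤ E * Y := by
    intro η ζ
    rw [norm_mul, norm_mul]
    have h7 := outer_bound_triv (a := 1) (Ξ := ξp + ξq + ξr + ζ + η) (κ := κ) (θ := θ)
      (Y := Y) hi hθ (by norm_num) (hseq (ζ + ξq) (η + ξr)) (hY1 (ζ + ξq) (η + ξr))
    rw [hEexp'] at h7
    have h8 : ‖cexp (-((κ : ℂ) + (ζ + ξq : ℝ) * I))‖ * ‖cexp (-((κ : ℂ) + (η + ξr : ℝ) * I))‖ ≤ 1 :=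
      mul_le_one₀ (hW _) (norm_nonneg _) (hW _)
    calc _ ≤ 1 * (E * Y) := mul_le_mul h8 h7 (norm_nonneg _) zero_le_one
      _ = E * Y := one_mul _
  have hin : ∀ η ζ : ℝ, |η| ≤ b → |ζ| ≤ b → ‖(cexp (-((κ : ℂ) + (ζ + ξq : ℝ) * I)) *
      cexp (-((κ : ℂ) + (η + ξr : ℝ) * I))) *
      ∑ i ∈ range (n + 1), (p i * seqS (cexp (-((κ : ℂ) + (ζ + ξq : ℝ) * I))) q i *
          seqS (cexp (-((κ : ℂ) + (η + ξr : ℝ) * I))) r i -
        p' i * seqS (cexp (-((κ : ℂ) + (ζ + ξq : ℝ) * I))) q' i *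
          seqS (cexp (-((κ : ℂ) + (η + ξr : ℝ) * I))) r' i) *
      cexp ((((3 - 2 * 1) * κ : ℝ) + (ξp + ξq + ξr + ζ + η : ℝ) * I) *
        (((i : ℝ) - i1 : ℝ) : ℂ)) *
      cexp (-((1 : ℝ) : ℂ) * (((i : ℝ) - i1 : ℝ) : ℂ) ^ 2 / (2 * θ ^ 2))‖ ≤ E * (X + t * Y) := by
    intro η ζ hη hζ
    rw [norm_mul, norm_mul]
    have h7 := outer_bound (a := 1) (Ξ := ξp + ξq + ξr + ζ + η) (κ := κ) (R := R) (θ := θ) (b := b)
      (X := X) (Y := Y) hi hθ (by norm_num) hb hX hY (hseq (ζ + ξq) (η + ξr))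
      (hY1 (ζ + ξq) (η + ξr))
      (by
        have h1 := abs_add_le (ξp + ξq + ξr + ζ) η
        have h2 := abs_add_le (ξp + ξq + ξr) ζ
        linarith)
      (hX1 (ζ + ξq) (η + ξr) (by have := abs_add_le ζ ξq; linarith)
        (by have := abs_add_le η ξr; linarith))
    rw [hEexp'] at h7
    have h8 : ‖cexp (-((κ : ℂ) + (ζ + ξq : ℝ) * I))‖ * ‖cexp (-((κ : ℂ) + (η + ξr : ℝ) * I))‖ ≤ 1 :=
      mul_le_one₀ (hW _) (norm_nonneg _) (hW _)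
    calc _ ≤ 1 * (E * (X + Real.sqrt 2 * Real.exp (-(b ^ 2 * θ ^ 2) / (4 * 1)) * Y)) :=
          mul_le_mul h8 h7 (norm_nonneg _) zero_le_one
      _ ≤ E * (X + t * Y) := by
          rw [one_mul]
          apply mul_le_mul_of_nonneg_left _ hE0
          have := mul_le_mul_of_nonneg_right htl hY
          linarith
  refine (norm_integral_gK_mul_le (θ := θ) (a := 1) (β := 2 * κ) (b := b)
    (X := E * (E * (X + t * Y) + t * (E * Y))) (Y := E * (E * Y)) hθ one_pos hb (by positivity)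
    (by positivity) ?_ ?_).trans ?_
  · intro η hη
    refine (norm_integral_gK_mul_le (θ := θ) (a := 1) (β := 2 * κ) (b := b)
      (X := E * (X + t * Y)) (Y := E * Y) hθ one_pos hb (by positivity)
      (by positivity) (fun ζ hζ => hin η ζ hη hζ) (fun ζ => hin_triv η ζ)).trans ?_
    rw [hEexp]
    apply mul_le_mul_of_nonneg_left _ hE0
    have := mul_le_mul_of_nonneg_right htl (show 0 ≤ E * Y by positivity)
    linarith
  · intro η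
    refine (norm_integral_gK_mul_le_triv (θ := θ) (a := 1) (β := 2 * κ) (Y := E * Y) hθ one_pos
      (fun ζ => hin_triv η ζ)).trans ?_
    rw [hEexp]
  · rw [hEexp]
    have h9 : E * (E * (X + t * Y) + t * (E * Y)) + Real.sqrt 2 *
        Real.exp (-(b ^ 2 * θ ^ 2) / (4 * 1)) * (E * (E * Y)) ≤
        E ^ 2 * (X + 3 * t * Y) := by
      have := mul_le_mul_of_nonneg_right htl (show 0 ≤ E * (E * Y) by positivity)
      nlinarith
    calc _ ≤ E * (E ^ 2 * (X + 3 * t * Y)) := mul_le_mul_of_nonneg_left h9 hE0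
      _ = _ := by ring

/-- Telescoping of a product of three sums. -/
theorem telescope3 (g0 g1 g2 : ℕ → ℂ) (N : ℕ) :
    (∑ i ∈ range N, g0 i) * (∑ i ∈ range N, g1 i) * (∑ i ∈ range N, g2 i) =
      ∑ i ∈ range N, (g0 i * (∑ j ∈ range i, g1 j) * (∑ j ∈ range i, g2 j) +
        g1 i * (∑ j ∈ range i, g0 j) * (∑ j ∈ range i, g2 j) +
        g2 i * (∑ j ∈ range i, g0 j) * (∑ j ∈ range i, g1 j) +
        g0 i * g1 i * (∑ j ∈ range i, g2 j) + g0 i * g2 i * (∑ j ∈ range i, g1 j) +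
        g1 i * g2 i * (∑ j ∈ range i, g0 j) + g0 i * g1 i * g2 i) := by
  induction N with
  | zero => simp
  | succ N ih =>
    rw [Finset.sum_range_succ _ N, Finset.sum_range_succ _ N, Finset.sum_range_succ _ N,
      Finset.sum_range_succ _ N, ← ih]
    ring

/-- Either the sequence itself or its `S_z`-transform, `z = e^{-(κ + i y)}`. -/
noncomputable def pick (κ : ℝ) : Option ℝ → (ℕ → ℂ) → ℕ → ℂ
  | none, f => f
  | some y, f => seqS (cexp (-((κ : ℂ) + y * I))) f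

/-- Product relation for three windowed sums. `E = e^{2κ²θ²}`, `t = √2 e^{-b²θ²/12}`. -/
theorem product_relation {n i1 : ℕ} (hi : i1 ≤ n) {κ Y θ b δ M R : ℝ} (hκ : 0 < κ) (hθ : 0 < θ)
    (hb : 0 ≤ b) (hδ : 0 ≤ δ) (hM : 0 ≤ M)
    {f f' : Fin 3 → ℕ → ℂ} (heq : ∀ m, ∀ i < i1, f m i = f' m i)
    {ξ : Fin 3 → ℝ} (hξ : ∀ m, |ξ m| + b ≤ Y) (hR : |ξ 0 + ξ 1 + ξ 2| + 3 * b ≤ R * κ)
    (hM1 : ∀ F F' : Fin 3 → ℕ → ℂ,
      (∀ m, (F m = f m ∧ F' m = f' m) ∨ ∃ w : ℂ, w.re = κ ∧ F m = seqS (cexp (-w)) (f m) ∧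
        F' m = seqS (cexp (-w)) (f' m)) →
      ∀ s : ℂ, s.re = κ →
        ‖NN n i1 (fun i => F 0 i * F 1 i * F 2 i) (fun i => F' 0 i * F' 1 i * F' 2 i) s‖ ≤ M)
    (hN : ∀ F F' : Fin 3 → ℕ → ℂ, (∀ m, Derived κ Y (f m) (f' m) (F m) (F' m)) →
      ∀ s : ℂ, s.re = κ → |s.im| ≤ R * κ →
        ‖NN n i1 (fun i => F 0 i * F 1 i * F 2 i) (fun i => F' 0 i * F' 1 i * F' 2 i) s‖ ≤ δ) :
    ‖VV n i1 θ κ (f 0) (ξ 0) * VV n i1 θ κ (f 1) (ξ 1) * VV n i1 θ κ (f 2) (ξ 2) -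
      VV n i1 θ κ (f' 0) (ξ 0) * VV n i1 θ κ (f' 1) (ξ 1) * VV n i1 θ κ (f' 2) (ξ 2)‖ ≤
      7 * Real.exp (2 * κ ^ 2 * θ ^ 2) ^ 3 *
        (δ + 7 * (Real.sqrt 2 * Real.exp (-(b ^ 2 * θ ^ 2) / 12)) * M) := by
  -- uniform hypotheses
  have hYo : ∀ o0 o1 o2 : Option ℝ, ∀ s : ℂ, s.re = κ →
      ‖NN n i1 (fun i => pick κ o0 (f 0) i * pick κ o1 (f 1) i * pick κ o2 (f 2) i)
        (fun i => pick κ o0 (f' 0) i * pick κ o1 (f' 1) i * pick κ o2 (f' 2) i) s‖ ≤ M := by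
    intro o0 o1 o2 s hs
    refine hM1 ![pick κ o0 (f 0), pick κ o1 (f 1), pick κ o2 (f 2)]
      ![pick κ o0 (f' 0), pick κ o1 (f' 1), pick κ o2 (f' 2)] ?_ s hs
    have hgen : ∀ (o : Option ℝ) (g g' : ℕ → ℂ), (pick κ o g = g ∧ pick κ o g' = g') ∨
        ∃ w : ℂ, w.re = κ ∧ pick κ o g = seqS (cexp (-w)) g ∧ pick κ o g' = seqS (cexp (-w)) g' := by
      intro o g g'
      cases o with
      | none => exact Or.inl ⟨rfl, rfl⟩
      | some y => exact Or.inr ⟨(κ : ℂ) + y * I, by simp, rfl, rfl⟩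
    intro m
    fin_cases m
    · exact hgen o0 _ _
    · exact hgen o1 _ _
    · exact hgen o2 _ _
  have hXo : ∀ o0 o1 o2 : Option ℝ, (∀ y, o0 = some y → |y| ≤ |ξ 0| + b) →
      (∀ y, o1 = some y → |y| ≤ |ξ 1| + b) → (∀ y, o2 = some y → |y| ≤ |ξ 2| + b) →
      ∀ s : ℂ, s.re = κ → |s.im| ≤ R * κ →
      ‖NN n i1 (fun i => pick κ o0 (f 0) i * pick κ o1 (f 1) i * pick κ o2 (f 2) i)
        (fun i => pick κ o0 (f' 0) i * pick κ o1 (f' 1) i * pick κ o2 (f' 2) i) s‖ ≤ δ := by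
    intro o0 o1 o2 h0 h1 h2 s hs hs'
    refine hN ![pick κ o0 (f 0), pick κ o1 (f 1), pick κ o2 (f 2)]
      ![pick κ o0 (f' 0), pick κ o1 (f' 1), pick κ o2 (f' 2)] ?_ s hs hs'
    have hgen : ∀ (o : Option ℝ) (m : Fin 3), (∀ y, o = some y → |y| ≤ |ξ m| + b) →
        Derived κ Y (f m) (f' m) (pick κ o (f m)) (pick κ o (f' m)) := by
      intro o m ho
      cases o with
      | none => exact Or.inl ⟨rfl, rfl⟩
      | some y => exact Or.inr ⟨y, (ho y rfl).trans (hξ m), rfl, rfl⟩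
    intro m
    fin_cases m
    · exact hgen o0 0 h0
    · exact hgen o1 1 h1
    · exact hgen o2 2 h2
  set t : ℝ := Real.sqrt 2 * Real.exp (-(b ^ 2 * θ ^ 2) / 12) with ht
  have ht0 : 0 ≤ t := by positivity
  set E : ℝ := Real.exp (2 * κ ^ 2 * θ ^ 2) with hE
  have hE0 : 0 ≤ E := Real.exp_nonneg _
  have hE1 : 1 ≤ E := Real.one_le_exp (by positivity)
  have hnone : ∀ m : Fin 3, ∀ y, (none : Option ℝ) = some y → |y| ≤ |ξ m| + b := by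
    intro m y h
    cases h
  have hsome : ∀ m : Fin 3, ∀ y : ℝ, |y| ≤ |ξ m| + b → ∀ y', some y = some y' →
      |y'| ≤ |ξ m| + b := by
    intro m y h y' h'
    cases h'
    exact h
  have hR1 : |ξ 1 + ξ 0 + ξ 2| + 3 * b ≤ R * κ := by
    rw [show ξ 1 + ξ 0 + ξ 2 = ξ 0 + ξ 1 + ξ 2 by ring]; exact hR
  have hR2 : |ξ 2 + ξ 0 + ξ 1| + 3 * b ≤ R * κ := by
    rw [show ξ 2 + ξ 0 + ξ 1 = ξ 0 + ξ 1 + ξ 2 by ring]; exact hR
  have hR3 : |ξ 0 + ξ 2 + ξ 1| + 3 * b ≤ R * κ := by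
    rw [show ξ 0 + ξ 2 + ξ 1 = ξ 0 + ξ 1 + ξ 2 by ring]; exact hR
  have hR4 : |ξ 1 + ξ 2 + ξ 0| + 3 * b ≤ R * κ := by
    rw [show ξ 1 + ξ 2 + ξ 0 = ξ 0 + ξ 1 + ξ 2 by ring]; exact hR
  -- the seven terms
  have T3 := term3 (κ := κ) (θ := θ) (b := b) (X := δ) (Y := M) (R := R) hi hθ hb hδ hM
    (heq 0) (heq 1) (heq 2) hR (hYo none none none)
    (hXo none none none (hnone 0) (hnone 1) (hnone 2))
  have T2a := term2 (κ := κ) (θ := θ) (b := b) (X := δ) (Y := M) (R := R) hi hκ hθ hb hδ hM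
    (heq 0) (heq 1) (heq 2) hR (fun y => hYo none none (some y))
    (fun y hy => hXo none none (some y) (hnone 0) (hnone 1) (hsome 2 y hy))
  have T2b := term2 (κ := κ) (θ := θ) (b := b) (X := δ) (Y := M) (R := R) hi hκ hθ hb hδ hM
    (heq 0) (heq 2) (heq 1) hR3
    (fun y s hs => by
      have h := hYo none (some y) none s hs
      simp only [pick] at h
      simpa only [mul_right_comm] using h)
    (fun y hy s hs hs' => by
      have h := hXo none (some y) none (hnone 0) (hsome 1 y hy) (hnone 2) s hs hs'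
      simp only [pick] at h
      simpa only [mul_right_comm] using h)
  have T2c := term2 (κ := κ) (θ := θ) (b := b) (X := δ) (Y := M) (R := R) hi hκ hθ hb hδ hM
    (heq 1) (heq 2) (heq 0) hR4
    (fun y s hs => by
      have h := hYo (some y) none none s hs
      simp only [pick] at h
      convert h using 4 <;> ring)
    (fun y hy s hs hs' => by
      have h := hXo (some y) none none (hsome 0 y hy) (hnone 1) (hnone 2) s hs hs'
      simp only [pick] at h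
      convert h using 4 <;> ring)
  have T1a := term1 (κ := κ) (θ := θ) (b := b) (X := δ) (Y := M) (R := R) hi hκ hθ hb hδ hM
    (heq 0) (heq 1) (heq 2) hR (fun y y' => hYo none (some y) (some y'))
    (fun y y' hy hy' => hXo none (some y) (some y') (hnone 0) (hsome 1 y hy) (hsome 2 y' hy'))
  have T1b := term1 (κ := κ) (θ := θ) (b := b) (X := δ) (Y := M) (R := R) hi hκ hθ hb hδ hM
    (heq 1) (heq 0) (heq 2) hR1
    (fun y y' s hs => by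
      have h := hYo (some y) none (some y') s hs
      simp only [pick] at h
      convert h using 4 <;> ring)
    (fun y y' hy hy' s hs hs' => by
      have h := hXo (some y) none (some y') (hsome 0 y hy) (hnone 1) (hsome 2 y' hy') s hs hs'
      simp only [pick] at h
      convert h using 4 <;> ring)
  have T1c := term1 (κ := κ) (θ := θ) (b := b) (X := δ) (Y := M) (R := R) hi hκ hθ hb hδ hM
    (heq 2) (heq 0) (heq 1) hR2
    (fun y y' s hs => by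
      have h := hYo (some y) (some y') none s hs
      simp only [pick] at h
      convert h using 4 <;> ring)
    (fun y y' hy hy' s hs hs' => by
      have h := hXo (some y) (some y') none (hsome 0 y hy) (hsome 1 y' hy') (hnone 2) s hs hs'
      simp only [pick] at h
      convert h using 4 <;> ring)
  -- decomposition
  have hdec : VV n i1 θ κ (f 0) (ξ 0) * VV n i1 θ κ (f 1) (ξ 1) * VV n i1 θ κ (f 2) (ξ 2) -
      VV n i1 θ κ (f' 0) (ξ 0) * VV n i1 θ κ (f' 1) (ξ 1) * VV n i1 θ κ (f' 2) (ξ 2) =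
    (∑ i ∈ range (n + 1), ((f 0 i * wnd θ κ (ξ 0) ((i : ℝ) - i1)) * Gs i1 θ κ (ξ 1) (f 1) i *
        Gs i1 θ κ (ξ 2) (f 2) i -
      (f' 0 i * wnd θ κ (ξ 0) ((i : ℝ) - i1)) * Gs i1 θ κ (ξ 1) (f' 1) i *
        Gs i1 θ κ (ξ 2) (f' 2) i)) +
    (∑ i ∈ range (n + 1), ((f 1 i * wnd θ κ (ξ 1) ((i : ℝ) - i1)) * Gs i1 θ κ (ξ 0) (f 0) i *
        Gs i1 θ κ (ξ 2) (f 2) i -
      (f' 1 i * wnd θ κ (ξ 1) ((i : ℝ) - i1)) * Gs i1 θ κ (ξ 0) (f' 0) i *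
        Gs i1 θ κ (ξ 2) (f' 2) i)) +
    (∑ i ∈ range (n + 1), ((f 2 i * wnd θ κ (ξ 2) ((i : ℝ) - i1)) * Gs i1 θ κ (ξ 0) (f 0) i *
        Gs i1 θ κ (ξ 1) (f 1) i -
      (f' 2 i * wnd θ κ (ξ 2) ((i : ℝ) - i1)) * Gs i1 θ κ (ξ 0) (f' 0) i *
        Gs i1 θ κ (ξ 1) (f' 1) i)) +
    (∑ i ∈ range (n + 1), ((f 0 i * wnd θ κ (ξ 0) ((i : ℝ) - i1)) *
        (f 1 i * wnd θ κ (ξ 1) ((i : ℝ) - i1)) * Gs i1 θ κ (ξ 2) (f 2) i -
      (f' 0 i * wnd θ κ (ξ 0) ((i : ℝ) - i1)) * (f' 1 i * wnd θ κ (ξ 1) ((i : ℝ) - i1)) *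
        Gs i1 θ κ (ξ 2) (f' 2) i)) +
    (∑ i ∈ range (n + 1), ((f 0 i * wnd θ κ (ξ 0) ((i : ℝ) - i1)) *
        (f 2 i * wnd θ κ (ξ 2) ((i : ℝ) - i1)) * Gs i1 θ κ (ξ 1) (f 1) i -
      (f' 0 i * wnd θ κ (ξ 0) ((i : ℝ) - i1)) * (f' 2 i * wnd θ κ (ξ 2) ((i : ℝ) - i1)) *
        Gs i1 θ κ (ξ 1) (f' 1) i)) +
    (∑ i ∈ range (n + 1), ((f 1 i * wnd θ κ (ξ 1) ((i : ℝ) - i1)) *
        (f 2 i * wnd θ κ (ξ 2) ((i : ℝ) - i1)) * Gs i1 θ κ (ξ 0) (f 0) i -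
      (f' 1 i * wnd θ κ (ξ 1) ((i : ℝ) - i1)) * (f' 2 i * wnd θ κ (ξ 2) ((i : ℝ) - i1)) *
        Gs i1 θ κ (ξ 0) (f' 0) i)) +
    (∑ i ∈ range (n + 1), ((f 0 i * wnd θ κ (ξ 0) ((i : ℝ) - i1)) *
        (f 1 i * wnd θ κ (ξ 1) ((i : ℝ) - i1)) * (f 2 i * wnd θ κ (ξ 2) ((i : ℝ) - i1)) -
      (f' 0 i * wnd θ κ (ξ 0) ((i : ℝ) - i1)) * (f' 1 i * wnd θ κ (ξ 1) ((i : ℝ) - i1)) *
        (f' 2 i * wnd θ κ (ξ 2) ((i : ℝ) - i1)))) := by
    unfold VV Gs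
    rw [telescope3, telescope3]
    simp only [← Finset.sum_sub_distrib, ← Finset.sum_add_distrib]
    apply Finset.sum_congr rfl
    intro i _
    ring
  rw [hdec]
  have hEpow : E ≤ E ^ 3 := le_self_pow₀ hE1 (by norm_num)
  have htM : 0 ≤ t * M := by positivity
  have hu1 : E * (δ + t * M) ≤ E ^ 3 * (δ + t * M) :=
    mul_le_mul_of_nonneg_right hEpow (by positivity)
  have hu2 : E * (δ + 2 * t * M) ≤ E ^ 3 * (δ + 2 * t * M) :=
    mul_le_mul_of_nonneg_right hEpow (by positivity)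
  have hE3 : 0 ≤ E ^ 3 * (t * M) := by positivity
  refine (norm_add_le_of_le (norm_add_le_of_le (norm_add_le_of_le (norm_add_le_of_le
    (norm_add_le_of_le (norm_add_le_of_le T1a T1b) T1c) T2a) T2b) T2c) T3).trans ?_
  nlinarith

end Vale.Agent.P321.UB
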