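import Vale.Agent.P321.UB.Basic

/-! # Block U8a': small lemmas on `VV`, `NN`, `seqS` -/

namespace Vale.Agent.P321.UB

open Complex Finset

theorem conj_wnd (θ κ ξ x : ℝ) : (starRingEnd ℂ) (wnd θ κ ξ x) = wnd θ κ (-ξ) x := by
  unfold wnd
  rw [← Complex.exp_conj]
  congr 1
  simp [Complex.conj_ofReal, map_ofNat]

theorem VV_conj (n i1 : ℕ) (θ κ ξ : ℝ) (f : ℕ → ℂ) :
    VV n i1 θ κ (fun i => (starRingEnd ℂ) (f i)) (-ξ) = (starRingEnd ℂ) (VV n i1 θ κ f ξ) := by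
  unfold VV
  rw [map_sum]
  refine Finset.sum_congr rfl fun i _ => ?_
  rw [map_mul, conj_wnd]

theorem wnd_eq_ofReal (θ κ x : ℝ) :
    wnd θ κ 0 x = ((Real.exp (-x ^ 2 / (2 * θ ^ 2) - κ * x) : ℝ) : ℂ) := by
  unfold wnd
  push_cast
  congr 1
  ring

theorem norm_wnd' (θ κ ξ x : ℝ) :
    ‖wnd θ κ ξ x‖ = Real.exp (-x ^ 2 / (2 * θ ^ 2) - κ * x) := by
  have e : wnd θ κ ξ x = ((Real.exp (-x ^ 2 / (2 * θ ^ 2) - κ * x) : ℝ) : ℂ) *
      cexp ((ξ * x : ℝ) * I) := by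
    unfold wnd
    push_cast
    rw [← Complex.exp_add]
    congr 1
    ring
  rw [e, norm_mul, Complex.norm_exp_ofReal_mul_I, mul_one, Complex.norm_real,
    Real.norm_of_nonneg (Real.exp_pos _).le]

theorem one_le_norm_VV_one {n i1 : ℕ} (hi : i1 ≤ n) (θ κ : ℝ) :
    1 ≤ ‖VV n i1 θ κ (fun _ => 1) 0‖ := by
  have e : VV n i1 θ κ (fun _ => 1) 0 =
      ((∑ i ∈ range (n + 1),
        Real.exp (-((i : ℝ) - i1) ^ 2 / (2 * θ ^ 2) - κ * ((i : ℝ) - i1)) : ℝ) : ℂ) := by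
    unfold VV
    rw [Complex.ofReal_sum]
    refine Finset.sum_congr rfl fun i _ => ?_
    rw [one_mul, wnd_eq_ofReal]
  rw [e, Complex.norm_real, Real.norm_of_nonneg (Finset.sum_nonneg fun i _ => (Real.exp_pos _).le)]
  have hmem : i1 ∈ range (n + 1) := Finset.mem_range.2 (by omega)
  have h1 := Finset.single_le_sum (f := fun i : ℕ =>
    Real.exp (-((i : ℝ) - i1) ^ 2 / (2 * θ ^ 2) - κ * ((i : ℝ) - i1)))
    (fun i _ => (Real.exp_pos _).le) hmem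
  simpa using h1

theorem norm_wnd_le' {θ κ ξ x : ℝ} (hθ : 0 < θ) :
    ‖wnd θ κ ξ x‖ ≤ Real.exp (κ ^ 2 * θ ^ 2 / 2) := by
  rw [norm_wnd']
  apply Real.exp_le_exp.2
  have h2 : 0 < 2 * θ ^ 2 := by positivity
  have e : κ ^ 2 * θ ^ 2 / 2 - (-x ^ 2 / (2 * θ ^ 2) - κ * x) =
      (x + κ * θ ^ 2) ^ 2 / (2 * θ ^ 2) := by
    field_simp
    ring
  have h3 : 0 ≤ (x + κ * θ ^ 2) ^ 2 / (2 * θ ^ 2) := by positivity
  linarith

theorem norm_VV_le {n i1 : ℕ} {θ κ ξ B : ℝ} (hθ : 0 < θ) {f : ℕ → ℂ} (hf : ∀ i ≤ n, ‖f i‖ ≤ B) :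
    ‖VV n i1 θ κ f ξ‖ ≤ (n + 1) * B * Real.exp (κ ^ 2 * θ ^ 2 / 2) := by
  have hB : 0 ≤ B := (norm_nonneg _).trans (hf 0 (Nat.zero_le _))
  unfold VV
  calc ‖∑ i ∈ range (n + 1), f i * wnd θ κ ξ ((i : ℝ) - i1)‖
      ≤ ∑ i ∈ range (n + 1), ‖f i * wnd θ κ ξ ((i : ℝ) - i1)‖ := norm_sum_le _ _
    _ ≤ ∑ _i ∈ range (n + 1), B * Real.exp (κ ^ 2 * θ ^ 2 / 2) := by
        refine Finset.sum_le_sum fun i hi => ?_
        rw [norm_mul]
        have hi' : i ≤ n := by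
          have := Finset.mem_range.1 hi; omega
        exact mul_le_mul (hf i hi') (norm_wnd_le' hθ) (norm_nonneg _) hB
    _ = (n + 1) * B * Real.exp (κ ^ 2 * θ ^ 2 / 2) := by
        rw [Finset.sum_const, Finset.card_range, nsmul_eq_mul]
        push_cast
        ring

theorem VV_sub {n i1 : ℕ} (hi : i1 ≤ n) {θ κ ξ : ℝ} {f f' : ℕ → ℂ} (heq : ∀ i < i1, f i = f' i) :
    VV n i1 θ κ f ξ - VV n i1 θ κ f' ξ =
      expSum (n + 1 - i1) (fun k => dif i1 f f' k * cexp (-(k : ℂ) ^ 2 / (2 * θ ^ 2)))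
        ((κ : ℂ) - ξ * I) := by
  unfold VV expSum
  rw [← Finset.sum_sub_distrib]
  have hn : n + 1 = i1 + (n + 1 - i1) := by omega
  rw [hn, Finset.sum_range_add]
  have h0 : ∑ i ∈ range i1, (f i * wnd θ κ ξ ((i : ℝ) - i1) - f' i * wnd θ κ ξ ((i : ℝ) - i1)) = 0 := by
    refine Finset.sum_eq_zero fun i hi' => ?_
    rw [heq i (Finset.mem_range.1 hi'), sub_self]
  rw [h0, zero_add]
  have hn' : i1 + (n + 1 - i1) - i1 = n + 1 - i1 := by omega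
  rw [hn']
  refine Finset.sum_congr rfl fun k _ => ?_
  simp only [dif]
  rw [← sub_mul, mul_assoc]
  congr 1
  unfold wnd
  rw [← Complex.exp_add]
  congr 1
  push_cast
  ring

theorem norm_seqS_le_mul {n : ℕ} {z : ℂ} (hz : ‖z‖ ≤ 1) {f : ℕ → ℂ} {B : ℝ}
    (hf : ∀ i ≤ n, ‖f i‖ ≤ B) : ∀ i ≤ n, ‖seqS z f i‖ ≤ i * B := by
  intro i
  induction i with
  | zero => intro _; simp [seqS]
  | succ i ih =>
    intro hi
    have h1 := ih (by omega)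
    have h2 := hf i (by omega)
    simp only [seqS]
    calc ‖z * seqS z f i + f i‖ ≤ ‖z * seqS z f i‖ + ‖f i‖ := norm_add_le _ _
      _ ≤ 1 * (i * B) + B := by
          rw [norm_mul]
          have : ‖z‖ * ‖seqS z f i‖ ≤ 1 * (i * B) :=
            mul_le_mul hz h1 (norm_nonneg _) zero_le_one
          linarith
      _ = ((i + 1 : ℕ) : ℝ) * B := by push_cast; ring

theorem norm_seqS_le {n : ℕ} {z : ℂ} (hz : ‖z‖ ≤ 1) {f : ℕ → ℂ} {B : ℝ} (hB : 0 ≤ B)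
    (hf : ∀ i ≤ n, ‖f i‖ ≤ B) : ∀ i ≤ n, ‖seqS z f i‖ ≤ n * B := by
  intro i hi
  refine (norm_seqS_le_mul hz hf i hi).trans ?_
  have : (i : ℝ) ≤ n := by exact_mod_cast hi
  exact mul_le_mul_of_nonneg_right this hB

theorem norm_expSum_le {m : ℕ} {a : ℕ → ℂ} {A : ℝ} (ha : ∀ k < m, ‖a k‖ ≤ A) {s : ℂ}
    (hs : 0 ≤ s.re) : ‖expSum m a s‖ ≤ m * A := by
  unfold expSum
  calc ‖∑ k ∈ range m, a k * cexp (-s * k)‖ ≤ ∑ k ∈ range m, ‖a k * cexp (-s * k)‖ :=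
        norm_sum_le _ _
    _ ≤ ∑ _k ∈ range m, A := by
        refine Finset.sum_le_sum fun k hk => ?_
        have hk' := ha k (Finset.mem_range.1 hk)
        have he : ‖cexp (-s * k)‖ ≤ 1 := by
          rw [Complex.norm_exp]
          apply Real.exp_le_one_iff.2
          have e : (-s * (k : ℂ)).re = -(s.re * k) := by simp
          rw [e]
          have : 0 ≤ s.re * k := mul_nonneg hs (Nat.cast_nonneg k)
          linarith
        rw [norm_mul]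
        calc ‖a k‖ * ‖cexp (-s * k)‖ ≤ ‖a k‖ * 1 := mul_le_mul_of_nonneg_left he (norm_nonneg _)
          _ ≤ A := by rw [mul_one]; exact hk'
    _ = m * A := by rw [Finset.sum_const, Finset.card_range, nsmul_eq_mul]

/-- Crude bound for `NN` of a triple product of sequences bounded by `B'`. -/
theorem norm_NN_mul3_le {n i1 : ℕ} {F F' : Fin 3 → ℕ → ℂ} {B' : ℝ}
    (hF : ∀ m, ∀ i ≤ n, ‖F m i‖ ≤ B') (hF' : ∀ m, ∀ i ≤ n, ‖F' m i‖ ≤ B') {s : ℂ}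
    (hs : 0 ≤ s.re) :
    ‖NN n i1 (fun i => F 0 i * F 1 i * F 2 i) (fun i => F' 0 i * F' 1 i * F' 2 i) s‖ ≤
      (n + 1) * (2 * B' ^ 3) := by
  have hB : 0 ≤ B' := (norm_nonneg _).trans (hF 0 0 (Nat.zero_le _))
  have h3 : ∀ G : Fin 3 → ℕ → ℂ, (∀ m, ∀ i ≤ n, ‖G m i‖ ≤ B') → ∀ i ≤ n,
      ‖G 0 i * G 1 i * G 2 i‖ ≤ B' ^ 3 := by
    intro G hG i hi
    rw [norm_mul, norm_mul]
    calc ‖G 0 i‖ * ‖G 1 i‖ * ‖G 2 i‖ ≤ B' * B' * B' := by
          have h0 := hG 0 i hi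
          have h1 := hG 1 i hi
          have h2 := hG 2 i hi
          exact mul_le_mul (mul_le_mul h0 h1 (norm_nonneg _) hB) h2 (norm_nonneg _)
            (mul_nonneg hB hB)
      _ = B' ^ 3 := by ring
  unfold NN
  refine (norm_expSum_le (A := 2 * B' ^ 3) (fun k hk => ?_) hs).trans ?_
  · have hle : i1 + k ≤ n := by omega
    simp only [dif]
    refine (norm_sub_le _ _).trans ?_
    have e1 := h3 F hF (i1 + k) hle
    have e2 := h3 F' hF' (i1 + k) hle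
    linarith
  · have hm : ((n + 1 - i1 : ℕ) : ℝ) ≤ (n : ℝ) + 1 := by
      have : n + 1 - i1 ≤ n + 1 := Nat.sub_le _ _
      exact_mod_cast this
    have : (0 : ℝ) ≤ 2 * B' ^ 3 := by positivity
    exact mul_le_mul_of_nonneg_right hm this

end Vale.Agent.P321.UB
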