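import Vale.Agent.P321.UB.PoissonJensen
import Vale.Agent.P321.UB.Product
import Vale.Agent.P321.UB.Chain
import Vale.Agent.P321.UB.StepAux

/-! # Block U8: the induction step, on sequences -/

namespace Vale.Agent.P321.UB

open Complex Finset

/-- One of the three pairs `(f,f')`, `(f̄,f̄')`, `(1,1)`. -/
def Simple (f f' g g' : ℕ → ℂ) : Prop :=
  (g = f ∧ g' = f') ∨
    (g = (fun i => (starRingEnd ℂ) (f i)) ∧ g' = (fun i => (starRingEnd ℂ) (f' i))) ∨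
    (g = (fun _ => 1) ∧ g' = (fun _ => 1))

theorem Simple.norm_le {f f' g g' : ℕ → ℂ} (h : Simple f f' g g') {n : ℕ} {B : ℝ} (hB : 1 ≤ B)
    (hf : ∀ i ≤ n, ‖f i‖ ≤ B) (hf' : ∀ i ≤ n, ‖f' i‖ ≤ B) :
    (∀ i ≤ n, ‖g i‖ ≤ B) ∧ ∀ i ≤ n, ‖g' i‖ ≤ B := by
  rcases h with ⟨rfl, rfl⟩ | ⟨rfl, rfl⟩ | ⟨rfl, rfl⟩
  · exact ⟨hf, hf'⟩
  · refine ⟨fun i hi => ?_, fun i hi => ?_⟩
    · simpa using hf i hi
    · simpa using hf' i hi
  · simp [hB]

theorem Simple.eq_of {f f' g g' : ℕ → ℂ} (h : Simple f f' g g') {i1 : ℕ}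
    (heq : ∀ i < i1, f i = f' i) : ∀ i < i1, g i = g' i := by
  rcases h with ⟨rfl, rfl⟩ | ⟨rfl, rfl⟩ | ⟨rfl, rfl⟩
  · exact heq
  · intro i hi; simp [heq i hi]
  · intro i hi; rfl

/-- The triple product relation under the negation of the conclusion of `step`. -/
theorem triple {n i1 : ℕ} (hi : i1 ≤ n) {f f' : ℕ → ℂ} {l κ0 κ c θ : ℝ}
    (hl : 1 ≤ l) (hf : ∀ i ≤ n, ‖f i‖ ≤ Real.exp l) (hf' : ∀ i ≤ n, ‖f' i‖ ≤ Real.exp l)
    (heq : ∀ i < i1, f i = f' i) (hn : (n : ℝ) + 1 ≤ Real.exp l) (hκ : 0 < κ)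
    (hκκ : 1000 * κ ≤ κ0) (hθ : 0 < θ) (hκθ : κ ^ 2 * θ ^ 2 = c) (hc : c = 10 ^ 9 * l)
    (hN : ∀ g g' F F' : Fin 3 → ℕ → ℂ, (∀ m, Simple f f' (g m) (g' m)) →
      (∀ m, Derived κ (2 * κ0) (g m) (g' m) (F m) (F' m)) →
      ∀ s : ℂ, s.re = κ → |s.im| ≤ 50 * κ →
        ‖NN n i1 (fun i => F 0 i * F 1 i * F 2 i) (fun i => F' 0 i * F' 1 i * F' 2 i) s‖ ≤
          Real.exp (-(10 ^ 12 * l)))
    {g g' : Fin 3 → ℕ → ℂ} (hg : ∀ m, Simple f f' (g m) (g' m))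
    {ξ : Fin 3 → ℝ} (hξ : ∀ m, |ξ m| ≤ κ0) (hs : |ξ 0 + ξ 1 + ξ 2| ≤ 2 * κ) :
    ‖VV n i1 θ κ (g 0) (ξ 0) * VV n i1 θ κ (g 1) (ξ 1) * VV n i1 θ κ (g 2) (ξ 2) -
      VV n i1 θ κ (g' 0) (ξ 0) * VV n i1 θ κ (g' 1) (ξ 1) * VV n i1 θ κ (g' 2) (ξ 2)‖ ≤
      Real.exp (-10 * c) := by
  have hel : 1 ≤ Real.exp l := Real.one_le_exp (by linarith)
  set B' : ℝ := (n + 1) * Real.exp l with hB'
  have hB'1 : Real.exp l ≤ B' := by
    rw [hB']
    have : (0 : ℝ) ≤ n := Nat.cast_nonneg n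
    nlinarith
  have hB'0 : 0 ≤ B' := by linarith
  have hB'l : B' ≤ Real.exp (2 * l) := by
    rw [hB', two_mul, Real.exp_add]
    gcongr
  have key := product_relation (n := n) (i1 := i1) hi (κ := κ) (Y := 2 * κ0) (θ := θ)
    (b := 16 * κ) (δ := Real.exp (-(10 ^ 12 * l))) (M := (n + 1) * (2 * B' ^ 3)) (R := 50)
    hκ hθ (by positivity) (by positivity) (by positivity) (f := g) (f' := g')
    (fun m => (hg m).eq_of heq) (ξ := ξ) (fun m => by have := hξ m; linarith)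
    (by linarith) (by
      intro F F' hF s hs
      apply norm_NN_mul3_le _ _ (by rw [hs]; exact hκ.le)
      · intro m i hi
        obtain ⟨h1, h2⟩ := (hg m).norm_le hel hf hf'
        rcases hF m with ⟨h3, h4⟩ | ⟨w, hw, h3, h4⟩
        · rw [h3]; exact (h1 i hi).trans hB'1
        · rw [h3]
          refine (norm_seqS_le (n := n) ?_ (by positivity) h1 i hi).trans ?_
          · rw [Complex.norm_exp]
            simp only [neg_re, Real.exp_le_one_iff, Left.neg_nonpos_iff]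
            rw [hw]; exact hκ.le
          · rw [hB']; gcongr; linarith
      · intro m i hi
        obtain ⟨h1, h2⟩ := (hg m).norm_le hel hf hf'
        rcases hF m with ⟨h3, h4⟩ | ⟨w, hw, h3, h4⟩
        · rw [h4]; exact (h2 i hi).trans hB'1
        · rw [h4]
          refine (norm_seqS_le (n := n) ?_ (by positivity) h2 i hi).trans ?_
          · rw [Complex.norm_exp]
            simp only [neg_re, Real.exp_le_one_iff, Left.neg_nonpos_iff]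
            rw [hw]; exact hκ.le
          · rw [hB']; gcongr; linarith)
    (fun F F' hF s hs1 hs2 => hN g g' F F' hg hF s hs1 hs2)
  refine key.trans ?_
  have e1 : Real.exp (2 * κ ^ 2 * θ ^ 2) ^ 3 = Real.exp (6 * c) := by
    rw [← Real.exp_nat_mul, ← hκθ]; congr 1; push_cast; ring
  have e2 : Real.exp (-((16 * κ) ^ 2 * θ ^ 2) / 12) = Real.exp (-(64 / 3) * c) := by
    congr 1; rw [← hκθ]; ring
  rw [e1, e2]
  have hs2 : Real.sqrt 2 ≤ 2 := by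
    rw [Real.sqrt_le_left (by norm_num)]; norm_num
  have hM : ((n : ℝ) + 1) * (2 * B' ^ 3) ≤ Real.exp (8 * l) := by
    have h1 : B' ^ 3 ≤ Real.exp (6 * l) := by
      calc B' ^ 3 ≤ Real.exp (2 * l) ^ 3 := by gcongr
        _ = Real.exp (6 * l) := by rw [← Real.exp_nat_mul]; congr 1; push_cast; ring
    have h2 : (2 : ℝ) ≤ Real.exp l := by
      have := Real.add_one_le_exp l; linarith
    calc ((n : ℝ) + 1) * (2 * B' ^ 3) ≤ Real.exp l * (Real.exp l * Real.exp (6 * l)) := by gcongr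
      _ = Real.exp (8 * l) := by rw [← Real.exp_add, ← Real.exp_add]; congr 1; ring
  have h10 : Real.exp (-(10 ^ 12 * l)) ≤ Real.exp (-(1000 * c)) := by
    rw [hc]; apply Real.exp_le_exp.2; nlinarith
  calc 7 * Real.exp (6 * c) * (Real.exp (-(10 ^ 12 * l)) +
        7 * (Real.sqrt 2 * Real.exp (-(64 / 3) * c)) * ((n + 1) * (2 * B' ^ 3)))
      ≤ 7 * Real.exp (6 * c) * (Real.exp (-(1000 * c)) +
        7 * (2 * Real.exp (-(64 / 3) * c)) * Real.exp (8 * l)) := by gcongr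
    _ = 7 * Real.exp (6 * c - 1000 * c) + 98 * Real.exp (6 * c + (-(64 / 3) * c) + 8 * l) := by
        rw [Real.exp_add, Real.exp_add, Real.exp_sub, Real.exp_neg]
        field_simp
        ring
    _ ≤ 7 * Real.exp (-(11 * c)) + 98 * Real.exp (-(15 * c)) := by
        gcongr
        · rw [hc]; nlinarith
        · rw [hc]; nlinarith
    _ ≤ Real.exp (-10 * c) := by
        have hc7 : (200 : ℝ) ≤ Real.exp c := by
          have := Real.add_one_le_exp c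
          have : (199 : ℝ) ≤ c := by rw [hc]; nlinarith
          linarith
        have a1 : Real.exp (-(11 * c)) = Real.exp (-10 * c) * (Real.exp c)⁻¹ := by
          rw [← Real.exp_neg, ← Real.exp_add]; congr 1; ring
        have a2 : Real.exp (-(15 * c)) ≤ Real.exp (-(11 * c)) := by
          apply Real.exp_le_exp.2; have : 0 ≤ c := by rw [hc]; positivity
          linarith
        have a3 : (Real.exp c)⁻¹ ≤ 1 / 200 := by
          rw [inv_eq_one_div]; gcongr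
        calc 7 * Real.exp (-(11 * c)) + 98 * Real.exp (-(15 * c))
            ≤ 7 * Real.exp (-(11 * c)) + 98 * Real.exp (-(11 * c)) := by gcongr
          _ = Real.exp (-10 * c) * (105 * (Real.exp c)⁻¹) := by rw [a1]; ring
          _ ≤ Real.exp (-10 * c) * 1 := by gcongr; linarith
          _ = _ := mul_one _

/-- Good cells: transfer and Poisson–Jensen. -/
theorem cells {n i1 : ℕ} {f f' : ℕ → ℂ} {l κ0 κ c θ : ℝ}
    (hl : 1 ≤ l) (hf : ∀ i ≤ n, ‖f i‖ ≤ Real.exp l) (hf' : ∀ i ≤ n, ‖f' i‖ ≤ Real.exp l)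
    (hn : (n : ℝ) + 1 ≤ Real.exp l) (hκl : Real.exp (-l) ≤ κ)
    (hκκ : 1000 * κ ≤ κ0) (hκ0 : κ0 ≤ 1 / 10) (hθ : 0 < θ) (hκθ : κ ^ 2 * θ ^ 2 = c)
    (hc : c = 10 ^ 9 * l) {s0 : ℂ} (hs0 : s0.re = κ0)
    (hs0i : |s0.im| ≤ 50 * κ0) (hs : Real.exp (-l) ≤ ‖NN n i1 f f' s0‖) :
    ∃ (L : ℕ) (bad : Finset ℕ) (ξ : ℕ → ℝ), 1000 ≤ L ∧ (L : ℝ) * κ ≤ κ0 ∧ 100 * bad.card < L ∧
      ∀ j < L, j ∉ bad → j * κ ≤ ξ j ∧ ξ j ≤ (j + 1) * κ ∧
        Real.exp (-c) ≤ ‖expSum (n + 1 - i1)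
          (fun k => dif i1 f f' k * cexp (-(k : ℂ) ^ 2 / (2 * θ ^ 2))) ((κ : ℂ) - ξ j * I)‖ := by
  have hκ : 0 < κ := lt_of_lt_of_le (Real.exp_pos _) hκl
  have hκ0p : 0 < κ0 := by linarith
  have hc0 : 0 < c := by rw [hc]; positivity
  have hκ0θ : 10 ^ 6 * c ≤ κ0 ^ 2 * θ ^ 2 := by
    rw [← hκθ]
    have : (1000 * κ) ^ 2 ≤ κ0 ^ 2 := by gcongr
    nlinarith [sq_nonneg θ]
  -- bound for the difference sequence
  have ha : ∀ k < n + 1 - i1, ‖dif i1 f f' k‖ ≤ 2 * Real.exp l := by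
    intro k hk
    have h1 := hf (i1 + k) (by omega)
    have h2 := hf' (i1 + k) (by omega)
    unfold dif
    calc _ ≤ ‖f (i1 + k)‖ + ‖f' (i1 + k)‖ := norm_sub_le _ _
      _ ≤ _ := by linarith
  have hm : ((n + 1 - i1 : ℕ) : ℝ) ≤ Real.exp l := by
    refine le_trans ?_ hn
    have : n + 1 - i1 ≤ n + 1 := by omega
    exact_mod_cast this
  -- transfer
  obtain ⟨η, hη, hη2⟩ := transfer (m := n + 1 - i1) (a := dif i1 f f') (A := 2 * Real.exp l)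
    (κ0 := κ0) (θ := θ) (ε := Real.exp (-l)) (s0 := s0) (by positivity) ha hκ0p (by
      have h1 : 1 ^ 2 ≤ (κ0 * θ) ^ 2 := by rw [mul_pow]; nlinarith
      exact (pow_le_pow_iff_left₀ (by norm_num) (by positivity) (by norm_num)).1 h1) hs0 hs (by
      have h1 : Real.exp (-(κ0 ^ 2 * θ ^ 2) / 16) ≤ Real.exp (-(5 * l + 200)) := by
        apply Real.exp_le_exp.2
        rw [neg_div, neg_le_neg_iff, le_div_iff₀ (by norm_num)]
        nlinarith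
      have h2 : (200 : ℝ) ≤ Real.exp 200 := by
        have := Real.add_one_le_exp 200; linarith
      calc 100 * (2 * Real.exp l) * ((n + 1 - i1 : ℕ) : ℝ) * Real.exp (-(κ0 ^ 2 * θ ^ 2) / 16)
          ≤ 100 * (2 * Real.exp l) * Real.exp l * Real.exp (-(5 * l + 200)) := by gcongr
        _ = 200 * (Real.exp l * Real.exp l * Real.exp (-(5 * l + 200))) := by ring
        _ ≤ Real.exp 200 * (Real.exp l * Real.exp l * Real.exp (-(5 * l + 200))) := by gcongr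
        _ = Real.exp (-(3 * l)) := by
            rw [← Real.exp_add, ← Real.exp_add, ← Real.exp_add]; congr 1; ring
        _ ≤ Real.exp (-l) := by apply Real.exp_le_exp.2; linarith)
  -- few bad cells
  set a : ℕ → ℂ := fun k => dif i1 f f' k * cexp (-(k : ℂ) ^ 2 / (2 * θ ^ 2)) with haa
  have ha2 : ∀ k < n + 1 - i1, ‖a k‖ ≤ 2 * Real.exp l := by
    intro k hk
    rw [haa]
    simp only [norm_mul]
    have h1 : ‖cexp (-(k : ℂ) ^ 2 / (2 * θ ^ 2))‖ ≤ 1 := by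
      have : (-(k : ℂ) ^ 2 / (2 * (θ : ℂ) ^ 2)) = ((-(k : ℝ) ^ 2 / (2 * θ ^ 2) : ℝ) : ℂ) := by
        push_cast; ring
      rw [this, Complex.norm_exp_ofReal, Real.exp_le_one_iff]
      apply div_nonpos_of_nonpos_of_nonneg
      · have := sq_nonneg (k : ℝ); linarith
      · positivity
    calc _ ≤ 2 * Real.exp l * 1 := by gcongr; exact ha k hk
      _ = _ := mul_one _
  set L : ℕ := ⌊κ0 / κ⌋₊ with hL
  have hL1 : (L : ℝ) * κ ≤ κ0 := by
    have : (L : ℝ) ≤ κ0 / κ := Nat.floor_le (by positivity)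
    rwa [le_div_iff₀ hκ] at this
  have hL1000 : 1000 ≤ L := by
    apply Nat.le_floor
    rw [le_div_iff₀ hκ]; push_cast; linarith
  have hL2 : κ0 / 2 ≤ (L : ℝ) * κ := by
    have h1 : κ0 / κ < L + 1 := Nat.lt_floor_add_one _
    rw [div_lt_iff₀ hκ] at h1
    have h2 : (1000 : ℝ) ≤ L := by exact_mod_cast hL1000
    nlinarith
  have hηabs := abs_le.1 hη
  have hlog : 10 ^ 8 * Real.log (8 * (2 * Real.exp l) / (κ * (Real.exp (-l) / 2))) ≤ c := by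
    have h1 : 8 * (2 * Real.exp l) / (κ * (Real.exp (-l) / 2)) ≤ Real.exp (7 * l) := by
      rw [div_le_iff₀ (by positivity)]
      have h2 : (32 : ℝ) ≤ Real.exp (4 * l) := by
        have e3 : (2.7 : ℝ) ≤ Real.exp l := by
          have := Real.exp_one_gt_d9
          have h4 : Real.exp 1 ≤ Real.exp l := Real.exp_le_exp.2 hl
          linarith
        calc (32 : ℝ) ≤ (2.7 : ℝ) ^ 4 := by norm_num
          _ ≤ Real.exp l ^ 4 := by gcongr
          _ = Real.exp (4 * l) := by rw [← Real.exp_nat_mul]; norm_num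
      calc 8 * (2 * Real.exp l) = 32 * (Real.exp l * Real.exp (-l) * Real.exp l / 2) := by
            rw [← Real.exp_add]; simp; ring
        _ ≤ Real.exp (4 * l) * (Real.exp l * Real.exp (-l) * Real.exp l / 2) := by gcongr
        _ = Real.exp (7 * l) * (Real.exp (-l) * (Real.exp (-l) / 2)) := by
            have : Real.exp (7 * l) = Real.exp (4 * l) * (Real.exp l * Real.exp l * Real.exp l) := by
              rw [← Real.exp_add, ← Real.exp_add, ← Real.exp_add]; congr 1; ring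
            rw [this, Real.exp_neg]
            field_simp
        _ ≤ Real.exp (7 * l) * (κ * (Real.exp (-l) / 2)) := by gcongr
    have h3 : Real.log (8 * (2 * Real.exp l) / (κ * (Real.exp (-l) / 2))) ≤ 7 * l := by
      rw [← Real.log_exp (7 * l)]
      apply Real.log_le_log (by positivity) h1
    rw [hc]
    nlinarith
  obtain ⟨bad, hbad, hgood⟩ := few_bad (m := n + 1 - i1) (a := a) (A := 2 * Real.exp l) (κ := κ)
    (κ0 := κ0) (ε := Real.exp (-l) / 2) (c := c) (s1 := s0 + η) (L := L)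
    (by have := Real.add_one_le_exp l; linarith) ha2 hκ hκκ
    hκ0 (by rw [add_re, ofReal_re, hs0]; linarith) (by rw [add_re, ofReal_re, hs0]; linarith)
    (by rw [add_im, ofReal_im, add_zero]; exact hs0i) (by positivity)
    (by
      have : Real.exp (-l) ≤ 1 := Real.exp_le_one_iff.2 (by linarith)
      linarith) hη2 hlog hL1 hL2
  choose! ξ hξ1 hξ2 hξ3 using hgood
  exact ⟨L, bad, ξ, hL1000, hL1, hbad, fun j hj hjb => ⟨hξ1 j hj hjb, hξ2 j hj hjb, hξ3 j hj hjb⟩⟩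

/-- The pair relation, from the triple relation. -/
theorem pair_relation {n i1 : ℕ} (hi : i1 ≤ n) {f f' : ℕ → ℂ} {κ0 κ c θ : ℝ} (hκ0 : 0 ≤ κ0)
    (htr : ∀ g g' : Fin 3 → ℕ → ℂ, (∀ m, Simple f f' (g m) (g' m)) → ∀ ζ : Fin 3 → ℝ,
      (∀ m, |ζ m| ≤ κ0) → |ζ 0 + ζ 1 + ζ 2| ≤ 2 * κ →
      ‖VV n i1 θ κ (g 0) (ζ 0) * VV n i1 θ κ (g 1) (ζ 1) * VV n i1 θ κ (g 2) (ζ 2) -
        VV n i1 θ κ (g' 0) (ζ 0) * VV n i1 θ κ (g' 1) (ζ 1) * VV n i1 θ κ (g' 2) (ζ 2)‖ ≤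
        Real.exp (-10 * c))
    (ζ ζ' : ℝ) (h1 : |ζ| ≤ κ0) (h2 : |ζ'| ≤ κ0) (h3 : |ζ - ζ'| ≤ 2 * κ) :
    ‖VV n i1 θ κ f ζ * (starRingEnd ℂ) (VV n i1 θ κ f ζ') -
        VV n i1 θ κ f' ζ * (starRingEnd ℂ) (VV n i1 θ κ f' ζ')‖ ≤ Real.exp (-10 * c) := by
  have := htr ![f, fun i => (starRingEnd ℂ) (f i), fun _ => 1]
    ![f', fun i => (starRingEnd ℂ) (f' i), fun _ => 1] (by
      intro m
      fin_cases m
      · exact Or.inl ⟨rfl, rfl⟩
      · exact Or.inr (Or.inl ⟨rfl, rfl⟩)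
      · exact Or.inr (Or.inr ⟨rfl, rfl⟩)) ![ζ, -ζ', 0] (by
      intro m
      fin_cases m
      · simpa using h1
      · simpa using h2
      · simpa using hκ0) (by simpa [sub_eq_add_neg] using h3)
  simp only [Matrix.cons_val_zero, Matrix.cons_val_one, Matrix.cons_val] at this
  rw [VV_conj, VV_conj, ← sub_mul, norm_mul] at this
  have h4 := one_le_norm_VV_one hi θ κ
  refine le_trans ?_ this
  exact le_mul_of_one_le_right (norm_nonneg _) h4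

/-- The triple relation for `V a * V b * conj (V (a+b))`. -/
theorem triple_relation {n i1 : ℕ} {f f' : ℕ → ℂ} {κ0 κ c θ : ℝ}
    (htr : ∀ g g' : Fin 3 → ℕ → ℂ, (∀ m, Simple f f' (g m) (g' m)) → ∀ ζ : Fin 3 → ℝ,
      (∀ m, |ζ m| ≤ κ0) → |ζ 0 + ζ 1 + ζ 2| ≤ 2 * κ →
      ‖VV n i1 θ κ (g 0) (ζ 0) * VV n i1 θ κ (g 1) (ζ 1) * VV n i1 θ κ (g 2) (ζ 2) -
        VV n i1 θ κ (g' 0) (ζ 0) * VV n i1 θ κ (g' 1) (ζ 1) * VV n i1 θ κ (g' 2) (ζ 2)‖ ≤
        Real.exp (-10 * c))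
    (ζ ζ' ζ'' : ℝ) (h1 : |ζ| ≤ κ0) (h2 : |ζ'| ≤ κ0) (h2' : |ζ''| ≤ κ0)
    (h3 : |ζ + ζ' - ζ''| ≤ 2 * κ) :
    ‖VV n i1 θ κ f ζ * VV n i1 θ κ f ζ' * (starRingEnd ℂ) (VV n i1 θ κ f ζ'') -
        VV n i1 θ κ f' ζ * VV n i1 θ κ f' ζ' * (starRingEnd ℂ) (VV n i1 θ κ f' ζ'')‖ ≤
      Real.exp (-10 * c) := by
  have := htr ![f, f, fun i => (starRingEnd ℂ) (f i)]
    ![f', f', fun i => (starRingEnd ℂ) (f' i)] (by
      intro m
      fin_cases m
      · exact Or.inl ⟨rfl, rfl⟩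
      · exact Or.inl ⟨rfl, rfl⟩
      · exact Or.inr (Or.inl ⟨rfl, rfl⟩)) ![ζ, ζ', -ζ''] (by
      intro m
      fin_cases m
      · simpa using h1
      · simpa using h2
      · simpa using h2') (by
      simpa [sub_eq_add_neg] using h3)
  simp only [Matrix.cons_val_zero, Matrix.cons_val_one, Matrix.cons_val] at this
  rwa [VV_conj, VV_conj] at this

/-- The induction step. -/
theorem step {n i1 : ℕ} (hi : i1 ≤ n) {f f' : ℕ → ℂ} {l κ0 κ : ℝ}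
    (hl : 1 ≤ l) (hf : ∀ i ≤ n, ‖f i‖ ≤ Real.exp l) (hf' : ∀ i ≤ n, ‖f' i‖ ≤ Real.exp l)
    (heq : ∀ i < i1, f i = f' i) (hn : (n : ℝ) + 1 ≤ Real.exp l) (hκl : Real.exp (-l) ≤ κ)
    (hκκ : 1000 * κ ≤ κ0) (hκ0 : κ0 ≤ 1 / 10) {s0 : ℂ} (hs0 : s0.re = κ0)
    (hs0i : |s0.im| ≤ 50 * κ0) (hs : Real.exp (-l) ≤ ‖NN n i1 f f' s0‖) :
    ∃ g g' F F' : Fin 3 → ℕ → ℂ, (∀ m, Simple f f' (g m) (g' m)) ∧
      (∀ m, Derived κ (2 * κ0) (g m) (g' m) (F m) (F' m)) ∧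
      ∃ s : ℂ, s.re = κ ∧ |s.im| ≤ 50 * κ ∧
        Real.exp (-(10 ^ 12 * l)) ≤
          ‖NN n i1 (fun i => F 0 i * F 1 i * F 2 i) (fun i => F' 0 i * F' 1 i * F' 2 i) s‖ := by
  by_contra hcon
  push Not at hcon
  have hκ : 0 < κ := lt_of_lt_of_le (Real.exp_pos _) hκl
  have hκ0p : 0 < κ0 := by linarith
  obtain ⟨c, hc⟩ : ∃ c : ℝ, c = 10 ^ 9 * l := ⟨_, rfl⟩
  have hc0 : 0 < c := by rw [hc]; positivity
  have hc9 : 10 ^ 9 ≤ c := by rw [hc]; nlinarith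
  obtain ⟨θ, hθ0, hκθ⟩ : ∃ θ : ℝ, 0 < θ ∧ κ ^ 2 * θ ^ 2 = c := by
    refine ⟨Real.sqrt c / κ, by positivity, ?_⟩
    rw [div_pow, Real.sq_sqrt hc0.le]; field_simp
  have htr : ∀ g g' : Fin 3 → ℕ → ℂ, (∀ m, Simple f f' (g m) (g' m)) → ∀ ζ : Fin 3 → ℝ,
      (∀ m, |ζ m| ≤ κ0) → |ζ 0 + ζ 1 + ζ 2| ≤ 2 * κ →
      ‖VV n i1 θ κ (g 0) (ζ 0) * VV n i1 θ κ (g 1) (ζ 1) * VV n i1 θ κ (g 2) (ζ 2) -
        VV n i1 θ κ (g' 0) (ζ 0) * VV n i1 θ κ (g' 1) (ζ 1) * VV n i1 θ κ (g' 2) (ζ 2)‖ ≤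
        Real.exp (-10 * c) := fun g g' hg ζ h1 h2 =>
    triple hi hl hf hf' heq hn hκ hκκ hθ0 hκθ hc
      (fun g g' F F' h1 h2 s h3 h4 => (hcon g g' F F' h1 h2 s h3 h4).le) hg h1 h2
  obtain ⟨L, bad, ξ, hL1000, hL1, hbad, hξ⟩ := cells (i1 := i1) hl hf hf' hn hκl hκκ hκ0 hθ0 hκθ hc
    hs0 hs0i hs
  have hLκ : (L : ℝ) ≤ Real.exp c := by
    have h2 : (L : ℝ) * Real.exp (-l) ≤ 1 := by
      calc (L : ℝ) * Real.exp (-l) ≤ L * κ := by gcongr
        _ ≤ 1 := by linarith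
    rw [Real.exp_neg, ← div_eq_mul_inv, div_le_one (Real.exp_pos _)] at h2
    refine h2.trans (Real.exp_le_exp.2 ?_)
    rw [hc]; nlinarith
  have hξabs : ∀ j < L, j ∉ bad → |ξ j| ≤ κ0 := by
    intro j hj hjb
    obtain ⟨h1, h2, -⟩ := hξ j hj hjb
    have h3 : (j : ℝ) + 1 ≤ L := by exact_mod_cast hj
    have h4 : (0 : ℝ) ≤ j * κ := by positivity
    have h5 : ((j : ℝ) + 1) * κ ≤ L * κ := by gcongr
    rw [abs_le]
    constructor <;> linarith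
  have hVle : ∀ (ζ : ℝ), ‖VV n i1 θ κ f ζ‖ ≤ Real.exp c := by
    intro ζ
    refine (norm_VV_le (n := n) (i1 := i1) (κ := κ) (ξ := ζ) hθ0 hf).trans ?_
    calc ((n : ℝ) + 1) * Real.exp l * Real.exp (κ ^ 2 * θ ^ 2 / 2)
        ≤ Real.exp l * Real.exp l * Real.exp (c / 2) := by rw [hκθ]; gcongr
      _ = Real.exp (2 * l + c / 2) := by rw [← Real.exp_add, ← Real.exp_add]; congr 1; ring
      _ ≤ Real.exp c := by apply Real.exp_le_exp.2; rw [hc]; nlinarith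
  refine phase_contradiction (L := L) (bad := bad) hbad (V := fun j => VV n i1 θ κ f (ξ j))
    (V' := fun j => VV n i1 θ κ f' (ξ j)) (c := c) (Δ := Real.exp (-10 * c)) (by linarith)
    (Real.exp_pos _).le le_rfl hLκ (fun j _ _ => hVle _) ?_ ?_ ?_
  · intro j hj hjb
    rw [VV_sub hi heq]
    exact (hξ j hj hjb).2.2
  · rintro j k hj hk hjb hkb (rfl | rfl)
    · exact pair_relation hi hκ0p.le htr _ _ (hξabs _ hj hjb) (hξabs _ hj hjb) (by simp [hκ.le])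
    · refine pair_relation hi hκ0p.le htr _ _ (hξabs _ hk hkb) (hξabs _ hj hjb) ?_
      obtain ⟨a1, a2, -⟩ := hξ _ hk hkb
      obtain ⟨a3, a4, -⟩ := hξ j hj hjb
      push_cast at a1 a2
      rw [abs_le]
      constructor <;> linarith
  · intro j k hjk hj hk hjk'
    obtain ⟨b1, b2, -⟩ := hξ _ hjk hjk'
    obtain ⟨b3, b4, -⟩ := hξ j (by omega) hj
    obtain ⟨b5, b6, -⟩ := hξ k (by omega) hk
    push_cast at b1 b2
    refine triple_relation htr _ _ _ (hξabs j (by omega) hj) (hξabs k (by omega) hk)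
      (hξabs _ hjk hjk') ?_
    rw [abs_le]
    constructor <;> linarith

end Vale.Agent.P321.UB
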