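import Vale.Agent.P321.UB.Basic

/-! # Block U1: calculus of tests -/

namespace Vale.Agent.P321.UB

open Complex Finset

theorem FE_nil (r : ℝ) (Φ : List Bool → ℂ) : FE r Φ [] = Φ [] := rfl

theorem FE_cons (r : ℝ) (Φ : List Bool → ℂ) (b : Bool) (y : List Bool) :
    FE r Φ (b :: y) = (1 - (r : ℂ)) * FE r Φ y + (r : ℂ) * FE r (fun u => Φ (b :: u)) y := rfl

theorem FE_lin (r : ℝ) (a c : ℂ) (Φ Ψ : List Bool → ℂ) (y : List Bool) :
    FE r (fun u => a * Φ u + c * Ψ u) y = a * FE r Φ y + c * FE r Ψ y := by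
  induction y generalizing Φ Ψ with
  | nil => rfl
  | cons b y ih =>
    rw [FE_cons, FE_cons, FE_cons, ih, ih]
    ring

theorem FE_const (r : ℝ) (c : ℂ) (y : List Bool) : FE r (fun _ => c) y = c := by
  induction y with
  | nil => rfl
  | cons b y ih =>
    rw [FE_cons, ih]
    ring

theorem FE_conj (r : ℝ) (Φ : List Bool → ℂ) (y : List Bool) :
    FE r (fun u => (starRingEnd ℂ) (Φ u)) y = (starRingEnd ℂ) (FE r Φ y) := by
  induction y generalizing Φ with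
  | nil => rfl
  | cons b y ih =>
    rw [FE_cons, FE_cons, ih, ih]
    simp

theorem norm_one_sub_ofReal {r : ℝ} (hr1 : r ≤ 1) : ‖(1 - (r : ℂ))‖ = 1 - r := by
  rw [← Complex.ofReal_one, ← Complex.ofReal_sub, Complex.norm_real, Real.norm_eq_abs,
    abs_of_nonneg (by linarith)]

theorem norm_ofReal_nonneg {r : ℝ} (hr0 : 0 ≤ r) : ‖(r : ℂ)‖ = r := by
  rw [Complex.norm_real, Real.norm_eq_abs, abs_of_nonneg hr0]

theorem FE_norm_le {r B : ℝ} (hr0 : 0 ≤ r) (hr1 : r ≤ 1) (Φ : List Bool → ℂ) (y : List Bool)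
    (h : ∀ u : List Bool, u.length ≤ y.length → ‖Φ u‖ ≤ B) : ‖FE r Φ y‖ ≤ B := by
  induction y generalizing Φ with
  | nil => exact h [] (by simp)
  | cons b y ih =>
    rw [FE_cons]
    have h1 : ‖FE r Φ y‖ ≤ B := ih Φ (fun u hu => h u (by simp; omega))
    have h2 : ‖FE r (fun u => Φ (b :: u)) y‖ ≤ B :=
      ih (fun u => Φ (b :: u)) (fun u hu => h (b :: u) (by simp; omega))
    calc ‖(1 - (r : ℂ)) * FE r Φ y + (r : ℂ) * FE r (fun u => Φ (b :: u)) y‖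
        ≤ ‖(1 - (r : ℂ)) * FE r Φ y‖ + ‖(r : ℂ) * FE r (fun u => Φ (b :: u)) y‖ := norm_add_le _ _
      _ = (1 - r) * ‖FE r Φ y‖ + r * ‖FE r (fun u => Φ (b :: u)) y‖ := by
          rw [norm_mul, norm_mul, norm_one_sub_ofReal hr1, norm_ofReal_nonneg hr0]
      _ ≤ (1 - r) * B + r * B := by
          have : 0 ≤ 1 - r := by linarith
          gcongr
      _ = B := by ring

theorem IsTest.mono_bound {n : ℕ} {r B B' : ℝ} {τ : List Bool → ℂ} (h : IsTest n r B τ)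
    (hB : B ≤ B') : IsTest n r B' τ := by
  obtain ⟨Φ, h1, h2⟩ := h
  exact ⟨Φ, fun u hu => (h1 u hu).trans hB, h2⟩

/-- A2 -/
theorem IsTest.conj {n : ℕ} {r B : ℝ} {τ : List Bool → ℂ} (h : IsTest n r B τ) :
    IsTest n r B (fun y => (starRingEnd ℂ) (τ y)) := by
  obtain ⟨Φ, h1, h2⟩ := h
  refine ⟨fun u => (starRingEnd ℂ) (Φ u), fun u hu => ?_, fun y hy => ?_⟩
  · rw [RCLike.norm_conj]
    exact h1 u hu
  · rw [FE_conj, h2 y hy]

theorem IsTest.one {n : ℕ} {r B : ℝ} (hB : 1 ≤ B) : IsTest n r B (fun _ => 1) := by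
  refine ⟨fun _ => 1, fun u _ => ?_, fun y _ => FE_const r 1 y⟩
  simpa using hB

/-- A7 -/
theorem IsTest.norm_le {n : ℕ} {r B : ℝ} {τ : List Bool → ℂ} (hr0 : 0 ≤ r) (hr1 : r ≤ 1)
    (h : IsTest n r B τ) (y : List Bool) (hy : y.length ≤ n) : ‖τ y‖ ≤ B := by
  obtain ⟨Φ, h1, h2⟩ := h
  rw [← h2 y hy]
  exact FE_norm_le hr0 hr1 Φ y (fun u hu => h1 u (hu.trans hy))

/-- The product on functions of traces that corresponds to the product of tests. -/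
noncomputable def starP (r r1 r2 : ℝ) : (List Bool → ℂ) → (List Bool → ℂ) → List Bool → ℂ
  | Φ1, Φ2, [] => Φ1 [] * Φ2 []
  | Φ1, Φ2, b :: u =>
      ((r1 * (1 - r2) / r : ℝ) : ℂ) * starP r r1 r2 (fun v => Φ1 (b :: v)) Φ2 u +
      (((1 - r1) * r2 / r : ℝ) : ℂ) * starP r r1 r2 Φ1 (fun v => Φ2 (b :: v)) u +
      ((r1 * r2 / r : ℝ) : ℂ) * starP r r1 r2 (fun v => Φ1 (b :: v)) (fun v => Φ2 (b :: v)) u

theorem starP_cons (r r1 r2 : ℝ) (Φ1 Φ2 : List Bool → ℂ) (b : Bool) (u : List Bool) :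
    starP r r1 r2 Φ1 Φ2 (b :: u) =
      ((r1 * (1 - r2) / r : ℝ) : ℂ) * starP r r1 r2 (fun v => Φ1 (b :: v)) Φ2 u +
      (((1 - r1) * r2 / r : ℝ) : ℂ) * starP r r1 r2 Φ1 (fun v => Φ2 (b :: v)) u +
      ((r1 * r2 / r : ℝ) : ℂ) *
        starP r r1 r2 (fun v => Φ1 (b :: v)) (fun v => Φ2 (b :: v)) u := rfl

theorem FE_lin3 (r : ℝ) (a c d : ℂ) (Φ Ψ Θ : List Bool → ℂ) (y : List Bool) :
    FE r (fun u => a * Φ u + c * Ψ u + d * Θ u) y =
      a * FE r Φ y + c * FE r Ψ y + d * FE r Θ y := by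
  have h := FE_lin r 1 d (fun u => a * Φ u + c * Ψ u) Θ y
  rw [FE_lin r a c Φ Ψ y] at h
  simpa using h

theorem FE_starP {r r1 r2 : ℝ} (hr : 0 < r) (hrr : 1 - r = (1 - r1) * (1 - r2))
    (Φ1 Φ2 : List Bool → ℂ) (y : List Bool) :
    FE r (starP r r1 r2 Φ1 Φ2) y = FE r1 Φ1 y * FE r2 Φ2 y := by
  induction y generalizing Φ1 Φ2 with
  | nil => rfl
  | cons b y ih =>
    have hrC : (r : ℂ) ≠ 0 := by exact_mod_cast hr.ne'
    have hrrC : 1 - (r : ℂ) = (1 - (r1 : ℂ)) * (1 - (r2 : ℂ)) := by exact_mod_cast hrr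
    rw [FE_cons r, FE_cons r1, FE_cons r2, ih]
    have h1 : FE r (fun u => starP r r1 r2 Φ1 Φ2 (b :: u)) y =
        ((r1 * (1 - r2) / r : ℝ) : ℂ) * (FE r1 (fun v => Φ1 (b :: v)) y * FE r2 Φ2 y) +
        (((1 - r1) * r2 / r : ℝ) : ℂ) * (FE r1 Φ1 y * FE r2 (fun v => Φ2 (b :: v)) y) +
        ((r1 * r2 / r : ℝ) : ℂ) *
          (FE r1 (fun v => Φ1 (b :: v)) y * FE r2 (fun v => Φ2 (b :: v)) y) := by
      rw [← ih, ← ih, ← ih, ← FE_lin3]
      rfl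
    rw [h1, hrrC]
    push_cast
    field_simp
    ring

theorem starP_norm_le {r r1 r2 B1 B2 : ℝ} (hr : 0 < r)
    (h1 : 0 ≤ r1) (h1' : r1 ≤ 1) (h2 : 0 ≤ r2) (h2' : r2 ≤ 1)
    (hrr : 1 - r = (1 - r1) * (1 - r2)) (hB1 : 0 ≤ B1)
    (Φ1 Φ2 : List Bool → ℂ) (u : List Bool)
    (hΦ1 : ∀ v : List Bool, v.length ≤ u.length → ‖Φ1 v‖ ≤ B1)
    (hΦ2 : ∀ v : List Bool, v.length ≤ u.length → ‖Φ2 v‖ ≤ B2) :
    ‖starP r r1 r2 Φ1 Φ2 u‖ ≤ B1 * B2 := by
  induction u generalizing Φ1 Φ2 with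
  | nil =>
    have e1 := hΦ1 [] (by simp)
    have e2 := hΦ2 [] (by simp)
    change ‖Φ1 [] * Φ2 []‖ ≤ B1 * B2
    rw [norm_mul]
    exact mul_le_mul e1 e2 (norm_nonneg _) hB1
  | cons b u ih =>
    rw [starP_cons]
    have c1 : ∀ v : List Bool, v.length ≤ u.length → ‖Φ1 v‖ ≤ B1 :=
      fun v hv => hΦ1 v (by simp; omega)
    have c2 : ∀ v : List Bool, v.length ≤ u.length → ‖Φ2 v‖ ≤ B2 :=
      fun v hv => hΦ2 v (by simp; omega)
    have d1 : ∀ v : List Bool, v.length ≤ u.length → ‖Φ1 (b :: v)‖ ≤ B1 :=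
      fun v hv => hΦ1 (b :: v) (by simp; omega)
    have d2 : ∀ v : List Bool, v.length ≤ u.length → ‖Φ2 (b :: v)‖ ≤ B2 :=
      fun v hv => hΦ2 (b :: v) (by simp; omega)
    have e1 := ih (fun v => Φ1 (b :: v)) Φ2 d1 c2
    have e2 := ih Φ1 (fun v => Φ2 (b :: v)) c1 d2
    have e3 := ih (fun v => Φ1 (b :: v)) (fun v => Φ2 (b :: v)) d1 d2
    have w1 : 0 ≤ r1 * (1 - r2) / r := div_nonneg (mul_nonneg h1 (by linarith)) hr.le
    have w2 : 0 ≤ (1 - r1) * r2 / r := div_nonneg (mul_nonneg (by linarith) h2) hr.le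
    have w3 : 0 ≤ r1 * r2 / r := div_nonneg (mul_nonneg h1 h2) hr.le
    have ws : r1 * (1 - r2) / r + (1 - r1) * r2 / r + r1 * r2 / r = 1 := by
      rw [← add_div, ← add_div, div_eq_one_iff_eq hr.ne']
      linarith
    calc _ ≤ ‖((r1 * (1 - r2) / r : ℝ) : ℂ) * starP r r1 r2 (fun v => Φ1 (b :: v)) Φ2 u‖ +
          ‖(((1 - r1) * r2 / r : ℝ) : ℂ) * starP r r1 r2 Φ1 (fun v => Φ2 (b :: v)) u‖ +
          ‖((r1 * r2 / r : ℝ) : ℂ) *
            starP r r1 r2 (fun v => Φ1 (b :: v)) (fun v => Φ2 (b :: v)) u‖ := norm_add₃_le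
      _ = (r1 * (1 - r2) / r) * ‖starP r r1 r2 (fun v => Φ1 (b :: v)) Φ2 u‖ +
          ((1 - r1) * r2 / r) * ‖starP r r1 r2 Φ1 (fun v => Φ2 (b :: v)) u‖ +
          (r1 * r2 / r) *
            ‖starP r r1 r2 (fun v => Φ1 (b :: v)) (fun v => Φ2 (b :: v)) u‖ := by
          rw [norm_mul, norm_mul, norm_mul, norm_ofReal_nonneg w1, norm_ofReal_nonneg w2,
            norm_ofReal_nonneg w3]
      _ ≤ (r1 * (1 - r2) / r) * (B1 * B2) + ((1 - r1) * r2 / r) * (B1 * B2) +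
          (r1 * r2 / r) * (B1 * B2) := by gcongr
      _ = (r1 * (1 - r2) / r + (1 - r1) * r2 / r + r1 * r2 / r) * (B1 * B2) := by ring
      _ = B1 * B2 := by rw [ws, one_mul]

/-- A3, the product rule. -/
theorem IsTest.mul {n : ℕ} {r r1 r2 B1 B2 : ℝ} {τ1 τ2 : List Bool → ℂ} (hr : 0 < r)
    (h1 : 0 ≤ r1) (h1' : r1 ≤ 1) (h2 : 0 ≤ r2) (h2' : r2 ≤ 1)
    (hrr : 1 - r = (1 - r1) * (1 - r2)) (hB1 : 0 ≤ B1) (hB2 : 0 ≤ B2)
    (ht1 : IsTest n r1 B1 τ1) (ht2 : IsTest n r2 B2 τ2) :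
    IsTest n r (B1 * B2) (fun y => τ1 y * τ2 y) := by
  have _ := hB2
  obtain ⟨Φ1, a1, b1⟩ := ht1
  obtain ⟨Φ2, a2, b2⟩ := ht2
  refine ⟨starP r r1 r2 Φ1 Φ2, fun u hu => ?_, fun y hy => ?_⟩
  · exact starP_norm_le hr h1 h1' h2 h2' hrr hB1 Φ1 Φ2 u (fun v hv => a1 v (hv.trans hu))
      (fun v hv => a2 v (hv.trans hu))
  · rw [FE_starP hr hrr, b1 y hy, b2 y hy]

/-- A1, monotonicity in the retention probability. -/
theorem IsTest.mono {n : ℕ} {r r' B : ℝ} {τ : List Bool → ℂ} (hr : 0 < r) (hrr : r ≤ r')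
    (hr' : r' ≤ 1) (hB : 0 ≤ B) (h : IsTest n r B τ) : IsTest n r' B τ := by
  rcases eq_or_lt_of_le (hrr.trans hr') with h1 | h1
  · have : r' = r := le_antisymm (by linarith) hrr
    rw [this]
    exact h
  · have hpos : 0 < 1 - r := by linarith
    have key := IsTest.mul (n := n) (r := r') (r1 := r) (r2 := (r' - r) / (1 - r))
      (B1 := B) (B2 := 1) (τ1 := τ) (τ2 := fun _ => 1) (hr.trans_le hrr) hr.le h1.le
      (div_nonneg (by linarith) hpos.le) (by rw [div_le_one hpos]; linarith)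
      (by field_simp; ring) hB zero_le_one h (IsTest.one le_rfl)
    simpa using key

theorem IsTest.mul3 {n : ℕ} {r B : ℝ} {τ1 τ2 τ3 : List Bool → ℂ} (hr : 0 < r)
    (hr3 : 3 * r ≤ 1) (hB : 0 ≤ B)
    (h1 : IsTest n r B τ1) (h2 : IsTest n r B τ2) (h3 : IsTest n r B τ3) :
    IsTest n (3 * r) (B ^ 3) (fun y => τ1 y * τ2 y * τ3 y) := by
  have hr1 : r ≤ 1 := by linarith
  have a0 : 0 < 1 - (1 - r) * (1 - r) := by nlinarith
  have a1 : 1 - (1 - r) * (1 - r) ≤ 1 := by nlinarith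
  have k1 := IsTest.mul (n := n) (r := 1 - (1 - r) * (1 - r)) (r1 := r) (r2 := r) a0
    hr.le hr1 hr.le hr1 (by ring) hB hB h1 h2
  have b0 : 0 < 1 - (1 - r) * (1 - r) * (1 - r) := by nlinarith
  have k2 := IsTest.mul (n := n) (r := 1 - (1 - r) * (1 - r) * (1 - r))
    (r1 := 1 - (1 - r) * (1 - r)) (r2 := r) b0 a0.le a1 hr.le hr1 (by ring)
    (mul_nonneg hB hB) hB k1 h3
  have k3 := IsTest.mono (r' := 3 * r) b0 (by nlinarith [sq_nonneg r]) hr3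
    (mul_nonneg (mul_nonneg hB hB) hB) k2
  have : B ^ 3 = B * B * B := by ring
  rw [this]
  exact k3

/-- The function of traces behind `Sz`. -/
noncomputable def szP (r : ℝ) (z : ℂ) (Φ : List Bool → ℂ) : List Bool → ℂ
  | [] => 0
  | _ :: u => ((z - 1 + r) / r) * szP r z Φ u + (1 / (r : ℂ)) * Φ u

theorem FE_szP {r : ℝ} {z : ℂ} (hr : 0 < r) (Φ τ : List Bool → ℂ) (n : ℕ)
    (h : ∀ y : List Bool, y.length ≤ n → FE r Φ y = τ y) (y : List Bool) (hy : y.length ≤ n) :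
    FE r (szP r z Φ) y = Sz z τ y := by
  induction y with
  | nil => rfl
  | cons b y ih =>
    have hrC : (r : ℂ) ≠ 0 := by exact_mod_cast hr.ne'
    have hy' : y.length ≤ n := by simp at hy; omega
    rw [FE_cons]
    have e : FE r (fun u => szP r z Φ (b :: u)) y =
        ((z - 1 + r) / r) * FE r (szP r z Φ) y + (1 / (r : ℂ)) * FE r Φ y := by
      rw [← FE_lin]
      rfl
    rw [e, ih hy', h y hy']
    change _ = z * Sz z τ y + τ y
    field_simp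
    ring

theorem szP_norm_le {r B : ℝ} {z : ℂ} (hr : 0 < r) (Φ : List Bool → ℂ) (u : List Bool)
    (h : ∀ v : List Bool, v.length ≤ u.length → ‖Φ v‖ ≤ B) :
    ‖szP r z Φ u‖ ≤ (∑ k ∈ range u.length, ‖(z - 1 + r) / r‖ ^ k) * (B / r) := by
  induction u with
  | nil => simp [szP]
  | cons b u ih =>
    have e1 := ih (fun v hv => h v (by simp; omega))
    have e2 : ‖Φ u‖ ≤ B := h u (by simp)
    have e3 : ‖(1 / (r : ℂ))‖ = 1 / r := by
      rw [norm_div, norm_one, norm_ofReal_nonneg hr.le]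
    change ‖((z - 1 + r) / r) * szP r z Φ u + (1 / (r : ℂ)) * Φ u‖ ≤ _
    calc _ ≤ ‖((z - 1 + r) / r) * szP r z Φ u‖ + ‖(1 / (r : ℂ)) * Φ u‖ := norm_add_le _ _
      _ = ‖(z - 1 + r) / r‖ * ‖szP r z Φ u‖ + (1 / r) * ‖Φ u‖ := by
          rw [norm_mul, norm_mul, e3]
      _ ≤ ‖(z - 1 + r) / r‖ * ((∑ k ∈ range u.length, ‖(z - 1 + r) / r‖ ^ k) * (B / r)) +
          (1 / r) * B := by
          have : 0 ≤ 1 / r := by positivity
          gcongr
      _ = (∑ k ∈ range (b :: u).length, ‖(z - 1 + r) / r‖ ^ k) * (B / r) := by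
          rw [List.length_cons, geom_sum_succ]
          ring

/-- A4. -/
theorem IsTest.sz {n : ℕ} {r B : ℝ} {τ : List Bool → ℂ} {z : ℂ} (hr : 0 < r) (hB : 0 ≤ B)
    (hz : ‖1 - z‖ ^ 2 ≤ 2 * r * (1 - z.re)) (h : IsTest n r B τ) :
    IsTest n r (n * B / r) (Sz z τ) := by
  obtain ⟨Φ, h1, h2⟩ := h
  refine ⟨szP r z Φ, fun u hu => ?_, fun y hy => FE_szP hr Φ τ n h2 y hy⟩
  have hq : ‖(z - 1 + r) / r‖ ≤ 1 := by
    rw [norm_div, norm_ofReal_nonneg hr.le, div_le_one hr]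
    rw [← sq_le_sq₀ (norm_nonneg _) hr.le]
    have e1 : ‖z - 1 + r‖ ^ 2 = ‖1 - z‖ ^ 2 - 2 * r * (1 - z.re) + r ^ 2 := by
      rw [Complex.sq_norm, Complex.sq_norm, Complex.normSq_apply, Complex.normSq_apply]
      simp
      ring
    rw [e1]
    linarith
  have h3 := szP_norm_le (z := z) hr Φ u (fun v hv => h1 v (hv.trans hu))
  have h4 : (∑ k ∈ range u.length, ‖(z - 1 + r) / r‖ ^ k) ≤ n := by
    calc (∑ k ∈ range u.length, ‖(z - 1 + r) / r‖ ^ k) ≤ ∑ k ∈ range u.length, (1 : ℝ) :=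
          Finset.sum_le_sum (fun k _ => pow_le_one₀ (norm_nonneg _) hq)
      _ = u.length := by simp
      _ ≤ n := by exact_mod_cast hu
  calc ‖szP r z Φ u‖ ≤ (∑ k ∈ range u.length, ‖(z - 1 + r) / r‖ ^ k) * (B / r) := h3
    _ ≤ n * (B / r) := by
        have : 0 ≤ B / r := div_nonneg hB hr.le
        gcongr
    _ = n * B / r := by ring

/-- A4', for `z` near `1` at the end of the iteration. -/
theorem IsTest.sz_near {n : ℕ} {r B C : ℝ} {τ : List Bool → ℂ} {z : ℂ} (hr : 0 < r) (hB : 0 ≤ B)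
    (hC : 1 ≤ C) (hz : ‖(z - 1 + r) / r‖ ^ n ≤ C) (h : IsTest n r B τ) :
    IsTest n r (C * (n * B / r)) (Sz z τ) := by
  obtain ⟨Φ, h1, h2⟩ := h
  refine ⟨szP r z Φ, fun u hu => ?_, fun y hy => FE_szP hr Φ τ n h2 y hy⟩
  have h3 := szP_norm_le (z := z) hr Φ u (fun v hv => h1 v (hv.trans hu))
  have h5 : ∀ k, k ≤ n → ‖(z - 1 + r) / r‖ ^ k ≤ C := by
    intro k hk
    rcases le_total ‖(z - 1 + r) / r‖ 1 with hq | hq
    · exact (pow_le_one₀ (norm_nonneg _) hq).trans hC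
    · exact (pow_le_pow_right₀ hq hk).trans hz
  have h4 : (∑ k ∈ range u.length, ‖(z - 1 + r) / r‖ ^ k) ≤ n * C := by
    calc (∑ k ∈ range u.length, ‖(z - 1 + r) / r‖ ^ k) ≤ ∑ k ∈ range u.length, C :=
          Finset.sum_le_sum (fun k hk => h5 k (by
            have := Finset.mem_range.1 hk
            omega))
      _ = u.length * C := by simp
      _ ≤ n * C := by
        have : (u.length : ℝ) ≤ n := by exact_mod_cast hu
        gcongr
  calc ‖szP r z Φ u‖ ≤ (∑ k ∈ range u.length, ‖(z - 1 + r) / r‖ ^ k) * (B / r) := h3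
    _ ≤ (n * C) * (B / r) := by
        have : 0 ≤ B / r := div_nonneg hB hr.le
        gcongr
    _ = C * (n * B / r) := by ring

/-- The base test. -/
noncomputable def tau0 (r : ℝ) : List Bool → ℂ
  | [] => 0
  | b :: y => (1 - (r : ℂ)) * tau0 r y + (r : ℂ) * (if b then 1 else 0)

/-- The function of traces behind the base test: the first bit of the trace. -/
noncomputable def headP : List Bool → ℂ
  | [] => 0
  | b :: _ => if b then 1 else 0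

theorem FE_headP (r : ℝ) (y : List Bool) : FE r headP y = tau0 r y := by
  induction y with
  | nil => rfl
  | cons b y ih =>
    rw [FE_cons, ih]
    have e : FE r (fun u => headP (b :: u)) y = if b then 1 else 0 :=
      FE_const r (if b then 1 else 0) y
    rw [e]
    rfl

/-- A6 -/
theorem isTest_tau0 {n : ℕ} {r : ℝ} : IsTest n r 1 (tau0 r) := by
  refine ⟨headP, fun u _ => ?_, fun y _ => FE_headP r y⟩
  cases u with
  | nil => simp [headP]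
  | cons b u => cases b <;> simp [headP]

end Vale.Agent.P321.UB
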