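import Vale.Agent.P321.UB.Dict
import Vale.Agent.P321.UB.Step
import Vale.Agent.P321.UB.Base
import Vale.Agent.P321.UB.Tests

/-! # Block U9a: base and step of the iteration for a pair of strings -/

namespace Vale.Agent.P321.UB

open Complex Finset

/-- The state of the iteration for the pair `x, x'` with first difference `i1`. -/
def Good (x x' : List Bool) (i1 : ℕ) (r κ l : ℝ) : Prop :=
  ∃ τ : List Bool → ℂ, IsTest x.length r (Real.exp l) τ ∧
    ∃ s : ℂ, s.re = κ ∧ |s.im| ≤ 50 * κ ∧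
      Real.exp (-l) ≤ ‖NN x.length i1 (sq x τ) (sq x' τ) s‖

theorem good_base {x x' : List Bool} {i1 : ℕ} (hl : x.length = x'.length) (h1 : 1 ≤ i1)
    (hi : i1 ≤ x.length) (hd : ∀ r : ℝ, 0 ≤ r → ‖sq x (tau0 r) i1 - sq x' (tau0 r) i1‖ = r)
    {r l : ℝ} (hr : 0 < r) (hr1 : r ≤ 1) (hl1 : 1 ≤ l)
    (hl2 : (10 ^ 6 / r) * Real.log (10 ^ 6 / r) ≤ l) : Good x x' i1 r (r / 9000) l := by
  set κ0 : ℝ := r / 9000 with hκ0
  have hκpos : 0 < κ0 := by positivity
  have hκle : κ0 ≤ 1 / 10 := by rw [hκ0]; linarith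
  set M : ℕ := ⌈Real.pi / κ0⌉₊ with hM
  have hMle : Real.pi / κ0 ≤ M := Nat.le_ceil _
  have hMlt : (M : ℝ) < Real.pi / κ0 + 1 := Nat.ceil_lt_add_one (by positivity)
  obtain ⟨s, hs1, hs2, hs3⟩ := base_case (m := x.length + 1 - i1)
    (a := dif i1 (sq x (tau0 r)) (sq x' (tau0 r))) (κ0 := κ0) (π0 := r) (M := M) (by omega)
    hκpos hκle (fun k _ => by
      simp only [dif, sq]
      exact norm_tau0_sub_le hr.le hr1 _ _)
    (by simp only [dif, add_zero]; exact (hd r hr.le).ge) hr hr1 hMle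
  refine ⟨tau0 r, isTest_tau0.mono_bound (Real.one_le_exp (by linarith)), s, hs1, ?_, ?_⟩
  · exact hs2.trans (by linarith)
  · refine le_trans ?_ hs3
    -- numerics
    have h1r : 1 ≤ 1 / r := by rw [le_div_iff₀ hr]; linarith
    have hM2 : (M : ℝ) ≤ 40000 / r := by
      have e1 : Real.pi / κ0 = 9000 * Real.pi / r := by
        rw [hκ0]; field_simp
      have e2 : 9000 * Real.pi / r ≤ 36000 / r := by
        apply div_le_div_of_nonneg_right _ hr.le
        linarith [Real.pi_le_four]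
      have e3 : (1 : ℝ) ≤ 4000 / r := by
        rw [le_div_iff₀ hr]; linarith
      have e4 : 36000 / r + 4000 / r = 40000 / r := by ring
      rw [e1] at hMlt
      linarith
    have hx : 0 < r * (κ0 / 2) := by positivity
    have hx1 : r * (κ0 / 2) = r ^ 2 / 18000 := by rw [hκ0]; ring
    have hlog0 : 0 ≤ Real.log (10 ^ 6 / r) := Real.log_nonneg (by
      rw [le_div_iff₀ hr]; linarith)
    have hlog : -(2 * Real.log (10 ^ 6 / r)) ≤ Real.log (r * (κ0 / 2)) := by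
      rw [hx1]
      have e5 : -(2 * Real.log (10 ^ 6 / r)) = Real.log ((r / 10 ^ 6) ^ 2) := by
        rw [Real.log_pow]
        push_cast
        rw [show Real.log (10 ^ 6 / r) = - Real.log (r / 10 ^ 6) by
          rw [← Real.log_inv, inv_div]]
        ring
      rw [e5]
      apply Real.log_le_log (by positivity)
      rw [div_pow]
      apply div_le_div_of_nonneg_left (by positivity) (by norm_num) (by norm_num)
    rw [← Real.exp_log hx, ← Real.exp_nat_mul]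
    apply Real.exp_le_exp.mpr
    have h3 : (M : ℝ) * (2 * Real.log (10 ^ 6 / r)) ≤ l := by
      calc (M : ℝ) * (2 * Real.log (10 ^ 6 / r)) ≤ 40000 / r * (2 * Real.log (10 ^ 6 / r)) :=
            mul_le_mul_of_nonneg_right hM2 (by linarith)
        _ = 80000 / r * Real.log (10 ^ 6 / r) := by ring
        _ ≤ 10 ^ 6 / r * Real.log (10 ^ 6 / r) := by
            apply mul_le_mul_of_nonneg_right _ hlog0
            apply div_le_div_of_nonneg_right _ hr.le
            norm_num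
        _ ≤ l := hl2
    have h4 : (M : ℝ) * (-(2 * Real.log (10 ^ 6 / r))) ≤ M * Real.log (r * (κ0 / 2)) :=
      mul_le_mul_of_nonneg_left hlog (Nat.cast_nonneg _)
    linarith

/-- The strings version of `Simple`. -/
theorem exists_string_of_simple {x x' : List Bool} {τ : List Bool → ℂ} {n : ℕ} {r l : ℝ}
    (hl1 : 0 ≤ l) (ht : IsTest n r (Real.exp l) τ) {g g' : ℕ → ℂ}
    (h : Simple (sq x τ) (sq x' τ) g g') :
    ∃ G : List Bool → ℂ, IsTest n r (Real.exp l) G ∧ g = sq x G ∧ g' = sq x' G := by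
  rcases h with ⟨rfl, rfl⟩ | ⟨rfl, rfl⟩ | ⟨rfl, rfl⟩
  · exact ⟨τ, ht, rfl, rfl⟩
  · exact ⟨fun y => (starRingEnd ℂ) (τ y), ht.conj, rfl, rfl⟩
  · exact ⟨fun _ => 1, IsTest.one (Real.one_le_exp hl1), rfl, rfl⟩

theorem exists_string_of_derived {x x' : List Bool} (hl : x.length = x'.length)
    {G : List Bool → ℂ} {r l κ κ0 : ℝ} (hr : 0 < r) (hκ : 0 < κ) (hκ1 : κ ≤ 1) (hκκ : κ ≤ κ0)
    (h9 : 9 * κ0 ^ 2 ≤ r * κ) (hl1 : 1 ≤ l) (hn : (x.length : ℝ) + 1 ≤ Real.exp l)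
    (hrl : 1 / r ≤ Real.exp l) (ht : IsTest x.length r (Real.exp l) G) {F F' : ℕ → ℂ}
    (h : Derived κ (2 * κ0) (sq x G) (sq x' G) F F') :
    ∃ H : List Bool → ℂ, IsTest x.length r (Real.exp (3 * l)) H ∧
      (∀ i ≤ x.length, sq x H i = F i) ∧ (∀ i ≤ x.length, sq x' H i = F' i) := by
  rcases h with ⟨rfl, rfl⟩ | ⟨y, hy, rfl, rfl⟩
  · exact ⟨G, ht.mono_bound (Real.exp_le_exp.mpr (by linarith)), fun i _ => rfl, fun i _ => rfl⟩
  · refine ⟨Sz (cexp (-((κ : ℂ) + y * I))) G, ?_, fun i hi => sq_Sz x _ G i hi,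
      fun i hi => sq_Sz x' _ G i (hl ▸ hi)⟩
    have h1 := IsTest.sz hr (Real.exp_pos l).le (disc_condition hκ hκ1 hy hκκ h9 hr) ht
    refine h1.mono_bound ?_
    have h2 : (x.length : ℝ) ≤ Real.exp l := by linarith
    calc (x.length : ℝ) * Real.exp l / r = (x.length : ℝ) * Real.exp l * (1 / r) := by ring
      _ ≤ Real.exp l * Real.exp l * Real.exp l := by
          gcongr
      _ = Real.exp (3 * l) := by rw [← Real.exp_add, ← Real.exp_add]; congr 1; ring

theorem good_step {x x' : List Bool} {i1 : ℕ} (hl : x.length = x'.length)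
    (hi : i1 ≤ x.length) (heq : ∀ τ, ∀ i < i1, sq x τ i = sq x' τ i)
    {r κ l : ℝ} (hr : 0 < r) (hr3 : 3 * r ≤ 1) (hκ : 0 < κ) (hκr : 9000 * κ ≤ r) (hl1 : 1 ≤ l)
    (hn : (x.length : ℝ) + 1 ≤ Real.exp l) (hrl : 1 / r ≤ Real.exp l)
    (hκl : Real.exp (-l) ≤ 9 * κ ^ 2 / r) (h : Good x x' i1 r κ l) :
    Good x x' i1 (3 * r) (9 * κ ^ 2 / r) (10 ^ 12 * l) := by
  obtain ⟨τ, ht, s, hs1, hs2, hs3⟩ := h
  set κ' : ℝ := 9 * κ ^ 2 / r with hκ'
  have hκ'pos : 0 < κ' := by positivity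
  have hκκ : 1000 * κ' ≤ κ := by
    rw [hκ']
    have : 1000 * (9 * κ ^ 2 / r) = κ * (9000 * κ) / r := by ring
    rw [this, div_le_iff₀ hr]
    exact mul_le_mul_of_nonneg_left hκr hκ.le
  have hκ10 : κ ≤ 1 / 10 := by linarith
  have hnorm : ∀ i ≤ x.length, ‖sq x τ i‖ ≤ Real.exp l := fun i _ => by
    unfold sq
    exact ht.norm_le hr.le (by linarith) _ (by rw [List.length_drop]; omega)
  have hnorm' : ∀ i ≤ x.length, ‖sq x' τ i‖ ≤ Real.exp l := fun i _ => by
    unfold sq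
    exact ht.norm_le hr.le (by linarith) _ (by rw [List.length_drop]; omega)
  obtain ⟨g, g', F, F', hS, hD, s', hs1', hs2', hs3'⟩ := step hi hl1 hnorm hnorm' (heq τ) hn hκl
    hκκ hκ10 hs1 hs2 hs3
  have h9 : 9 * κ ^ 2 ≤ r * κ' := by
    rw [hκ']
    have : r * (9 * κ ^ 2 / r) = 9 * κ ^ 2 := by field_simp
    rw [this]
  have hex : ∀ m, ∃ H : List Bool → ℂ, IsTest x.length r (Real.exp (3 * l)) H ∧
      (∀ i ≤ x.length, sq x H i = F m i) ∧ (∀ i ≤ x.length, sq x' H i = F' m i) := by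
    intro m
    obtain ⟨G, hG, hg, hg'⟩ := exists_string_of_simple (by linarith) ht (hS m)
    have hDm := hD m
    rw [hg, hg'] at hDm
    exact exists_string_of_derived hl hr hκ'pos (by linarith) (by linarith) h9 hl1 hn hrl hG hDm
  choose H hH hHx hHx' using hex
  refine ⟨fun y => H 0 y * H 1 y * H 2 y, ?_, s', hs1', hs2', ?_⟩
  · have h3 := IsTest.mul3 hr hr3 (Real.exp_pos _).le (hH 0) (hH 1) (hH 2)
    refine h3.mono_bound ?_
    rw [← Real.exp_nat_mul]
    apply Real.exp_le_exp.mpr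
    push_cast
    nlinarith
  · refine hs3'.trans (le_of_eq ?_)
    congr 1
    refine NN_congr (fun i hi' => ?_) (fun i hi' => ?_) s'
    · rw [← hHx 0 i hi', ← hHx 1 i hi', ← hHx 2 i hi']
      rfl
    · rw [← hHx' 0 i hi', ← hHx' 1 i hi', ← hHx' 2 i hi']
      rfl

end Vale.Agent.P321.UB
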