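import Mathlib.Analysis.Complex.JensenFormula
import Mathlib.Analysis.Complex.Polynomial.Basic
import Mathlib.Analysis.SpecialFunctions.Complex.Analytic
import Mathlib.Analysis.Complex.ExponentialBounds
import Mathlib.Analysis.Real.Pi.Bounds

/-!
# Few bad cells (Poisson-Jensen for polynomials)

Block U2 of the quasi-polynomial upper bound for trace reconstruction.
-/

namespace Vale.Agent.P321.UB

open Complex MeasureTheory Metric Real Set

/-- The Poisson kernel of the disc of centre `0`, as a function of the boundary point. -/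
noncomputable def PK (w z : ℂ) : ℝ := (‖z‖ ^ 2 - ‖w‖ ^ 2) / ‖z - w‖ ^ 2

lemma PK_eq (w : ℂ) : PK w = Complex.re ∘ herglotzRieszKernel 0 w := by
  rw [← poissonKernel_eq_re_herglotzRieszKernel]
  ext z
  simp [PK, poissonKernel]

lemma PK_nonneg {r : ℝ} {w z : ℂ} (hw : ‖w‖ < r) (hz : ‖z‖ = r) : 0 ≤ PK w z := by
  unfold PK
  apply div_nonneg _ (by positivity)
  rw [hz]
  nlinarith [norm_nonneg w]

lemma continuousOn_PK {r : ℝ} {w : ℂ} (hw : ‖w‖ < r) : ContinuousOn (PK w) (sphere 0 |r|) := by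
  have hr : 0 < r := lt_of_le_of_lt (norm_nonneg w) hw
  unfold PK
  apply ContinuousOn.div (by fun_prop) (by fun_prop)
  intro z hz
  have hz' : ‖z‖ = r := by simpa [abs_of_pos hr] using hz
  have : z ≠ w := by
    rintro rfl
    linarith
  have h2 : ‖z - w‖ ≠ 0 := by simpa [sub_eq_zero] using this
  positivity

lemma circleIntegrable_PK_mul {r : ℝ} {w : ℂ} (hw : ‖w‖ < r) {g : ℂ → ℝ}
    (hg : CircleIntegrable g 0 r) : CircleIntegrable (fun z => PK w z * g z) 0 r := by
  exact hg.continuousOn_smul (continuousOn_PK hw)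

/-- Poisson formula for `log ‖· - ρ‖`, as an inequality. -/
lemma one_root {r : ℝ} {w ρ : ℂ} (hw : ‖w‖ < r) (hne : w ≠ ρ) :
    Real.log ‖w - ρ‖ ≤ circleAverage (fun z => PK w z * Real.log ‖z - ρ‖) 0 r := by
  have hr : 0 < r := lt_of_le_of_lt (norm_nonneg w) hw
  have hwb : w ∈ ball (0 : ℂ) r := by simpa using hw
  have hrw : (fun z => PK w z * Real.log ‖z - ρ‖) =
      (Complex.re ∘ herglotzRieszKernel 0 w) • (fun z => Real.log ‖z - ρ‖) := by
    rw [← PK_eq]; rfl
  rcases lt_trichotomy r ‖ρ‖ with h | h | h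
  · -- the root is outside
    rw [hrw, InnerProductSpace.HarmonicOnNhd.circleAverage_re_herglotzRieszKernel_smul _ hwb]
    intro z hz
    apply AnalyticAt.harmonicAt_log_norm (by fun_prop)
    rw [sub_ne_zero]
    rintro rfl
    have : ‖z‖ ≤ r := by simpa using hz
    linarith
  · -- the root is on the circle
    have := circleAverage_re_herglotzRieszKernel_mul_log (c := 0) (ρ := ρ) (R := r)
      (by simpa using h.symm) hwb
    rw [hrw]
    exact this.ge
  · -- the root is inside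
    have hcirc : ∀ z : ℂ, ‖z‖ = r → ‖z - ρ‖ = ‖(r : ℂ) ^ 2 - (starRingEnd ℂ) ρ * z‖ / r := by
      intro z hz
      have hz2 : (r : ℂ) ^ 2 = z * (starRingEnd ℂ) z := by
        rw [Complex.mul_conj, Complex.normSq_eq_norm_sq, hz]; push_cast; ring
      have : (r : ℂ) ^ 2 - (starRingEnd ℂ) ρ * z = z * (starRingEnd ℂ) (z - ρ) := by
        rw [hz2, map_sub]; ring
      rw [this, norm_mul, RCLike.norm_conj, hz]
      field_simp
    set g : ℂ → ℝ := fun z => Real.log ‖((r : ℂ) ^ 2 - (starRingEnd ℂ) ρ * z) / r‖ with hg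
    have hharm : InnerProductSpace.HarmonicOnNhd g (closedBall 0 r) := by
      intro z hz
      apply AnalyticAt.harmonicAt_log_norm (by fun_prop)
      apply div_ne_zero _ (by exact_mod_cast hr.ne')
      rw [sub_ne_zero]
      intro h2
      have hz' : ‖z‖ ≤ r := by simpa using hz
      have h3 : ‖(r : ℂ) ^ 2‖ = ‖ρ‖ * ‖z‖ := by rw [h2, norm_mul, RCLike.norm_conj]
      rw [norm_pow, Complex.norm_real, Real.norm_of_nonneg hr.le] at h3
      nlinarith [norm_nonneg ρ, norm_nonneg z]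
    have hval := InnerProductSpace.HarmonicOnNhd.circleAverage_re_herglotzRieszKernel_smul
      hharm hwb
    have hcong : circleAverage (fun z => PK w z * Real.log ‖z - ρ‖) 0 r = g w := by
      rw [← hval]
      apply circleAverage_congr_sphere
      intro z hz
      have hz' : ‖z‖ = r := by simpa [abs_of_pos hr] using hz
      simp only [Pi.smul_apply', smul_eq_mul, ← PK_eq, hg]
      rw [hcirc z hz', norm_div, Complex.norm_real, Real.norm_of_nonneg hr.le]
    rw [hcong, hg]
    simp only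
    apply Real.log_le_log (by simpa [sub_eq_zero] using hne)
    rw [norm_div, Complex.norm_real, Real.norm_of_nonneg hr.le, le_div_iff₀ hr]
    -- Schwarz-Pick: `r ‖w - ρ‖ ≤ ‖r² - conj ρ w‖`
    apply le_of_sq_le_sq _ (norm_nonneg _)
    rw [mul_pow, ← Complex.normSq_eq_norm_sq, ← Complex.normSq_eq_norm_sq]
    have h1 : Complex.normSq w < r ^ 2 := by
      rw [Complex.normSq_eq_norm_sq]; nlinarith [norm_nonneg w]
    have h2 : Complex.normSq ρ < r ^ 2 := by
      rw [Complex.normSq_eq_norm_sq]; nlinarith [norm_nonneg ρ]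
    have h3 : 0 ≤ (r ^ 2 - Complex.normSq w) * (r ^ 2 - Complex.normSq ρ) := by
      apply mul_nonneg <;> linarith
    have h4 : Complex.normSq ((r : ℂ) ^ 2 - (starRingEnd ℂ) ρ * w) - Complex.normSq (w - ρ) * r ^ 2
        = (r ^ 2 - Complex.normSq w) * (r ^ 2 - Complex.normSq ρ) := by
      simp only [Complex.normSq_apply, Complex.sub_re, Complex.sub_im, Complex.mul_re,
        Complex.mul_im, Complex.conj_re, Complex.conj_im, pow_two, Complex.ofReal_re,
        Complex.ofReal_im]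
      ring
    linarith

lemma multi_root {r : ℝ} {w : ℂ} (hw : ‖w‖ < r) (S : Multiset ℂ) (hS : ∀ ρ ∈ S, w ≠ ρ) :
    CircleIntegrable (fun z => (S.map fun ρ => Real.log ‖z - ρ‖).sum) 0 r ∧
    (S.map fun ρ => Real.log ‖w - ρ‖).sum ≤
      circleAverage (fun z => PK w z * (S.map fun ρ => Real.log ‖z - ρ‖).sum) 0 r := by
  induction S using Multiset.induction_on with
  | empty => simp [circleAverage_const]
  | cons ρ S ih =>
    obtain ⟨h1, h2⟩ := ih (fun ρ hρ => hS ρ (Multiset.mem_cons_of_mem hρ))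
    have h3 : CircleIntegrable (fun z => Real.log ‖z - ρ‖) 0 r :=
      MeromorphicOn.circleIntegrable_log_norm (fun z hz ↦ by fun_prop)
    simp only [Multiset.map_cons, Multiset.sum_cons, mul_add]
    refine ⟨h3.add h1, ?_⟩
    rw [circleAverage_fun_add (circleIntegrable_PK_mul hw h3) (circleIntegrable_PK_mul hw h1)]
    exact add_le_add (one_root hw (hS ρ (Multiset.mem_cons_self _ _))) h2

/-- **Poisson-Jensen inequality** for polynomials. -/
lemma log_norm_eval_le {r : ℝ} {w : ℂ} (hw : ‖w‖ < r) (p : Polynomial ℂ) (hp : p.eval w ≠ 0)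
    {v : ℝ → ℝ}
    (hv : IntervalIntegrable (fun θ => PK w (circleMap 0 r θ) * v θ) volume 0 (2 * π))
    (h : ∀ θ, p.eval (circleMap 0 r θ) ≠ 0 → Real.log ‖p.eval (circleMap 0 r θ)‖ ≤ v θ) :
    Real.log ‖p.eval w‖ ≤ (2 * π)⁻¹ * ∫ θ in (0)..(2 * π), PK w (circleMap 0 r θ) * v θ := by
  have hr : 0 < r := lt_of_le_of_lt (norm_nonneg w) hw
  have hp0 : p ≠ 0 := by rintro rfl; simp at hp
  have hsp := IsAlgClosed.splits p
  have heval : ∀ z, p.eval z = p.leadingCoeff * (p.roots.map fun ρ => z - ρ).prod := by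
    intro z
    conv_lhs => rw [hsp.eq_prod_roots]
    rw [Polynomial.eval_mul, Polynomial.eval_C, Polynomial.eval_multiset_prod, Multiset.map_map]
    simp
  have hlead : p.leadingCoeff ≠ 0 := by simpa using hp0
  set ψ : ℂ → ℝ := fun z => Real.log ‖p.leadingCoeff‖ +
    (p.roots.map fun ρ => Real.log ‖z - ρ‖).sum with hψ
  have hlog : ∀ z, p.eval z ≠ 0 → Real.log ‖p.eval z‖ = ψ z := by
    intro z hz
    have h1 : ∀ ρ ∈ p.roots, z - ρ ≠ 0 := by
      intro ρ hρ h2
      rw [sub_eq_zero] at h2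
      subst h2
      exact hz ((Polynomial.mem_roots hp0).1 hρ)
    rw [heval z, norm_mul, hψ]
    have h2 : ∀ S : Multiset ℂ, (∀ ρ ∈ S, z - ρ ≠ 0) →
        0 < ‖(S.map fun ρ => z - ρ).prod‖ ∧
        Real.log ‖(S.map fun ρ => z - ρ).prod‖ = (S.map fun ρ => Real.log ‖z - ρ‖).sum := by
      intro S
      induction S using Multiset.induction_on with
      | empty => simp
      | cons ρ S ih =>
        intro hS
        obtain ⟨a, b⟩ := ih (fun ρ hρ => hS ρ (Multiset.mem_cons_of_mem hρ))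
        have c : 0 < ‖z - ρ‖ := norm_pos_iff.2 (hS ρ (Multiset.mem_cons_self _ _))
        simp only [Multiset.map_cons, Multiset.prod_cons, Multiset.sum_cons, norm_mul]
        refine ⟨by positivity, ?_⟩
        rw [Real.log_mul c.ne' a.ne', b]
    obtain ⟨a, b⟩ := h2 _ h1
    rw [Real.log_mul (norm_pos_iff.2 hlead).ne' a.ne', b]
  have hwr : ∀ ρ ∈ p.roots, w ≠ ρ := by
    rintro ρ hρ rfl
    exact hp ((Polynomial.mem_roots hp0).1 hρ)
  obtain ⟨h1, h2⟩ := multi_root hw p.roots hwr
  have hconst : CircleIntegrable (fun _ : ℂ => Real.log ‖p.leadingCoeff‖) 0 r :=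
    circleIntegrable_const _ _ _
  have hψi : CircleIntegrable ψ 0 r := hconst.add h1
  have h3 : circleAverage (fun z => PK w z * ψ z) 0 r = Real.log ‖p.leadingCoeff‖ +
      circleAverage (fun z => PK w z * (p.roots.map fun ρ => Real.log ‖z - ρ‖).sum) 0 r := by
    simp only [hψ, mul_add]
    rw [circleAverage_fun_add (circleIntegrable_PK_mul hw hconst)
      (circleIntegrable_PK_mul hw h1)]
    congr 1
    have := InnerProductSpace.HarmonicOnNhd.circleAverage_re_herglotzRieszKernel_smul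
      (f := fun _ => Real.log ‖p.leadingCoeff‖) (c := 0) (w := w) (R := r)
      (by intro z _; exact InnerProductSpace.harmonicAt_const _) (by simpa using hw)
    rw [← PK_eq] at this
    exact this
  calc Real.log ‖p.eval w‖ = ψ w := hlog w hp
    _ ≤ circleAverage (fun z => PK w z * ψ z) 0 r := by
      rw [h3]; exact add_le_add le_rfl h2
    _ ≤ (2 * π)⁻¹ * ∫ θ in (0)..(2 * π), PK w (circleMap 0 r θ) * v θ := by
      unfold circleAverage
      rw [smul_eq_mul]
      apply mul_le_mul_of_nonneg_left _ (by positivity)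
      apply intervalIntegral.integral_mono_ae_restrict (by positivity)
        (circleIntegrable_PK_mul hw hψi) hv
      have hfin : Set.Countable {z : ℂ | p.eval z = 0} := by
        have : {z : ℂ | p.eval z = 0} ⊆ (p.roots.toFinset : Set ℂ) := by
          intro z hz
          simpa [hp0] using hz
        exact (Finset.countable_toSet _).mono this
      have hnull : volume ((fun θ : ℝ => circleMap 0 r θ) ⁻¹' {z : ℂ | p.eval z = 0}) = 0 :=
        (hfin.preimage_circleMap 0 hr.ne').measure_zero _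
      apply ae_restrict_of_ae
      filter_upwards [measure_eq_zero_iff_ae_notMem.mp hnull] with θ hθ
      have hz : p.eval (circleMap 0 r θ) ≠ 0 := by simpa using hθ
      have hz2 : ‖circleMap 0 r θ‖ = r := by simp [abs_of_pos hr]
      apply mul_le_mul_of_nonneg_left _ (PK_nonneg hw hz2)
      rw [← hlog _ hz]
      exact h _ hz

/-- `|e^a - e^b| ≤ |a - b|` for `Re a, Re b ≤ 0`. -/
lemma norm_exp_sub_exp_le {a b : ℂ} (ha : a.re ≤ 0) (hb : b.re ≤ 0) :
    ‖Complex.exp a - Complex.exp b‖ ≤ ‖a - b‖ := by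
  have hconv : Convex ℝ {z : ℂ | z.re ≤ 0} := convex_halfSpace_re_le 0
  have := hconv.norm_image_sub_le_of_norm_hasDerivWithin_le (f := Complex.exp)
    (f' := Complex.exp) (C := 1) (x := b) (y := a)
    (fun z _ => (Complex.hasDerivAt_exp z).hasDerivWithinAt)
    (fun z hz => by
      rw [Complex.norm_exp]
      exact Real.exp_le_one_iff.2 hz) hb ha
  simpa using this

lemma kernel_lower {κ κ0 R ξ : ℝ} {s : ℂ} (hκ : 0 < κ) (hκ0 : 1000 * κ ≤ κ0) (hκ1 : κ0 ≤ 1)
    (hR : 0 ≤ R) (h1 : κ0 / 2 ≤ s.re) (h2 : s.re ≤ 3 * κ0 / 2) (h3 : |s.im| ≤ R * κ0)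
    (hξ0 : 0 ≤ ξ) (hξ1 : ξ ≤ κ0) :
    1 / (3 * (R + 3) ^ 2 * κ0) ≤ PK (Complex.exp (-s)) (circleMap 0 (Real.exp (-κ)) ξ) := by
  have hκ0' : 0 < κ0 := by linarith
  have hz : circleMap 0 (Real.exp (-κ)) ξ = Complex.exp (-κ + ξ * I) := by
    rw [circleMap_zero, Complex.exp_add]; push_cast; ring
  have hnz : ‖circleMap 0 (Real.exp (-κ)) ξ‖ = Real.exp (-κ) := by
    rw [hz, Complex.norm_exp]; simp
  have hnw : ‖Complex.exp (-s)‖ = Real.exp (-s.re) := by rw [Complex.norm_exp]; simp
  have hdist : ‖circleMap 0 (Real.exp (-κ)) ξ - Complex.exp (-s)‖ ≤ (R + 3) * κ0 := by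
    rw [hz]
    refine (norm_exp_sub_exp_le (by simp; linarith) (by simp; linarith)).trans ?_
    refine (Complex.norm_le_abs_re_add_abs_im _).trans ?_
    have e1 : ((-κ + ξ * I : ℂ) - -s).re = s.re - κ := by simp; ring
    have e2 : ((-κ + ξ * I : ℂ) - -s).im = ξ + s.im := by simp
    rw [e1, e2]
    have a1 : |s.re - κ| ≤ 3 * κ0 / 2 := by rw [abs_le]; constructor <;> linarith
    have a2 : |ξ + s.im| ≤ κ0 + R * κ0 :=
      (abs_add_le _ _).trans (add_le_add (by rw [abs_of_nonneg hξ0]; exact hξ1) h3)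
    nlinarith
  have hne : 0 < ‖circleMap 0 (Real.exp (-κ)) ξ - Complex.exp (-s)‖ := by
    rw [norm_pos_iff, sub_ne_zero]
    intro h
    rw [h, hnw] at hnz
    have := Real.exp_injective hnz
    linarith
  have hnum : κ0 / 3 ≤ Real.exp (-κ) ^ 2 - Real.exp (-s.re) ^ 2 := by
    have b1 : Real.exp (-s.re) ^ 2 ≤ Real.exp (-κ0) := by
      rw [← Real.exp_nat_mul]
      apply Real.exp_le_exp.2
      push_cast; linarith
    have b2 : Real.exp (-κ) ^ 2 = Real.exp (-κ0) * Real.exp (κ0 - 2 * κ) := by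
      rw [← Real.exp_nat_mul, ← Real.exp_add]
      congr 1; push_cast; ring
    have b3 : 1 + (κ0 - 2 * κ) ≤ Real.exp (κ0 - 2 * κ) := by
      have := Real.add_one_le_exp (κ0 - 2 * κ); linarith
    have b4 : Real.exp (-1) ≤ Real.exp (-κ0) := Real.exp_le_exp.2 (by linarith)
    have b5 : (0.36 : ℝ) ≤ Real.exp (-1) := by
      have := Real.exp_neg_one_gt_d9; linarith
    have b6 : 0 < Real.exp (-κ0) := Real.exp_pos _
    have b7 : 0.36 * (κ0 - 2 * κ) ≤ Real.exp (-κ0) * (κ0 - 2 * κ) := by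
      apply mul_le_mul_of_nonneg_right (by linarith) (by linarith)
    nlinarith
  unfold PK
  rw [hnz, hnw, div_le_div_iff₀ (by positivity) (by positivity)]
  have hsq : ‖circleMap 0 (Real.exp (-κ)) ξ - Complex.exp (-s)‖ ^ 2 ≤ ((R + 3) * κ0) ^ 2 := by
    gcongr
  calc 1 * ‖circleMap 0 (Real.exp (-κ)) ξ - Complex.exp (-s)‖ ^ 2
      ≤ ((R + 3) * κ0) ^ 2 := by rw [one_mul]; exact hsq
    _ = κ0 / 3 * (3 * (R + 3) ^ 2 * κ0) := by ring
    _ ≤ (Real.exp (-κ) ^ 2 - Real.exp (-s.re) ^ 2) * (3 * (R + 3) ^ 2 * κ0) := by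
      apply mul_le_mul_of_nonneg_right hnum (by positivity)

lemma continuous_PK_circleMap {r : ℝ} {w : ℂ} (hw : ‖w‖ < r) :
    Continuous fun θ : ℝ => PK w (circleMap 0 r θ) :=
  (continuousOn_PK hw).comp_continuous (continuous_circleMap 0 r)
    (fun θ => circleMap_mem_sphere' 0 r θ)

lemma integral_PK {r : ℝ} {w : ℂ} (hw : ‖w‖ < r) :
    ∫ θ in (0)..(2 * π), PK w (circleMap 0 r θ) = 2 * π := by
  have := InnerProductSpace.HarmonicOnNhd.circleAverage_re_herglotzRieszKernel_smul
    (f := fun _ => (1 : ℝ)) (c := 0) (w := w) (R := r)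
    (by intro z _; exact InnerProductSpace.harmonicAt_const _) (by simpa using hw)
  rw [← PK_eq] at this
  unfold circleAverage at this
  have h2 : (2 * π : ℝ) ≠ 0 := by positivity
  simp only [Pi.smul_apply', smul_eq_mul, mul_one] at this
  field_simp at this
  linarith

lemma arith_final {κ κ0 R lA le c b F : ℝ} (hκ : 0 < κ) (hκ0 : 1000 * κ ≤ κ0) (hR : 0 ≤ R)
    (hc0 : 0 < c) (hlogA : 0 ≤ lA) (hc : 4000 * (R + 3) ^ 2 * (lA - le) ≤ c)
    (hmain : (c + lA) * (1 / (3 * (R + 3) ^ 2 * κ0) * (b * κ)) ≤ 2 * π * (lA - le))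
    (hb : 0 ≤ b) (hF : κ0 / 2 ≤ F * κ) : 100 * b < F := by
  have hκ0' : 0 < κ0 := by linarith
  have hcard0 : 0 ≤ b * κ := by positivity
  have hQ : 0 < 3 * (R + 3) ^ 2 * κ0 := by positivity
  have hmain2 : c * (b * κ) ≤ (3 * (R + 3) ^ 2 * κ0) * (2 * π * (lA - le)) := by
    have h6 : c * (b * κ) ≤ (c + lA) * (b * κ) :=
      mul_le_mul_of_nonneg_right (by linarith) hcard0
    have h7 : (c + lA) * (b * κ) =
        (3 * (R + 3) ^ 2 * κ0) * ((c + lA) * (1 / (3 * (R + 3) ^ 2 * κ0) * (b * κ))) := by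
      field_simp
    have h8 := mul_le_mul_of_nonneg_left hmain hQ.le
    linarith
  have hmain3 : 4000 * (c * (b * κ)) ≤ c * (6 * π * κ0) := by
    have h6 := mul_le_mul_of_nonneg_left hc (show 0 ≤ 6 * π * κ0 by positivity)
    have h7 : 6 * π * κ0 * (4000 * (R + 3) ^ 2 * (lA - le)) =
        4000 * ((3 * (R + 3) ^ 2 * κ0) * (2 * π * (lA - le))) := by ring
    have h8 : c * (6 * π * κ0) = 6 * π * κ0 * c := by ring
    linarith
  have hmain4 : 4000 * (b * κ) ≤ 6 * π * κ0 := by
    have h6 : c * (4000 * (b * κ)) ≤ c * (6 * π * κ0) := by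
      calc c * (4000 * (b * κ)) = 4000 * (c * (b * κ)) := by ring
        _ ≤ _ := hmain3
    exact le_of_mul_le_mul_left h6 hc0
  have hπ2 : π < 3.15 := Real.pi_lt_d2
  have h10 : 6 * π * κ0 ≤ 19 * κ0 := by
    apply mul_le_mul_of_nonneg_right _ hκ0'.le
    linarith
  have h12 : (100 * b) * κ < F * κ := by linarith
  exact lt_of_mul_lt_mul_right h12 hκ.le

/-- **Few bad cells.** `D s = ∑_{k < N} d k e^{-s k}` is bounded by `A` on `Re s = κ` and has
absolute value at least `ε` at a point `s` with `κ0/2 ≤ Re s ≤ 3 κ0/2`, `|Im s| ≤ R κ0`. Then less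
than one percent of the cells `[a κ, (a+1) κ)`, `a < L`, are bad: `|D(κ - i ξ)| < e^{-c}` on
the whole cell (`κ0/2 ≤ L κ ≤ κ0`). -/
theorem few_bad_core {κ κ0 R A ε c : ℝ} {s : ℂ} {L : ℕ} (N : ℕ) (d : ℕ → ℂ)
    (hκ : 0 < κ) (hκ0 : 1000 * κ ≤ κ0) (hκ1 : κ0 ≤ 1) (hR : 0 ≤ R)
    (h1 : κ0 / 2 ≤ s.re) (h2 : s.re ≤ 3 * κ0 / 2) (h3 : |s.im| ≤ R * κ0)
    (hA : ∀ ξ : ℝ, ‖∑ k ∈ Finset.range N, d k * Complex.exp (-((κ - ξ * I) * k))‖ ≤ A)
    (hA1 : 1 ≤ A) (hε : 0 < ε)
    (hs : ε ≤ ‖∑ k ∈ Finset.range N, d k * Complex.exp (-(s * k))‖)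
    (hc0 : 0 < c) (hc : 4000 * (R + 3) ^ 2 * (Real.log A - Real.log ε) ≤ c)
    (hL : (L : ℝ) * κ ≤ κ0) (hL' : κ0 / 2 ≤ (L : ℝ) * κ)
    (B : Finset ℕ) (hB : B ⊆ Finset.range L)
    (hbad : ∀ a ∈ B, ∀ ξ : ℝ, a * κ ≤ ξ → ξ < (a + 1) * κ →
      ‖∑ k ∈ Finset.range N, d k * Complex.exp (-((κ - ξ * I) * k))‖ < Real.exp (-c)) :
    100 * B.card < L := by
  classical
  set r := Real.exp (-κ) with hr
  set w := Complex.exp (-s) with hwdef
  have hκ0' : 0 < κ0 := by linarith
  have hw : ‖w‖ < r := by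
    rw [hwdef, hr, Complex.norm_exp, Complex.neg_re]
    apply Real.exp_lt_exp.2
    linarith
  set p : Polynomial ℂ := ∑ k ∈ Finset.range N, Polynomial.C (d k) * Polynomial.X ^ k with hpdef
  have hpe : ∀ t : ℂ, p.eval (Complex.exp (-t)) =
      ∑ k ∈ Finset.range N, d k * Complex.exp (-(t * k)) := by
    intro t
    rw [hpdef, Polynomial.eval_finsetSum]
    apply Finset.sum_congr rfl
    intro k _
    simp only [Polynomial.eval_mul, Polynomial.eval_C, Polynomial.eval_pow, Polynomial.eval_X]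
    rw [← Complex.exp_nat_mul]
    congr 2; ring
  have hcm : ∀ ξ : ℝ, circleMap 0 r ξ = Complex.exp (-(κ - ξ * I)) := by
    intro ξ
    rw [circleMap_zero, hr, neg_sub, sub_eq_add_neg, add_comm, Complex.exp_add]
    push_cast; ring
  have hpc : ∀ ξ : ℝ, p.eval (circleMap 0 r ξ) =
      ∑ k ∈ Finset.range N, d k * Complex.exp (-((κ - ξ * I) * k)) := by
    intro ξ; rw [hcm, hpe]
  have hpw : ε ≤ ‖p.eval w‖ := by rw [hwdef, hpe]; exact hs
  have hpw0 : p.eval w ≠ 0 := by
    intro h; rw [h, norm_zero] at hpw; linarith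
  -- the bad set
  set E : Set ℝ := ⋃ a ∈ B, Ioo ((a : ℝ) * κ) ((a + 1) * κ) with hE
  have hEm : MeasurableSet E := Finset.measurableSet_biUnion _ (fun a _ => measurableSet_Ioo)
  have hEsub : E ⊆ Ioo 0 κ0 := by
    intro θ hθ
    simp only [hE, mem_iUnion, exists_prop] at hθ
    obtain ⟨a, ha, hθ1, hθ2⟩ := hθ
    have ha2 := Finset.mem_range.1 (hB ha)
    have ha3 : (a + 1 : ℝ) ≤ (L : ℝ) := by exact_mod_cast ha2
    constructor
    · have : 0 ≤ (a : ℝ) * κ := by positivity
      linarith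
    · have : (a + 1 : ℝ) * κ ≤ (L : ℝ) * κ := by gcongr
      linarith
  have hEvol : volume.real E = B.card * κ := by
    rw [hE, measureReal_def, measure_biUnion_finset]
    · simp only [Real.volume_Ioo]
      have : ∀ a ∈ B, ENNReal.ofReal ((a + 1 : ℝ) * κ - a * κ) = ENNReal.ofReal κ := by
        intro a _; congr 1; ring
      rw [Finset.sum_congr rfl this, Finset.sum_const, nsmul_eq_mul, ENNReal.toReal_mul,
        ENNReal.toReal_ofReal hκ.le]
      simp
    · intro a _ b _ hab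
      simp only [Function.onFun]
      rw [Set.disjoint_left]
      rintro θ ⟨ha1, ha2⟩ ⟨hb1, hb2⟩
      apply hab
      have c1 : (a : ℝ) < b + 1 := by
        have := ha1.trans hb2
        exact lt_of_mul_lt_mul_right this hκ.le
      have c2 : (b : ℝ) < a + 1 := by
        have := hb1.trans ha2
        exact lt_of_mul_lt_mul_right this hκ.le
      have c1' : a < b + 1 := by exact_mod_cast c1
      have c2' : b < a + 1 := by exact_mod_cast c2
      omega
    · intro a _; exact measurableSet_Ioo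
  have hlogA : 0 ≤ Real.log A := Real.log_nonneg hA1
  have hπ : κ0 ≤ 2 * π := by have := Real.pi_gt_three; linarith
  set F : ℝ → ℝ := fun θ => PK w (circleMap 0 r θ) with hF
  have hFc : Continuous F := continuous_PK_circleMap hw
  set v : ℝ → ℝ := fun θ => Real.log A - (c + Real.log A) * E.indicator (fun _ => (1 : ℝ)) θ with hv
  have hFi : IntervalIntegrable F volume 0 (2 * π) := hFc.intervalIntegrable _ _
  have hFE : IntervalIntegrable (E.indicator F) volume 0 (2 * π) := by
    rw [intervalIntegrable_iff] at hFi ⊢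
    exact hFi.indicator hEm
  have hFv : (fun θ => F θ * v θ) =
      fun θ => Real.log A * F θ - (c + Real.log A) * E.indicator F θ := by
    funext θ
    by_cases hθ : θ ∈ E
    · simp only [hv, Set.indicator_of_mem hθ]; ring
    · simp only [hv, Set.indicator_of_notMem hθ]; ring
  have key := log_norm_eval_le (v := v) hw p hpw0
    (by
      have : IntervalIntegrable (fun θ => F θ * v θ) volume 0 (2 * π) := by
        rw [hFv]
        exact (hFi.const_mul _).sub (hFE.const_mul _)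
      exact this)
    (by
      intro θ hθ
      by_cases hθE : θ ∈ E
      · simp only [hv, Set.indicator_of_mem hθE]
        simp only [hE, mem_iUnion, exists_prop] at hθE
        obtain ⟨a, ha, hθ1, hθ2⟩ := hθE
        have := hbad a ha θ hθ1.le hθ2
        rw [← hpc] at this
        have h5 := Real.log_le_log (norm_pos_iff.2 hθ) this.le
        rw [Real.log_exp] at h5
        linarith
      · simp only [hv, Set.indicator_of_notMem hθE]
        have := hA θ
        rw [← hpc] at this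
        have h5 := Real.log_le_log (norm_pos_iff.2 hθ) this
        linarith)
  have hint : ∫ θ in (0)..(2 * π), PK w (circleMap 0 r θ) * v θ =
      Real.log A * (2 * π) - (c + Real.log A) * ∫ θ in E, F θ := by
    have e1 : ∫ θ in (0)..(2 * π), PK w (circleMap 0 r θ) * v θ =
        ∫ θ in (0)..(2 * π), (Real.log A * F θ - (c + Real.log A) * E.indicator F θ) := by
      rw [← hFv]
    rw [e1, intervalIntegral.integral_sub (hFi.const_mul _) (hFE.const_mul _),
      intervalIntegral.integral_const_mul, intervalIntegral.integral_const_mul, integral_PK hw]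
    congr 2
    rw [intervalIntegral.integral_of_le (by positivity), setIntegral_indicator hEm]
    congr 2
    apply Set.inter_eq_right.2
    intro θ hθ
    have := hEsub hθ
    exact ⟨this.1, this.2.le.trans hπ⟩
  have hlow : 1 / (3 * (R + 3) ^ 2 * κ0) * (B.card * κ) ≤ ∫ θ in E, F θ := by
    have hfin : volume E ≠ ⊤ := by
      apply ne_top_of_le_ne_top _ (measure_mono hEsub)
      simp
    have : ∫ θ in E, (1 / (3 * (R + 3) ^ 2 * κ0) : ℝ) ≤ ∫ θ in E, F θ := by
      apply setIntegral_mono_on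
      · exact integrableOn_const hfin
      · exact (hFc.integrableOn_Icc (a := 0) (b := κ0)).mono_set
          (hEsub.trans Ioo_subset_Icc_self)
      · exact hEm
      · intro θ hθ
        exact kernel_lower hκ hκ0 hκ1 hR h1 h2 h3 (hEsub hθ).1.le (hEsub hθ).2.le
    rw [setIntegral_const, hEvol, smul_eq_mul] at this
    linarith
  have hlogε : Real.log ε ≤ Real.log ‖p.eval w‖ := Real.log_le_log hε hpw
  rw [hint] at key
  have hQ : 0 < 3 * (R + 3) ^ 2 * κ0 := by positivity
  have hcard0 : 0 ≤ (B.card : ℝ) * κ := by positivity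
  -- main inequality
  have hmain : (c + Real.log A) * (1 / (3 * (R + 3) ^ 2 * κ0) * (B.card * κ)) ≤
      2 * π * (Real.log A - Real.log ε) := by
    have h6 : (c + Real.log A) * (1 / (3 * (R + 3) ^ 2 * κ0) * (B.card * κ)) ≤
        (c + Real.log A) * ∫ θ in E, F θ := mul_le_mul_of_nonneg_left hlow (by linarith)
    have h7 : 2 * π * Real.log ε ≤
        Real.log A * (2 * π) - (c + Real.log A) * ∫ θ in E, F θ := by
      have h8 := hlogε.trans key
      have h9 : 2 * π * Real.log ε ≤ 2 * π * ((2 * π)⁻¹ *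
          (Real.log A * (2 * π) - (c + Real.log A) * ∫ θ in E, F θ)) :=
        mul_le_mul_of_nonneg_left h8 (by positivity)
      rwa [← mul_assoc, mul_inv_cancel₀ (by positivity), one_mul] at h9
    linarith
  have h13 := arith_final hκ hκ0 hR hc0 hlogA hc hmain (Nat.cast_nonneg _) hL'
  exact_mod_cast h13

end Vale.Agent.P321.UB
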