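import Vale.Agent.P321.UB.Basic
import Vale.Agent.P321.UB.U2

/-! # Block U2: Poisson–Jensen for polynomials and few bad cells -/

namespace Vale.Agent.P321.UB

open Complex Finset

/-- Poisson–Jensen inequality for a polynomial. (`log 0 = 0` in Lean, so `G w ≠ 0` is needed.) -/
theorem log_norm_le_circleAverage (G : Polynomial ℂ) {r : ℝ} (hr : 0 < r) {w : ℂ} (hw : ‖w‖ < r)
    (hG : G.eval w ≠ 0) :
    Real.log ‖G.eval w‖ ≤
      Real.circleAverage (fun z => poissonKernel 0 w z * Real.log ‖G.eval z‖) 0 r := by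
  have h1 : CircleIntegrable (fun z => Real.log ‖G.eval z‖) 0 r :=
    MeromorphicOn.circleIntegrable_log_norm
      (fun z _ => (Differentiable.analyticAt G.differentiable z).meromorphicAt)
  have h2 := circleIntegrable_PK_mul hw h1
  have h3 := log_norm_eval_le (v := fun θ => Real.log ‖G.eval (circleMap 0 r θ)‖) hw G hG h2
    (fun θ _ => le_rfl)
  have h4 : (fun z => poissonKernel 0 w z * Real.log ‖G.eval z‖) =
      fun z => PK w z * Real.log ‖G.eval z‖ := by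
    funext z; simp [PK, poissonKernel]
  rw [h4, Real.circleAverage, smul_eq_mul]
  exact h3

/-- Few bad cells. Cells are `[aκ,(a+1)κ]`, `a < L`; `κ0 / 2 ≤ Lκ ≤ κ0`. -/
theorem few_bad {m : ℕ} {a : ℕ → ℂ} {A κ κ0 ε c : ℝ} {s1 : ℂ} {L : ℕ} (hA : 1 ≤ A)
    (ha : ∀ k < m, ‖a k‖ ≤ A) (hκ : 0 < κ) (hκκ : 1000 * κ ≤ κ0) (hκ0 : κ0 ≤ 1 / 10)
    (hs1 : κ0 / 2 ≤ s1.re) (hs1' : s1.re ≤ 3 * κ0 / 2) (hs1i : |s1.im| ≤ 50 * κ0)
    (hε : 0 < ε) (hε1 : ε ≤ 1) (hs : ε ≤ ‖expSum m a s1‖)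
    (hc : 10 ^ 8 * Real.log (8 * A / (κ * ε)) ≤ c)
    (hL : (L : ℝ) * κ ≤ κ0) (hL' : κ0 / 2 ≤ (L : ℝ) * κ) :
    ∃ bad : Finset ℕ, 100 * bad.card < L ∧ ∀ j < L, j ∉ bad →
      ∃ ξ : ℝ, j * κ ≤ ξ ∧ ξ ≤ (j + 1) * κ ∧
        Real.exp (-c) ≤ ‖expSum m a ((κ : ℂ) - ξ * I)‖ := by
  classical
  have hκ1 : κ ≤ 1 := by linarith
  have hexp : ∀ t : ℂ, expSum m a t = ∑ k ∈ range m, a k * cexp (-(t * k)) := by
    intro t
    unfold expSum
    apply sum_congr rfl
    intro k _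
    rw [neg_mul]
  have hgeom : ∀ ξ : ℝ, ‖∑ k ∈ range m, a k * cexp (-(((κ : ℂ) - ξ * I) * k))‖ ≤
      2 * A / κ := by
    intro ξ
    have h1 : ‖∑ k ∈ range m, a k * cexp (-(((κ : ℂ) - ξ * I) * k))‖ ≤
        ∑ k ∈ range m, A * (Real.exp (-κ)) ^ k := by
      refine (norm_sum_le _ _).trans (sum_le_sum ?_)
      intro k hk
      rw [norm_mul, Complex.norm_exp]
      have h2 : (-(((κ : ℂ) - ξ * I) * k)).re = k * (-κ) := by
        simp; ring
      rw [h2, Real.exp_nat_mul]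
      exact mul_le_mul_of_nonneg_right (ha k (mem_range.1 hk)) (by positivity)
    refine h1.trans ?_
    rw [← mul_sum]
    have hlt : Real.exp (-κ) < 1 := by
      rw [Real.exp_lt_one_iff]; linarith
    have h3 : ∑ k ∈ range m, (Real.exp (-κ)) ^ k ≤ 2 / κ := by
      have h4 : ∑ k ∈ range m, (Real.exp (-κ)) ^ k ≤ (1 - Real.exp (-κ))⁻¹ := by
        rw [← tsum_geometric_of_lt_one (Real.exp_pos _).le hlt]
        exact (summable_geometric_of_lt_one (Real.exp_pos _).le hlt).sum_le_tsum _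
          (fun k _ => by positivity)
      have h5 : κ / 2 ≤ 1 - Real.exp (-κ) := by
        have h6 : Real.exp (-κ) ≤ 1 / (1 + κ) := by
          rw [Real.exp_neg, ← one_div]
          apply one_div_le_one_div_of_le (by linarith)
          linarith [Real.add_one_le_exp κ]
        have h7 : 1 / (1 + κ) ≤ 1 - κ / 2 := by
          rw [div_le_iff₀ (by linarith)]
          nlinarith
        linarith
      calc ∑ k ∈ range m, (Real.exp (-κ)) ^ k ≤ (1 - Real.exp (-κ))⁻¹ := h4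
        _ ≤ (κ / 2)⁻¹ := inv_anti₀ (by positivity) h5
        _ = 2 / κ := by rw [inv_div]
    calc A * ∑ k ∈ range m, (Real.exp (-κ)) ^ k ≤ A * (2 / κ) :=
          mul_le_mul_of_nonneg_left h3 (by linarith)
      _ = 2 * A / κ := by ring
  have hA' : 1 ≤ 2 * A / κ := by
    rw [le_div_iff₀ hκ]; nlinarith
  have hlog : Real.log (2 * A / κ) - Real.log ε ≤ Real.log (8 * A / (κ * ε)) := by
    rw [← Real.log_div (by positivity) hε.ne']
    apply Real.log_le_log (by positivity)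
    rw [div_div]
    gcongr
    norm_num
  have hlog0 : 0 < Real.log (8 * A / (κ * ε)) := by
    apply Real.log_pos
    rw [lt_div_iff₀ (by positivity)]
    nlinarith [mul_le_mul hκ1 hε1 hε.le (by norm_num : (0 : ℝ) ≤ 1)]
  have hc0 : 0 < c := by linarith
  set B : Finset ℕ := (range L).filter fun j => ∀ ξ : ℝ, j * κ ≤ ξ → ξ < (j + 1) * κ →
    ‖expSum m a ((κ : ℂ) - ξ * I)‖ < Real.exp (-c) with hB
  refine ⟨B, ?_, ?_⟩
  · apply few_bad_core (R := 50) (κ := κ) (κ0 := κ0) (A := 2 * A / κ) (ε := ε) (c := c) (s := s1)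
      m a hκ hκκ (by linarith) (by norm_num) hs1 hs1' hs1i hgeom hA' hε
      (by rw [← hexp]; exact hs) hc0 _ hL hL' B (filter_subset _ _)
    · intro j hj ξ h1 h2
      rw [← hexp]
      exact (mem_filter.1 hj).2 ξ h1 h2
    · nlinarith
  · intro j hj hjB
    by_contra hcon
    push Not at hcon
    apply hjB
    rw [hB, mem_filter, mem_range]
    exact ⟨hj, fun ξ h1 h2 => hcon ξ h1 h2.le⟩

end Vale.Agent.P321.UB
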