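import Vale.Agent.P321.UB.Basic

/-! # Block U3: Gaussian kernels and transfer -/

namespace Vale.Agent.P321.UB

open Complex Finset MeasureTheory

/-- The Gaussian kernel `(θ/√(2πa)) e^{-(η - iβ)²θ²/(2a)}`. -/
noncomputable def gK (θ a β η : ℝ) : ℂ :=
  (θ / Real.sqrt (2 * Real.pi * a) : ℝ) * cexp (-((η : ℂ) - β * I) ^ 2 * θ ^ 2 / (2 * a))

/-- the total mass of a real Gaussian of precision `2w` centred at `m` -/
theorem gaussInt {w : ℝ} (_hw : 0 < w) (m : ℝ) :
    ∫ η : ℝ, Real.exp (-w * (η - m) ^ 2) = Real.sqrt (Real.pi / w) := by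
  rw [integral_sub_right_eq_self (μ := volume) (fun η : ℝ => Real.exp (-w * η ^ 2)) m,
    integral_gaussian]

theorem gaussIntegrable {w : ℝ} (hw : 0 < w) (m : ℝ) :
    Integrable (fun η : ℝ => Real.exp (-w * (η - m) ^ 2)) := by
  by_contra h
  have h1 := gaussInt hw m
  rw [integral_undef h] at h1
  have : 0 < Real.sqrt (Real.pi / w) := Real.sqrt_pos.2 (div_pos Real.pi_pos hw)
  linarith

theorem gK_coef {θ a : ℝ} (hθ : 0 < θ) (ha : 0 < a) :
    θ / Real.sqrt (2 * Real.pi * a) * Real.sqrt (Real.pi / (θ ^ 2 / (2 * a))) = 1 := by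
  have hpi := Real.pi_pos
  have h1 : Real.pi / (θ ^ 2 / (2 * a)) = (2 * Real.pi * a) / θ ^ 2 := by
    field_simp
  have h2 : 0 < Real.sqrt (2 * Real.pi * a) := Real.sqrt_pos.2 (by positivity)
  rw [h1, Real.sqrt_div (by positivity), Real.sqrt_sq hθ.le]
  field_simp

theorem gK_norm {θ a β : ℝ} (hθ : 0 < θ) (η : ℝ) :
    ‖gK θ a β η‖ = θ / Real.sqrt (2 * Real.pi * a) * Real.exp (β ^ 2 * θ ^ 2 / (2 * a))
      * Real.exp (-(θ ^ 2 / (2 * a)) * η ^ 2) := by
  have h1 : (-((η : ℂ) - β * I) ^ 2 * θ ^ 2 / (2 * a)).re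
      = β ^ 2 * θ ^ 2 / (2 * a) + -(θ ^ 2 / (2 * a)) * η ^ 2 := by
    have : (-((η : ℂ) - β * I) ^ 2 * θ ^ 2 / (2 * a))
        = ((β ^ 2 * θ ^ 2 / (2 * a) + -(θ ^ 2 / (2 * a)) * η ^ 2 : ℝ) : ℂ)
          + ((2 * η * β * θ ^ 2 / (2 * a) : ℝ) : ℂ) * I := by
      push_cast
      have hI : I ^ 2 = -1 := I_sq
      linear_combination (-(β : ℂ) ^ 2 * θ ^ 2 / (2 * a)) * hI
    rw [this, add_re, ofReal_re, re_ofReal_mul, I_re, mul_zero, add_zero]
  have h0 : 0 ≤ θ / Real.sqrt (2 * Real.pi * a) := div_nonneg hθ.le (Real.sqrt_nonneg _)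
  rw [gK, norm_mul, norm_exp, h1, Real.exp_add, norm_real, Real.norm_eq_abs, abs_of_nonneg h0]
  ring

/-- Superposition: `∫ gK(η) e^{(β+iη)x} dη = e^{-a x²/(2θ²)}`. -/
theorem integral_gK {θ a β x : ℝ} (hθ : 0 < θ) (ha : 0 < a) :
    ∫ η : ℝ, gK θ a β η * cexp (((β : ℂ) + η * I) * x) =
      cexp (-(a : ℂ) * x ^ 2 / (2 * θ ^ 2)) := by
  have hθ' : (θ : ℂ) ≠ 0 := by exact_mod_cast hθ.ne'
  have ha' : (a : ℂ) ≠ 0 := by exact_mod_cast ha.ne'
  have e : ∀ η : ℝ, gK θ a β η * cexp (((β : ℂ) + η * I) * x)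
      = ((θ / Real.sqrt (2 * Real.pi * a) : ℝ) : ℂ) *
        cexp (((-(θ ^ 2 / (2 * a)) : ℝ) : ℂ) * (η : ℂ) ^ 2
        + (((β * θ ^ 2 / a + x : ℝ) : ℂ) * I) * η
        + (((β ^ 2 * θ ^ 2 / (2 * a) + β * x : ℝ)) : ℂ)) := by
    intro η
    rw [gK, mul_assoc, ← Complex.exp_add]
    congr 2
    push_cast
    have hI : I ^ 2 = -1 := I_sq
    linear_combination (-(β : ℂ) ^ 2 * θ ^ 2 / (2 * a)) * hI
  simp only [e]
  have hw : 0 < θ ^ 2 / (2 * a) := by positivity
  rw [integral_const_mul, integral_cexp_quadratic (by rw [ofReal_re]; linarith)]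
  have hb : ((β ^ 2 * θ ^ 2 / (2 * a) + β * x : ℝ) : ℂ) - (((β * θ ^ 2 / a + x : ℝ) : ℂ) * I) ^ 2 /
      (4 * ((-(θ ^ 2 / (2 * a)) : ℝ) : ℂ)) = -(a : ℂ) * x ^ 2 / (2 * θ ^ 2) := by
    rw [mul_pow, I_sq]
    push_cast
    field_simp
    ring
  rw [hb]
  have hs : ((Real.pi : ℂ) / -((-(θ ^ 2 / (2 * a)) : ℝ) : ℂ)) ^ (1 / 2 : ℂ)
      = ((Real.sqrt (Real.pi / (θ ^ 2 / (2 * a))) : ℝ) : ℂ) := by
    have : ((Real.pi : ℂ) / -((-(θ ^ 2 / (2 * a)) : ℝ) : ℂ))
        = ((Real.pi / (θ ^ 2 / (2 * a)) : ℝ) : ℂ) := by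
      push_cast; ring
    rw [this, Real.sqrt_eq_rpow, ofReal_cpow (by positivity)]
    norm_num
  rw [hs, ← mul_assoc, ← ofReal_mul, gK_coef hθ ha, ofReal_one, one_mul]

theorem continuous_gK {θ a β : ℝ} : Continuous (gK θ a β) := by
  unfold gK
  fun_prop

theorem integrable_norm_gK {θ a β : ℝ} (hθ : 0 < θ) (ha : 0 < a) :
    Integrable (fun η => ‖gK θ a β η‖) := by
  have hw : 0 < θ ^ 2 / (2 * a) := by positivity
  have h := (gaussIntegrable hw 0).const_mul
    (θ / Real.sqrt (2 * Real.pi * a) * Real.exp (β ^ 2 * θ ^ 2 / (2 * a)))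
  refine h.congr (Filter.Eventually.of_forall fun η => ?_)
  simp only [gK_norm hθ, sub_zero]

theorem integrable_gK {θ a β : ℝ} (hθ : 0 < θ) (ha : 0 < a) : Integrable (gK θ a β) :=
  (integrable_norm_iff continuous_gK.aestronglyMeasurable).1 (integrable_norm_gK hθ ha)

/-- `L¹` mass of the kernel. -/
theorem integral_norm_gK {θ a β : ℝ} (hθ : 0 < θ) (ha : 0 < a) :
    ∫ η : ℝ, ‖gK θ a β η‖ = Real.exp (β ^ 2 * θ ^ 2 / (2 * a)) := by
  have hw : 0 < θ ^ 2 / (2 * a) := by positivity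
  have e : ∀ η : ℝ, ‖gK θ a β η‖ = (θ / Real.sqrt (2 * Real.pi * a)
      * Real.exp (β ^ 2 * θ ^ 2 / (2 * a))) * Real.exp (-(θ ^ 2 / (2 * a)) * (η - 0) ^ 2) := by
    intro η
    rw [gK_norm hθ, sub_zero]
  simp only [e]
  rw [integral_const_mul, gaussInt hw]
  have := gK_coef hθ ha
  linear_combination Real.exp (β ^ 2 * θ ^ 2 / (2 * a)) * this

/-- A truncation bound: if `F` is bounded by `X` on `[-b,b]` and by `Y` everywhere then
`‖∫ gK F‖ ≤ e^{β²θ²/2a} (X + √2 e^{-b²θ²/(4a)} Y)`. -/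
theorem norm_integral_gK_mul_le {θ a β b X Y : ℝ} (hθ : 0 < θ) (ha : 0 < a) (hb : 0 ≤ b)
    (hX : 0 ≤ X) (hY : 0 ≤ Y) {F : ℝ → ℂ} (hF : ∀ η, |η| ≤ b → ‖F η‖ ≤ X) (hF' : ∀ η, ‖F η‖ ≤ Y) :
    ‖∫ η : ℝ, gK θ a β η * F η‖ ≤ Real.exp (β ^ 2 * θ ^ 2 / (2 * a)) *
      (X + Real.sqrt 2 * Real.exp (-(b ^ 2 * θ ^ 2) / (4 * a)) * Y) := by
  set w := θ ^ 2 / (2 * a) with hw'
  have hw : 0 < w := by rw [hw']; positivity
  set N := θ / Real.sqrt (2 * Real.pi * a) with hN'
  have hN : 0 ≤ N := div_nonneg hθ.le (Real.sqrt_nonneg _)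
  set E := Real.exp (β ^ 2 * θ ^ 2 / (2 * a)) with hE'
  have hE : 0 < E := Real.exp_pos _
  set T := Real.exp (-(b ^ 2 * θ ^ 2) / (4 * a)) with hT'
  have hT : 0 < T := Real.exp_pos _
  have hTw : T = Real.exp (-(w / 2) * b ^ 2) := by
    rw [hT', hw']
    congr 1
    field_simp
    ring
  have hgi : Integrable (fun η : ℝ => ‖gK θ a β η‖ * X
      + (N * E * T * Y) * Real.exp (-(w / 2) * (η - 0) ^ 2)) :=
    ((integrable_norm_gK hθ ha).mul_const X).add ((gaussIntegrable (half_pos hw) 0).const_mul _)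
  have hle : ∀ η : ℝ, ‖gK θ a β η * F η‖ ≤ ‖gK θ a β η‖ * X
      + (N * E * T * Y) * Real.exp (-(w / 2) * (η - 0) ^ 2) := by
    intro η
    have h2 : 0 ≤ (N * E * T * Y) * Real.exp (-(w / 2) * (η - 0) ^ 2) := by positivity
    rw [norm_mul]
    rcases le_or_gt |η| b with h | h
    · have := mul_le_mul_of_nonneg_left (hF η h) (norm_nonneg (gK θ a β η))
      linarith
    · have h3 : 0 ≤ ‖gK θ a β η‖ * X := by positivity
      have h4 := mul_le_mul_of_nonneg_left (hF' η) (norm_nonneg (gK θ a β η))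
      have h5 : ‖gK θ a β η‖ ≤ N * E * T * Real.exp (-(w / 2) * (η - 0) ^ 2) := by
        rw [gK_norm hθ, hTw, mul_assoc (N * E), ← Real.exp_add]
        refine mul_le_mul_of_nonneg_left ?_ (by positivity)
        rw [Real.exp_le_exp, sub_zero]
        have h6 : b ^ 2 ≤ η ^ 2 := by
          rw [← sq_abs η]
          exact pow_le_pow_left₀ hb h.le 2
        nlinarith
      have h6 := mul_le_mul_of_nonneg_right h5 hY
      nlinarith
  refine (norm_integral_le_of_norm_le hgi (Filter.Eventually.of_forall hle)).trans (le_of_eq ?_)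
  rw [integral_add ((integrable_norm_gK hθ ha).mul_const X)
    ((gaussIntegrable (half_pos hw) 0).const_mul _), integral_mul_const, integral_const_mul,
    integral_norm_gK hθ ha, gaussInt (half_pos hw)]
  have h7 : N * Real.sqrt (Real.pi / (w / 2)) = Real.sqrt 2 := by
    have h8 : Real.pi / (w / 2) = 2 * (Real.pi / w) := by
      field_simp
    rw [h8, Real.sqrt_mul (by norm_num)]
    have := gK_coef hθ ha
    rw [← hw', ← hN'] at this
    linear_combination Real.sqrt 2 * this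
  linear_combination E * T * Y * h7

/-- the elementary exponent inequality behind `transfer` -/
theorem transfer_aux {t u y : ℝ} (ht : 0 ≤ t) (hu : 0 ≤ u) (hy : t / 2 ≤ |y|) :
    t ^ 2 / 16 ≤ (y + u) ^ 2 / 4 + t * u := by
  have htu : 0 ≤ t * u := mul_nonneg ht hu
  rcases le_total 0 y with h | h
  · rw [abs_of_nonneg h] at hy
    nlinarith
  · rw [abs_of_nonpos h] at hy
    rcases le_total u (t / 2) with h1 | h1
    · nlinarith [sq_nonneg (y + t / 2), mul_nonneg (sub_nonneg.2 h1) (sub_nonneg.2 hy)]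
    · nlinarith [sq_nonneg (y + u), mul_nonneg ht (sub_nonneg.2 h1)]

/-- Transfer from the exponential window to the exponential × Gaussian window. -/
theorem transfer {m : ℕ} {a : ℕ → ℂ} {A κ0 θ ε : ℝ} {s0 : ℂ} (hA : 0 ≤ A)
    (ha : ∀ k < m, ‖a k‖ ≤ A) (hκ0 : 0 < κ0) (hθ : 1 ≤ κ0 * θ) (hs0 : s0.re = κ0)
    (hs : ε ≤ ‖expSum m a s0‖)
    (htail : 100 * A * m * Real.exp (-(κ0 ^ 2 * θ ^ 2) / 16) ≤ ε) :
    ∃ η : ℝ, |η| ≤ κ0 / 2 ∧
      ε / 2 ≤ ‖expSum m (fun k => a k * cexp (-(k : ℂ) ^ 2 / (2 * θ ^ 2))) (s0 + η)‖ := by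
  rcases le_or_gt ε 0 with hε | hε
  · exact ⟨0, by rw [abs_zero]; positivity, by
      have := norm_nonneg (expSum m (fun k => a k * cexp (-(k : ℂ) ^ 2 / (2 * θ ^ 2)))
        (s0 + (0 : ℝ)))
      linarith⟩
  by_contra hcon
  push Not at hcon
  have hθ0 : 0 < θ := by
    by_contra h
    push Not at h
    nlinarith
  have hθc : (θ : ℂ) ≠ 0 := by exact_mod_cast hθ0.ne'
  set w := θ ^ 2 / 2 with hw'
  have hw : 0 < w := by rw [hw']; positivity
  set N := θ / Real.sqrt (2 * Real.pi) with hN'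
  have hN : 0 ≤ N := div_nonneg hθ0.le (Real.sqrt_nonneg _)
  have hNw : N * Real.sqrt (Real.pi / w) = 1 := by
    have := gK_coef hθ0 (zero_lt_one)
    simp only [mul_one] at this
    exact this
  -- the normalised Gaussians
  set P : ℕ → ℝ → ℝ := fun k η => N * Real.exp (-w * (η - -((k : ℝ) / θ ^ 2)) ^ 2) with hP
  have hPi : ∀ k, Integrable (P k) := fun k => (gaussIntegrable hw _).const_mul _
  have hPm : ∀ k, ∫ η, P k η = 1 := by
    intro k
    rw [hP]
    simp only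
    rw [integral_const_mul, gaussInt hw, hNw]
  -- the identity
  have hid : ∀ η : ℝ, ((N * Real.exp (-w * η ^ 2) : ℝ) : ℂ) *
      expSum m (fun k => a k * cexp (-(k : ℂ) ^ 2 / (2 * θ ^ 2))) (s0 + η)
      = ∑ k ∈ range m, (a k * cexp (-s0 * k)) * ((P k η : ℝ) : ℂ) := by
    intro η
    rw [expSum, Finset.mul_sum]
    refine Finset.sum_congr rfl fun k _ => ?_
    have h1 : cexp (-(k : ℂ) ^ 2 / (2 * θ ^ 2)) * cexp (-(s0 + η) * k) *
        ((Real.exp (-w * η ^ 2) : ℝ) : ℂ)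
        = cexp (-s0 * k) * ((Real.exp (-w * (η - -((k : ℝ) / θ ^ 2)) ^ 2) : ℝ) : ℂ) := by
      rw [ofReal_exp, ofReal_exp, ← Complex.exp_add, ← Complex.exp_add, ← Complex.exp_add]
      congr 1
      rw [hw']
      push_cast
      field_simp
      ring
    rw [hP]
    push_cast at h1 ⊢
    linear_combination (a k * N) * h1
  have hI : ∫ η : ℝ, ((N * Real.exp (-w * η ^ 2) : ℝ) : ℂ) *
      expSum m (fun k => a k * cexp (-(k : ℂ) ^ 2 / (2 * θ ^ 2))) (s0 + η) = expSum m a s0 := by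
    simp only [hid]
    rw [integral_finsetSum _ fun k _ => ((hPi k).ofReal).const_mul _, expSum]
    refine Finset.sum_congr rfl fun k _ => ?_
    rw [integral_const_mul, integral_complex_ofReal, hPm k, ofReal_one, mul_one]
  -- the bound
  set T := Real.exp (-(κ0 ^ 2 * θ ^ 2) / 16) with hT
  have hTpos : 0 < T := Real.exp_pos _
  have hgi : Integrable (fun η : ℝ => (ε / 2) * (N * Real.exp (-w * (η - 0) ^ 2))
      + ∑ k ∈ range m, (A * T * N) * Real.exp (-(w / 2) * (η - -((k : ℝ) / θ ^ 2)) ^ 2)) := by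
    refine (((gaussIntegrable hw 0).const_mul N).const_mul _).add ?_
    exact integrable_finsetSum _ fun k _ => (gaussIntegrable (half_pos hw) _).const_mul _
  have hle : ∀ η : ℝ, ‖((N * Real.exp (-w * η ^ 2) : ℝ) : ℂ) *
      expSum m (fun k => a k * cexp (-(k : ℂ) ^ 2 / (2 * θ ^ 2))) (s0 + η)‖
      ≤ (ε / 2) * (N * Real.exp (-w * (η - 0) ^ 2))
      + ∑ k ∈ range m, (A * T * N) * Real.exp (-(w / 2) * (η - -((k : ℝ) / θ ^ 2)) ^ 2) := by
    intro η
    have h1 : 0 ≤ ∑ k ∈ range m, (A * T * N) *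
        Real.exp (-(w / 2) * (η - -((k : ℝ) / θ ^ 2)) ^ 2) :=
      Finset.sum_nonneg fun k _ => by positivity
    have h2 : 0 ≤ (ε / 2) * (N * Real.exp (-w * (η - 0) ^ 2)) := by positivity
    rcases le_or_gt |η| (κ0 / 2) with h | h
    · have h3 := (hcon η h).le
      rw [norm_mul, norm_real, Real.norm_eq_abs, abs_of_nonneg (by positivity)]
      have h4 : 0 ≤ N * Real.exp (-w * η ^ 2) := by positivity
      have h5 := mul_le_mul_of_nonneg_left h3 h4
      rw [sub_zero]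
      linarith
    · rw [hid]
      refine (norm_sum_le _ _).trans ?_
      refine le_trans (Finset.sum_le_sum fun k hk => ?_) (le_add_of_nonneg_left h2)
      have h3 : ‖a k * cexp (-s0 * k)‖ ≤ A * Real.exp (-(κ0 * k)) := by
        rw [norm_mul, norm_exp]
        have : (-s0 * k).re = -(κ0 * k) := by
          rw [neg_mul, neg_re, mul_re, natCast_re, natCast_im, hs0]
          ring
        rw [this]
        exact mul_le_mul_of_nonneg_right (ha k (Finset.mem_range.1 hk)) (Real.exp_pos _).le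
      have h4 : ‖((P k η : ℝ) : ℂ)‖ = N * Real.exp (-w * (η - -((k : ℝ) / θ ^ 2)) ^ 2) := by
        rw [norm_real, Real.norm_eq_abs, abs_of_nonneg (by rw [hP]; positivity)]
      rw [norm_mul, h4]
      have h5 : Real.exp (-(κ0 * k)) * Real.exp (-w * (η - -((k : ℝ) / θ ^ 2)) ^ 2)
          ≤ T * Real.exp (-(w / 2) * (η - -((k : ℝ) / θ ^ 2)) ^ 2) := by
        rw [hT, ← Real.exp_add, ← Real.exp_add, Real.exp_le_exp]
        have hx := transfer_aux (t := κ0 * θ) (u := (k : ℝ) / θ) (y := η * θ) (by positivity)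
          (by positivity) (by
            rw [abs_mul, abs_of_pos hθ0]
            nlinarith)
        have e1 : κ0 * θ * ((k : ℝ) / θ) = κ0 * k := by field_simp
        have e2 : (w / 2) * (η - -((k : ℝ) / θ ^ 2)) ^ 2 = (η * θ + (k : ℝ) / θ) ^ 2 / 4 := by
          rw [hw']
          field_simp
          ring
        have e3 : -w * (η - -((k : ℝ) / θ ^ 2)) ^ 2
            = -((w / 2) * (η - -((k : ℝ) / θ ^ 2)) ^ 2) - (w / 2) * (η - -((k : ℝ) / θ ^ 2)) ^ 2 := by
          ring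
        have e4 : -(w / 2) * (η - -((k : ℝ) / θ ^ 2)) ^ 2
            = -((w / 2) * (η - -((k : ℝ) / θ ^ 2)) ^ 2) := by ring
        have e5 : -(κ0 ^ 2 * θ ^ 2) / 16 = -((κ0 * θ) ^ 2 / 16) := by ring
        rw [e1] at hx
        rw [e3, e4, e5, e2]
        linarith
      calc ‖a k * cexp (-s0 * k)‖ * (N * Real.exp (-w * (η - -((k : ℝ) / θ ^ 2)) ^ 2))
          ≤ (A * Real.exp (-(κ0 * k))) * (N * Real.exp (-w * (η - -((k : ℝ) / θ ^ 2)) ^ 2)) :=
            mul_le_mul_of_nonneg_right h3 (by positivity)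
        _ = (A * N) * (Real.exp (-(κ0 * k)) * Real.exp (-w * (η - -((k : ℝ) / θ ^ 2)) ^ 2)) := by
            ring
        _ ≤ (A * N) * (T * Real.exp (-(w / 2) * (η - -((k : ℝ) / θ ^ 2)) ^ 2)) :=
            mul_le_mul_of_nonneg_left h5 (by positivity)
        _ = _ := by ring
  have hfin := norm_integral_le_of_norm_le hgi (Filter.Eventually.of_forall hle)
  rw [hI, integral_add (((gaussIntegrable hw 0).const_mul N).const_mul _)
    (integrable_finsetSum _ fun k _ => (gaussIntegrable (half_pos hw) _).const_mul _),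
    integral_const_mul, integral_const_mul, gaussInt hw, hNw,
    integral_finsetSum _ fun k _ => (gaussIntegrable (half_pos hw) _).const_mul _] at hfin
  have h7 : N * Real.sqrt (Real.pi / (w / 2)) = Real.sqrt 2 := by
    have h8 : Real.pi / (w / 2) = 2 * (Real.pi / w) := by
      field_simp
    rw [h8, Real.sqrt_mul (by norm_num)]
    linear_combination Real.sqrt 2 * hNw
  have h8 : ∀ k ∈ range m, ∫ η : ℝ, (A * T * N) *
      Real.exp (-(w / 2) * (η - -((k : ℝ) / θ ^ 2)) ^ 2) = A * T * Real.sqrt 2 := by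
    intro k _
    rw [integral_const_mul, gaussInt (half_pos hw)]
    linear_combination A * T * h7
  rw [Finset.sum_congr rfl h8, Finset.sum_const, Finset.card_range, nsmul_eq_mul] at hfin
  have hs2 : Real.sqrt 2 ≤ 2 := by
    rw [Real.sqrt_le_left (by norm_num)]
    norm_num
  have h9 : 0 ≤ A * m * T := by positivity
  have h10 : (m : ℝ) * (A * T * Real.sqrt 2) ≤ 2 * (A * m * T) := by nlinarith
  have h11 : 100 * (A * m * T) ≤ ε := by linarith
  linarith

end Vale.Agent.P321.UB
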